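import Crest.Agent.R081.Hilb

/-! The twist maps and the step maps are smooth and volume preserving; their action on modes. -/

set_option autoImplicit false

namespace Crest.Agent.R081

open MeasureTheory Set Filter Topology Crest.AnalysisR.Torus3 Crest.Agent.R210 Crest.Agent.R075

theorem maps_shear (i : Fin 3) (φ : UnitAddCircle → T3) (hφ : Measurable φ)
    (h0 : ∀ u, φ u i = 0) :
    MeasurePreserving (fun x : T3 => x + φ (x i)) volume volume := by
  set e := MeasurableEquiv.piFinSuccAbove (fun _ : Fin 3 => UnitAddCircle) i with he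
  have h1 : MeasurePreserving e volume volume :=
    volume_preserving_piFinSuccAbove (fun _ : Fin 3 => UnitAddCircle) i
  have hψ : Measurable fun u : UnitAddCircle => (fun j : Fin 2 => φ u (i.succAbove j)) :=
    measurable_pi_lambda _ fun j => (measurable_pi_apply _).comp hφ
  have h2 : MeasurePreserving
      (fun p : UnitAddCircle × (Fin 2 → UnitAddCircle) =>
        (id p.1, p.2 + fun j : Fin 2 => φ p.1 (i.succAbove j)))
      ((volume : Measure UnitAddCircle).prod volume) ((volume : Measure UnitAddCircle).prod volume) := by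
    refine MeasurePreserving.skew_product (MeasurePreserving.id _)
      (g := fun u y => y + fun j : Fin 2 => φ u (i.succAbove j)) ?_ ?_
    · exact measurable_snd.add (hψ.comp measurable_fst)
    · exact Eventually.of_forall fun u => (measurePreserving_add_right volume _).map_eq
  have h3 := (h1.symm e).comp (h2.comp h1)
  have h4 : (fun x : T3 => x + φ (x i)) = e.symm ∘
      (fun p : UnitAddCircle × (Fin 2 → UnitAddCircle) =>
        (id p.1, p.2 + fun j : Fin 2 => φ p.1 (i.succAbove j))) ∘ e := by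
    funext x
    apply e.injective
    simp only [Function.comp, MeasurableEquiv.apply_symm_apply]
    simp only [he, MeasurableEquiv.piFinSuccAbove_apply, id]
    ext
    · simp [h0]
    · simp [Fin.removeNth]
  rw [h4]
  exact h3

theorem maps_symm {T : Equiv.Perm T3} (h : MeasurePreserving T volume volume)
    (h' : Measurable T.symm) : MeasurePreserving T.symm volume volume :=
  MeasurePreserving.symm (⟨T, h.measurable, h'⟩ : T3 ≃ᵐ T3) h

theorem maps_meas_coe {f : ℝ → ℝ} (hf : Continuous f) :
    Measurable fun u : UnitAddCircle => ((f (rep u) : ℝ) : UnitAddCircle) :=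
  (AddCircle.continuous_mk' 1).measurable.comp (hf.measurable.comp measurable_rep)

theorem maps_al_rep (P : Prof) (ρ x : ℝ) :
    ((ρ * P.al (rep (x : UnitAddCircle)) : ℝ) : UnitAddCircle) = ((ρ * P.al x : ℝ) : UnitAddCircle) :=
  coe_rep_deg (f := fun w => ρ * P.al w) (N := 0) (fun w => by rw [P.al_periodic w]; simp) x

theorem maps_al_rep' (P : Prof) (x : ℝ) :
    ((P.al (rep (x : UnitAddCircle)) : ℝ) : UnitAddCircle) = ((P.al x : ℝ) : UnitAddCircle) := by
  simpa using maps_al_rep P 1 x

theorem maps_Afn_rep (P : Prof) (q : ℤ) (δ e1 x : ℝ) :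
    ((P.Afn q δ e1 (rep (x : UnitAddCircle)) : ℝ) : UnitAddCircle) =
      ((P.Afn q δ e1 x : ℝ) : UnitAddCircle) := by
  obtain ⟨N, hN⟩ := P.Afn_deg q δ e1
  exact coe_rep_deg hN x

/-- Lifts: `x + (al (x 2), ρ al (x 2), 0)` (use `coe_rep_deg` with `N = 0`).  Volume preservation:
shears `x ↦ update x i (x i + φ x)` with `φ` independent of `x i` preserve volume (Fubini). -/
theorem good_RE (P : Prof) (ρ : ℝ) : Good (RE P ρ) := by
  have hal : ContDiff ℝ (⊤ : ℕ∞) fun x : Fin 3 → ℝ => P.al (x 2) :=
    P.al_contDiff.comp (contDiff_apply ℝ ℝ 2)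
  have hm1 := maps_meas_coe P.al_contDiff.continuous
  have hm2 := maps_meas_coe (f := fun w => ρ * P.al w)
    (continuous_const.mul P.al_contDiff.continuous)
  refine ⟨⟨⟨fun x => ![x 0 + P.al (x 2), x 1 + ρ * P.al (x 2), x 2], ?_, fun x => ?_⟩,
    fun x => ![x 0 - P.al (x 2), x 1 - ρ * P.al (x 2), x 2], ?_, fun x => ?_⟩, ?_, ?_⟩
  · refine contDiff_pi.2 fun i => ?_
    fin_cases i
    · exact (contDiff_apply ℝ ℝ 0).add hal
    · exact (contDiff_apply ℝ ℝ 1).add (contDiff_const.mul hal)
    · exact contDiff_apply ℝ ℝ 2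
  · funext i
    fin_cases i
    · simp [RE, proj, maps_al_rep']
    · simp [RE, proj, maps_al_rep]
    · simp [RE, proj]
  · refine contDiff_pi.2 fun i => ?_
    fin_cases i
    · exact (contDiff_apply ℝ ℝ 0).sub hal
    · exact (contDiff_apply ℝ ℝ 1).sub (contDiff_const.mul hal)
    · exact contDiff_apply ℝ ℝ 2
  · funext i
    fin_cases i
    · simp [RE, proj, maps_al_rep']
    · simp [RE, proj, maps_al_rep]
    · simp [RE, proj]
  · have := maps_shear 2 (fun u => ![((P.al (rep u) : ℝ) : UnitAddCircle),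
      ((ρ * P.al (rep u) : ℝ) : UnitAddCircle), 0])
      (measurable_pi_lambda _ fun i => by
        fin_cases i
        · exact hm1
        · exact hm2
        · exact measurable_const) (fun u => by simp)
    convert this using 1
    funext x i
    fin_cases i <;> simp [RE]
  · have := maps_shear 2 (fun u => ![-((P.al (rep u) : ℝ) : UnitAddCircle),
      -((ρ * P.al (rep u) : ℝ) : UnitAddCircle), 0])
      (measurable_pi_lambda _ fun i => by
        fin_cases i
        · exact hm1.neg
        · exact hm2.neg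
        · exact measurable_const) (fun u => by simp)
    convert this using 1
    funext x i
    fin_cases i <;> simp [RE, sub_eq_add_neg]

/-- Decompose into a linear automorphism (`AddMonoidHom.measurePreserving`, continuous surjective
endomorphism of the compact group), a shear and a translation. -/
theorem good_hmE (P : Prof) (m : Mat) (σ : ℤ) (β δ e1 : ℝ) : Good (hmE P m σ β δ e1) := by
  have hA2 : ContDiff ℝ (⊤ : ℕ∞) fun x : Fin 3 → ℝ => P.Afn m.q δ e1 (x 2) :=
    (P.Afn_contDiff m.q δ e1).comp (contDiff_apply ℝ ℝ 2)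
  have hA0 : ContDiff ℝ (⊤ : ℕ∞) fun x : Fin 3 → ℝ => P.Afn m.q δ e1 (x 0) :=
    (P.Afn_contDiff m.q δ e1).comp (contDiff_apply ℝ ℝ 0)
  have hm1 := maps_meas_coe (P.Afn_contDiff m.q δ e1).continuous
  have c0 : ContDiff ℝ (⊤ : ℕ∞) fun x : Fin 3 → ℝ => x 0 := contDiff_apply ℝ ℝ 0
  have c1 : ContDiff ℝ (⊤ : ℕ∞) fun x : Fin 3 → ℝ => x 1 := contDiff_apply ℝ ℝ 1
  have c2 : ContDiff ℝ (⊤ : ℕ∞) fun x : Fin 3 → ℝ => x 2 := contDiff_apply ℝ ℝ 2
  have hmp : MeasurePreserving (hmE P m σ β δ e1) volume volume := by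
    let L : T3 →+ T3 :=
      { toFun := fun x => ![x 2, m.b • x 0 - m.a • x 1, m.q • x 1 - m.p • x 0 + σ • x 2]
        map_zero' := by funext i; fin_cases i <;> simp
        map_add' := fun x y => by
          funext i; fin_cases i
          · simp
          · simp only [Fin.mk_one, Fin.isValue, Matrix.cons_val_zero, Matrix.cons_val_one,
              Pi.add_apply]
            module
          · simp only [Fin.reduceFinMk, Fin.isValue, Matrix.cons_val, Pi.add_apply]
            module }
    have hLc : Continuous L := by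
      refine continuous_pi fun i => ?_
      fin_cases i
      · exact continuous_apply 2
      · exact ((continuous_apply 0).zsmul m.b).sub ((continuous_apply 1).zsmul m.a)
      · exact (((continuous_apply 1).zsmul m.q).sub ((continuous_apply 0).zsmul m.p)).add
          ((continuous_apply 2).zsmul σ)
    set φ : UnitAddCircle → T3 := fun u => ![0, -((P.Afn m.q δ e1 (rep u) : ℝ) : UnitAddCircle),
      -((β : ℝ) : UnitAddCircle)] with hφ
    have hcomp : ∀ x, hmE P m σ β δ e1 x = L x + φ (L x 0) := by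
      intro x
      funext i
      fin_cases i <;> simp [hmE, L, hφ, sub_eq_add_neg]
    have hφ0 : ∀ u, φ u 0 = 0 := fun u => by simp [hφ]
    have hLs : Function.Surjective L := by
      intro y
      obtain ⟨x, hx⟩ := (hmE P m σ β δ e1).surjective (y + φ (y 0))
      refine ⟨x, ?_⟩
      rw [hcomp] at hx
      have h0 : L x 0 = y 0 := by
        have := congrFun hx 0
        simpa [hφ0] using this
      rw [h0] at hx
      exact add_right_cancel hx
    have h1 : MeasurePreserving L volume volume :=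
      AddMonoidHom.measurePreserving hLc hLs rfl
    have h2 := maps_shear 0 φ (measurable_pi_lambda _ fun i => by
        fin_cases i
        · exact measurable_const
        · exact hm1.neg
        · exact measurable_const) hφ0
    have h3 : (hmE P m σ β δ e1 : T3 → T3) = (fun x : T3 => x + φ (x 0)) ∘ L := funext hcomp
    rw [h3]
    exact h2.comp h1
  refine ⟨⟨⟨fun x => ![x 2, m.b * x 0 - m.a * x 1 - P.Afn m.q δ e1 (x 2),
      m.q * x 1 - m.p * x 0 + σ * x 2 - β], ?_, fun x => ?_⟩,
    fun y => ![m.q * (y 1 + P.Afn m.q δ e1 (y 0)) + m.a * (y 2 + β - σ * y 0),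
      m.p * (y 1 + P.Afn m.q δ e1 (y 0)) + m.b * (y 2 + β - σ * y 0), y 0], ?_, fun x => ?_⟩,
    hmp, maps_symm hmp ?_⟩
  · refine contDiff_pi.2 fun i => ?_
    fin_cases i
    · exact c2
    · exact ((contDiff_const.mul c0).sub (contDiff_const.mul c1)).sub hA2
    · exact (((contDiff_const.mul c1).sub (contDiff_const.mul c0)).add
        (contDiff_const.mul c2)).sub contDiff_const
  · funext i
    fin_cases i
    · simp [hmE, proj]
    · simp [hmE, proj, maps_Afn_rep, ← zsmul_eq_mul]
    · simp [hmE, proj, ← zsmul_eq_mul]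
  · refine contDiff_pi.2 fun i => ?_
    fin_cases i
    · exact (contDiff_const.mul (c1.add hA0)).add
        (contDiff_const.mul ((c2.add contDiff_const).sub (contDiff_const.mul c0)))
    · exact (contDiff_const.mul (c1.add hA0)).add
        (contDiff_const.mul ((c2.add contDiff_const).sub (contDiff_const.mul c0)))
    · exact c0
  · funext i
    fin_cases i
    · simp [hmE, proj, maps_Afn_rep, ← zsmul_eq_mul]
    · simp [hmE, proj, maps_Afn_rep, ← zsmul_eq_mul]
    · simp [hmE, proj]
  · have hA : Measurable fun y : T3 => ((P.Afn m.q δ e1 (rep (y 0)) : ℝ) : UnitAddCircle) :=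
      hm1.comp (measurable_pi_apply 0)
    have m0 : Measurable fun y : T3 => y 0 := measurable_pi_apply 0
    have m1 : Measurable fun y : T3 => y 1 := measurable_pi_apply 1
    have m2 : Measurable fun y : T3 => y 2 := measurable_pi_apply 2
    refine measurable_pi_lambda _ fun i => ?_
    fin_cases i
    · exact ((m1.add hA).const_smul m.q).add
        (((m2.add measurable_const).sub (m0.const_smul σ)).const_smul m.a)
    · exact ((m1.add hA).const_smul m.p).add
        (((m2.add measurable_const).sub (m0.const_smul σ)).const_smul m.b)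
    · exact m0

/-- The twist map. -/
noncomputable def RR (P : Prof) (ρ : ℝ) : VD := ⟨RE P ρ, good_RE P ρ⟩

/-- The step map. -/
noncomputable def hm (P : Prof) (m : Mat) (σ : ℤ) (β δ e1 : ℝ) : VD :=
  ⟨hmE P m σ β δ e1, good_hmE P m σ β δ e1⟩

/-- The approximant `H⁻¹ R H`. -/
noncomputable def TT (H : VD) (P : Prof) (ρ : ℝ) : VD := H⁻¹ * RR P ρ * H

theorem maps_fourier_add (j : ℤ) (x y : UnitAddCircle) :
    fourier j (x + y) = fourier j x * fourier j y := by
  simp only [fourier_apply, smul_add, AddCircle.toCircle_add, Circle.coe_mul]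

theorem maps_RE_zpow (P : Prof) (i : ℤ) (x : T3) :
    ((RE P 0) ^ i) x = ![x 0 + ((i * P.al (rep (x 2)) : ℝ) : UnitAddCircle), x 1, x 2] := by
  induction i using Int.induction_on generalizing x with
  | zero => funext k; fin_cases k <;> simp
  | succ i ih =>
    rw [zpow_add_one, Equiv.Perm.mul_apply, ih]
    funext k
    fin_cases k
    · simp only [RE, Equiv.coe_fn_mk, Fin.zero_eta, Fin.isValue, Matrix.cons_val_zero,
        Matrix.cons_val]
      rw [add_assoc, ← AddCircle.coe_add]
      congr 2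
      push_cast
      ring
    · simp [RE]
    · simp [RE]
  | pred i ih =>
    rw [zpow_sub_one, Equiv.Perm.mul_apply, ih]
    funext k
    fin_cases k
    · simp only [RE, Equiv.Perm.inv_def, Equiv.coe_fn_symm_mk, Fin.zero_eta, Fin.isValue,
        Matrix.cons_val_zero, Matrix.cons_val]
      rw [sub_eq_add_neg, add_assoc, ← AddCircle.coe_neg, ← AddCircle.coe_add]
      congr 2
      push_cast
      ring
    · simp [RE, Equiv.Perm.inv_def]
    · simp [RE, Equiv.Perm.inv_def]

theorem kp_RR_zpow_EE (P : Prof) (i j n : ℤ) {F : ℝ → ℂ} (hF : Bd F) :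
    kp (RR P 0 ^ i) (EE j n F) = EE j n fun w => ee (i * (j * P.al w)) * F w := by
  unfold EE
  rw [kp_L3 _ (memLp_EE j n hF)]
  congr 1
  funext x
  have h : ((RR P 0 ^ i : VD) : Equiv.Perm T3) = (RE P 0) ^ i := by
    rw [Subgroup.coe_zpow]; rfl
  rw [h, maps_RE_zpow]
  simp only [Fin.isValue, Matrix.cons_val_zero, Matrix.cons_val_one, Matrix.cons_val]
  rw [maps_fourier_add, fourier_coe]
  have : (j : ℝ) * (i * P.al (rep (x 2))) = i * (j * P.al (rep (x 2))) := by ring
  rw [this]
  ring

theorem app_RR_EE (b : ℤ →₀ ℂ) (P : Prof) (j n : ℤ) {F : ℝ → ℂ} (hF : Bd F) :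
    app b (RR P 0) (EE j n F) = EE j n fun w => tp b (j * P.al w) * F w := by
  have hb : ∀ l : ℤ, Bd fun w => ee (l * (j * P.al w)) * F w := fun l =>
    (Bd.ee (measurable_const.mul (measurable_const.mul P.al_contDiff.continuous.measurable))).mul hF
  unfold app tp Finsupp.sum
  simp only [kp_RR_zpow_EE P _ j n hF, Finset.sum_mul, mul_assoc]
  rw [EE_sum j n b.support (F := fun l w => b l * (ee (l * (j * P.al w)) * F w))
    fun l _ => (Bd.const _).mul (hb l)]
  exact Finset.sum_congr rfl fun l _ => (EE_const_mul j n _ (hb l)).symm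

/-- Transport of a mode through the step map. -/
theorem kp_hm_inv_EE (P : Prof) (m : Mat) (σ : ℤ) (β δ e1 : ℝ) (j n : ℤ) {F : ℝ → ℂ} (hF : Bd F) :
    kp (hm P m σ β δ e1)⁻¹ (EE j n F) =
      E1 (m.q * j + m.p * n) (m.a * j + m.b * n) fun w =>
        ee (((m.a * j + m.b * n : ℤ) : ℝ) * β) * F w *
          ee (((m.q * j + m.p * n : ℤ) : ℝ) * P.Afn m.q δ e1 w -
            ((σ * (m.a * j + m.b * n) : ℤ) : ℝ) * w) := by
  unfold EE E1
  rw [kp_L3 _ (memLp_EE j n hF)]
  congr 1
  funext y
  have h : (((hm P m σ β δ e1)⁻¹ : VD) : Equiv.Perm T3) y =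
      ![m.q • (y 1 + ((P.Afn m.q δ e1 (rep (y 0)) : ℝ) : UnitAddCircle)) +
        m.a • (y 2 + ((β : ℝ) : UnitAddCircle) - σ • y 0),
      m.p • (y 1 + ((P.Afn m.q δ e1 (rep (y 0)) : ℝ) : UnitAddCircle)) +
        m.b • (y 2 + ((β : ℝ) : UnitAddCircle) - σ • y 0), y 0] := rfl
  rw [h]
  simp only [Fin.isValue, Matrix.cons_val_zero, Matrix.cons_val_one, Matrix.cons_val]
  generalize P.Afn m.q δ e1 (rep (y 0)) = A
  have e0 := coe_rep (y 0)
  have e1' := coe_rep (y 1)
  have e2 := coe_rep (y 2)
  generalize rep (y 0) = u0 at *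
  generalize rep (y 1) = u1 at *
  generalize rep (y 2) = u2 at *
  rw [← e0, ← e1', ← e2]
  simp only [← AddCircle.coe_zsmul, ← AddCircle.coe_add, ← AddCircle.coe_sub, fourier_coe,
    zsmul_eq_mul]
  have key : ∀ a b c d e f : ℝ, a + b = c + d + e + f →
      ee a * ee b * F u0 = ee c * F u0 * ee d * ee e * ee f := by
    intro a b c d e f h
    rw [← ee_add, h, ee_add, ee_add, ee_add]
    ring
  apply key
  push_cast
  ring

/-- The invariant carried by the approximants. -/
def Inv (H : VD) (P : Prof) (g : H3) (η : ℝ) : Prop :=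
  ∃ (Y : FM Unit) (E : Set ℝ), Y.Ok ∧ (∀ i, 1 ≤ Y.j i) ∧
    (∀ i w, w ∉ Ico (0 : ℝ) (1 - P.sh.mu) → Y.G i w = 0) ∧
    g = kp H (Y.vec + star Y.vec) ∧ MeasurableSet E ∧ InjOn fold E ∧
    (∀ A : Set ℝ, MeasurableSet A → Y.mass P A ≤ (1 + η) * (volume (A ∩ E)).toReal) ∧
    1 / 2 - η ≤ ‖Y.vec‖ ^ 2

end Crest.Agent.R081
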