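import Crest.Agent.R081.Core
import Crest.Agent.R081.Maps

/-! The C-step on families of pieces: validity, approximation, densities. -/

set_option autoImplicit false

namespace Crest.Agent.R081

open MeasureTheory Set Filter Topology Crest.AnalysisR.Torus3 Crest.Agent.R210 Crest.Agent.R075

variable {Λ : Type}

/-- The margin `r` is positive and smaller than half the length of every piece. -/
def Fam.Small (F : Fam Λ) (r : ℝ) : Prop := 0 < r ∧ ∀ i, (F.pc i).a + r ≤ (F.pc i).b - r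

theorem Fam.eventually_small {F : Fam Λ} {P : Prof} (hV : F.Valid P) :
    ∀ᶠ r in 𝓝[>] (0 : ℝ), F.Small r := by
  have h0 : ∀ᶠ r in 𝓝[>] (0 : ℝ), 0 < r := self_mem_nhdsWithin
  refine h0.and (eventually_all.2 fun i => ?_)
  have h1 : 0 < ((F.pc i).b - (F.pc i).a) / 2 := by linarith [(hV i).2.2.1]
  filter_upwards [nhdsWithin_le_nhds (Iic_mem_nhds h1)] with r hr
  have : r ≤ ((F.pc i).b - (F.pc i).a) / 2 := hr
  linarith

theorem cs_j_pos {P : Prof} {p : Pc} (hp : p.Valid P) : (0 : ℝ) < p.j := by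
  exact_mod_cast (show (0 : ℤ) < p.j from hp.1)

theorem cs_b_le {P : Prof} {p : Pc} (hp : p.Valid P) : p.b ≤ 1 := by
  linarith [hp.2.2.2, P.sh.mu_pos]

theorem cs_amp_sq (P : Prof) {ν δ : ℝ} (hν : 0 ≤ ν) (hδ : 0 ≤ δ) (j : ℤ) :
    P.amp ν δ j ^ 2 = δ * (ν * P.a0) / (P.eps * (j * δ) ^ 2) := by
  have := P.a0_pos
  have := P.eps_pos
  exact Real.sq_sqrt (by positivity)

theorem cs_norm_kid (P : Prof) (p : Pc) (q : ℕ) (δ mu' : ℝ) (j : ℤ) :
    ‖(p.kid P q δ mu' j).c‖ ^ 2 = ‖p.c‖ ^ 2 * P.amp p.j δ j ^ 2 := by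
  simp only [Pc.kid, norm_mul, norm_fres, norm_ee, mul_one, Complex.norm_real, mul_pow,
    Real.norm_eq_abs, sq_abs]

theorem cs_win {P : Prof} {p : Pc} (hp : p.Valid P) {r δ : ℝ} (hr : 0 < r)
    (hr' : p.a + r ≤ p.b - r) (hδ : 0 < δ) {j : ℤ} (hj : j ∈ p.win P r δ) :
    0 < (j : ℝ) * δ ∧ P.ws p.j (j * δ) ∈ Ico p.a p.b ∧
      (j : ℝ) * δ ∈ Ico (P.tt p.j p.a) (P.tt p.j p.b) := by
  obtain ⟨h1, h2⟩ := (mem_Wi hδ).1 hj
  have hν := cs_j_pos hp
  have hb := cs_b_le hp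
  have h3 : 0 < (j : ℝ) * δ := (P.tt_pos hν (by linarith)).trans_le h1
  have h4 := (P.tt_le_iff hν (by linarith) h3).1 h1
  have h5 := (P.lt_tt_iff hν (by linarith) h3).1 h2
  exact ⟨h3, ⟨by linarith, by linarith⟩, (P.tt_le_tt hν (by linarith) (by linarith)).trans h1,
    h2.trans_le (P.tt_le_tt hν (by linarith) hb)⟩

/-- The squared modulus of the coefficient of a child is `δ` times the density of the parent. -/
theorem Pc.norm_kid_sq {P : Prof} {p : Pc} (hp : p.Valid P) {r δ : ℝ} (hr : 0 < r)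
    (hr' : p.a + r ≤ p.b - r) (hδ : 0 < δ) (q : ℕ) (mu' : ℝ) {j : ℤ} (hj : j ∈ p.win P r δ) :
    ‖(p.kid P q δ mu' j).c‖ ^ 2 = δ * p.dens P (j * δ) := by
  rw [cs_norm_kid, cs_amp_sq P (cs_j_pos hp).le hδ.le, Pc.dens,
    indicator_of_mem (cs_win hp hr hr' hδ hj).2.2]
  ring

theorem child_valid {F : Fam Λ} {P : Prof} (hV : F.Valid P) {r δ : ℝ} (hr : F.Small r) (hδ : 0 < δ)
    (q : ℕ) (P' : Prof) : (F.child P q r δ P'.sh.mu).Valid P' := by
  rintro ⟨i, j, hj⟩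
  have h1 := (cs_win (hV i) hr.1 (hr.2 i) hδ hj).1
  have h2 : (0 : ℝ) < j := (mul_pos_iff_of_pos_right hδ).1 h1
  have h3 : (0 : ℤ) < j := by exact_mod_cast h2
  have h4 := P'.sh.mu_le
  refine ⟨h3, le_rfl, ?_, le_rfl⟩
  change (0 : ℝ) < 1 - P'.sh.mu
  linarith

theorem child_inj {F : Fam Λ} {P : Prof} (hV : F.Valid P) (hS : F.Sep) {r : ℝ} (hr : F.Small r) :
    ∀ᶠ q : ℕ in atTop, (∀ i, 0 < (cm q).q * (F.pc i).j + (F.pc i).n) ∧
      (∀ i i', (cm q).q * (F.pc i).j + (F.pc i).n = (cm q).q * (F.pc i').j + (F.pc i').n →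
        (F.pc i).j = (F.pc i').j ∧ (F.pc i).n = (F.pc i').n) ∧
      ∀ δ > 0, ∀ mu', (F.child P q r δ mu').Inj := by
  have h1 : ∀ᶠ q : ℕ in atTop, ∀ i, 2 * |(F.pc i).n| ≤ q := by
    refine eventually_all.2 fun i => ?_
    filter_upwards [eventually_ge_atTop (2 * (F.pc i).n.natAbs)] with q hq
    rw [← Int.natCast_natAbs]
    exact_mod_cast hq
  filter_upwards [h1] with q hq
  have hQ : (cm q).q = q + 1 := rfl
  have h2 : ∀ i i', (cm q).q * (F.pc i).j + (F.pc i).n = (cm q).q * (F.pc i').j + (F.pc i').n →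
      (F.pc i).j = (F.pc i').j ∧ (F.pc i).n = (F.pc i').n := by
    intro i i' h
    rw [hQ] at h
    have a1 := hq i
    have a2 := hq i'
    have a3 := le_abs_self (F.pc i).n
    have a4 := neg_abs_le (F.pc i).n
    have a5 := le_abs_self (F.pc i').n
    have a6 := neg_abs_le (F.pc i').n
    have a7 : (0 : ℤ) ≤ q := Int.natCast_nonneg q
    have e : (F.pc i).j = (F.pc i').j := by
      rcases lt_trichotomy (F.pc i).j (F.pc i').j with hlt | he | hlt
      · nlinarith [mul_le_mul_of_nonneg_left (Int.add_one_le_of_lt hlt) (by linarith : (0 : ℤ) ≤ q + 1)]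
      · exact he
      · nlinarith [mul_le_mul_of_nonneg_left (Int.add_one_le_of_lt hlt) (by linarith : (0 : ℤ) ≤ q + 1)]
    refine ⟨e, ?_⟩
    rw [e] at h
    linarith
  refine ⟨fun i => ?_, h2, fun δ hδ mu' => ?_⟩
  · rw [hQ]
    have a1 := hq i
    have a4 := neg_abs_le (F.pc i).n
    have a5 := abs_nonneg (F.pc i).n
    have a7 : (0 : ℤ) ≤ q := Int.natCast_nonneg q
    nlinarith [mul_le_mul_of_nonneg_left (hV i).1 (by linarith : (0 : ℤ) ≤ q + 1)]
  · rintro ⟨i, j, hj⟩ ⟨i', j', hj'⟩ e1 e2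
    have e3 : j = j' := e1
    subst e3
    obtain ⟨e4, e5⟩ := h2 i i' e2
    have e6 : i = i' := by
      by_contra hne
      have a1 := (cs_win (hV i) hr.1 (hr.2 i) hδ hj).2.1
      have a2 := (cs_win (hV i') hr.1 (hr.2 i') hδ hj').2.1
      rw [← e4] at a2
      exact Set.disjoint_left.1 (hS i i' hne e4 e5) a1 a2
    subst e6
    rfl

/-- the uncut vector of a piece -/
noncomputable def Pc.full (p : Pc) : H3 := EE p.j p.n fun w => p.c * ee (p.l * w)

theorem cs_bd (c : ℂ) (l : ℤ) : Bd fun w => c * ee (l * w) :=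
  (Bd.const c).mul (Bd.ee (by fun_prop))

theorem cs_piece {P : Prof} {p : Pc} (hp : p.Valid P) {r η : ℝ} (hr : 0 < r)
    (hr' : p.a + r ≤ p.b - r) (hη : 0 < η) (hη1 : η ≤ 1 / 2) {q : ℕ}
    (hlam : |p.j + p.n / ((cm q).q : ℝ) - p.j| ≤ p.j * min (P.eps * r / 2) η) :
    ∀ᶠ δ in 𝓝[>] (0 : ℝ), ∀ mu' : ℝ,
      ‖kp (hm P (cm q) 0 0 δ 0)⁻¹ p.vec - ∑ j ∈ p.win P r δ, (p.kid P q δ mu' j).full‖ ^ 2 ≤
        ‖p.c‖ ^ 2 * (2 * r + 5 * η) ∧
      ∑ j ∈ p.win P r δ, ‖(p.kid P q δ mu' j).c‖ ^ 2 ≤ p.mass + ‖p.c‖ ^ 2 * η := by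
  have hν := cs_j_pos hp
  have hb := cs_b_le hp
  have ha := hp.2.1
  filter_upwards [core P (l := p.l) ha hr' hp.2.2.2 hν hr hη hη1 hlam,
    amp_sum P (a := p.a + r) (b := p.b - r) (by linarith) hr' (by linarith) hν hη 1 le_rfl,
    self_mem_nhdsWithin] with δ h1 h2 hδ mu'
  have hδ' : 0 < δ := hδ
  simp only [Nat.cast_one, one_dvd, Finset.filter_true, div_one] at h2
  obtain ⟨h3, h4⟩ := abs_le.1 h2
  constructor
  · set lam : ℝ := p.j + p.n / ((cm q).q : ℝ) with hlamdef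
    set c' : ℤ → ℂ := fun j => fres * P.amp p.j δ j * ee (P.Ph lam δ (j - p.l)) with hc'
    set G : ℝ → ℂ := (Ico p.a p.b).indicator fun w => ee (lam * P.AA w / δ + p.l * w) with hG
    have h5 := h1 (p.win P r δ) subset_rfl c'
    simp only [hc', sub_self, norm_zero, ne_eq, OfNat.ofNat_ne_zero, not_false_eq_true, zero_pow,
      Finset.sum_const_zero, mul_zero, add_zero] at h5
    have hGb : Bd G := (Bd.ee (((P.AA_contDiff.continuous.measurable.const_mul _).div_const _).add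
      (by fun_prop))).indicator measurableSet_Ico
    have hSb : Bd fun w => ∑ j ∈ p.win P r δ, c' j * ee (j * w) := Bd.sum _ fun j _ => cs_bd _ _
    have hQ : (0 : ℝ) < ((cm q).q : ℝ) := by exact_mod_cast (cm q).qpos
    have e1 : kp (hm P (cm q) 0 0 δ 0)⁻¹ p.vec =
        E1 ((cm q).q * p.j + p.n) (-p.j) fun w => p.c * G w := by
      rw [Pc.vec, kp_hm_inv_EE _ _ _ _ _ _ _ _ p.bd]
      have b1 : (cm q).q * p.j + (cm q).p * p.n = (cm q).q * p.j + p.n := by simp [cm]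
      have b2 : (cm q).a * p.j + (cm q).b * p.n = -p.j := by simp [cm]
      rw [b1, b2]
      congr 1
      funext w
      by_cases hw : w ∈ Ico p.a p.b
      · rw [Pc.fn, hG, indicator_of_mem hw, indicator_of_mem hw,
          P.Afn_eq _ _ _ ⟨ha.trans hw.1, hw.2.le.trans hp.2.2.2⟩, mul_zero, ee_zero, one_mul,
          mul_assoc, ← ee_add]
        congr 2
        rw [hlamdef]
        push_cast
        field_simp
        ring
      · rw [Pc.fn, hG, indicator_of_notMem hw, indicator_of_notMem hw]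
        simp
    have e2 : ∑ j ∈ p.win P r δ, (p.kid P q δ mu' j).full =
        E1 ((cm q).q * p.j + p.n) (-p.j)
          fun w => p.c * ∑ j ∈ p.win P r δ, c' j * ee (j * w) := by
      rw [E1_const_mul _ _ _ hSb, E1_sum _ _ _ fun j _ => cs_bd _ _, Finset.smul_sum]
      refine Finset.sum_congr rfl fun j _ => ?_
      rw [E1_const_mul _ _ _ (Bd.ee (by fun_prop)), E1_ee, Pc.full,
        EE_const_mul _ _ _ (Bd.ee (by fun_prop)), smul_smul]
      congr 1
      simp only [Pc.kid, hc', hlamdef, mul_assoc]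
    rw [e1, e2, ← E1_sub _ _ ((Bd.const _).mul hGb) ((Bd.const _).mul hSb),
      norm_sq_E1 _ _ (((Bd.const _).mul hGb).sub ((Bd.const _).mul hSb))]
    simp only [← mul_sub]
    rw [nsq_const_mul]
    refine mul_le_mul_of_nonneg_left (h5.trans ?_) (sq_nonneg _)
    unfold Pc.win
    linarith
  · simp only [cs_norm_kid]
    rw [← Finset.mul_sum, Pc.mass, ← mul_add]
    refine mul_le_mul_of_nonneg_left ?_ (sq_nonneg _)
    unfold Pc.win
    linarith

open Classical in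
theorem cs_cut {F : Fam Λ} (hI : F.Inj) {mu' : ℝ} (h0 : 0 ≤ mu') (h1 : mu' ≤ 1)
    (ha : ∀ i, (F.pc i).a = 0) (hb : ∀ i, (F.pc i).b = 1 - mu') (κ : Λ) :
    ‖(∑ i, if F.lab i = κ then (F.pc i).full else 0) - F.vecL κ‖ ^ 2 =
      mu' * ∑ i, if F.lab i = κ then ‖(F.pc i).c‖ ^ 2 else 0 := by
  have hb' : ∀ i, Bd ((Ico (1 - mu') 1).indicator fun w => (F.pc i).c * ee ((F.pc i).l * w)) :=
    fun i => (cs_bd _ _).indicator measurableSet_Ico
  have e : ∀ i, (F.pc i).full - (F.pc i).vec = EE (F.pc i).j (F.pc i).n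
      ((Ico (1 - mu') 1).indicator fun w => (F.pc i).c * ee ((F.pc i).l * w)) := by
    intro i
    rw [Pc.full, Pc.vec, ← EE_sub _ _ (cs_bd _ _) (F.pc i).bd]
    refine EE_congr _ _ fun w hw => ?_
    rw [Pc.fn, ha, hb]
    by_cases h : w < 1 - mu'
    · rw [indicator_of_mem (show w ∈ Ico 0 (1 - mu') from ⟨hw.1, h⟩),
        indicator_of_notMem (fun h' => absurd h'.1 (not_le.2 h)), sub_self]
    · rw [indicator_of_notMem (fun h' => h h'.2),
        indicator_of_mem (show w ∈ Ico (1 - mu') 1 from ⟨not_lt.1 h, hw.2⟩), sub_zero]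
  rw [Fam.vecL, ← Finset.sum_filter, ← Finset.sum_filter, ← Finset.sum_filter,
    ← Finset.sum_sub_distrib]
  simp only [e]
  rw [norm_sq_sum_EE _ _ _ (fun i _ => hb' i) fun i _ i' _ => hI i i', Finset.mul_sum]
  refine Finset.sum_congr rfl fun i _ => ?_
  rw [nsq_indicator_of_norm (C := ‖(F.pc i).c‖) (by linarith) (by linarith) le_rfl
    fun w _ => by rw [norm_mul, norm_ee, mul_one]]
  ring

open Classical in
theorem cs_sum_child {M : Type*} [AddCommMonoid M] (F : Fam Λ) (P : Prof) (q : ℕ) (r δ mu' : ℝ)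
    (κ : Λ) (f : Pc → M) :
    (∑ s, if (F.child P q r δ mu').lab s = κ then f ((F.child P q r δ mu').pc s) else 0) =
      ∑ i, if F.lab i = κ then ∑ j ∈ (F.pc i).win P r δ, f ((F.pc i).kid P q δ mu' j) else 0 := by
  refine (Fintype.sum_sigma (fun s : Σ i : F.ι, ↥((F.pc i).win P r δ) =>
    if F.lab s.1 = κ then f ((F.pc s.1).kid P q δ mu' s.2) else 0)).trans ?_
  refine Finset.sum_congr rfl fun i _ => ?_
  split_ifs with h
  · exact Finset.sum_coe_sort ((F.pc i).win P r δ) fun j => f ((F.pc i).kid P q δ mu' j)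
  · exact Finset.sum_const_zero

/-- Piece by piece: `kp_hm_inv_EE`, `Afn_eq`, `core` (nominal frequency `j`, true frequency
`j + n / q`), `amp_sum`, `E1_ee`; then cut the children to `[0, 1 - mu')`, which costs
`mu' ∑ ‖c‖²` by orthogonality (`child_inj`). -/
theorem child_approx {F : Fam Λ} {P : Prof} (hV : F.Valid P) (hS : F.Sep) {η : ℝ} (hη : 0 < η) :
    ∀ᶠ r in 𝓝[>] (0 : ℝ), ∀ᶠ q : ℕ in atTop, ∀ᶠ δ in 𝓝[>] (0 : ℝ), ∀ mu' ∈ Icc (0 : ℝ) 1, ∀ κ,
      ‖kp (hm P (cm q) 0 0 δ 0)⁻¹ (F.vecL κ) - (F.child P q r δ mu').vecL κ‖ ≤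
        η + √(mu' * (F.massL κ + 1)) := by
  classical
  obtain ⟨ζ, ⟨⟨hζ1, hζ2⟩, hζ3⟩, hζ0⟩ : ∃ ζ : ℝ, (((∑ i, ‖(F.pc i).c‖) * √(7 * ζ) ≤ η ∧
      (∑ i, ‖(F.pc i).c‖ ^ 2) * ζ ≤ 1) ∧ ζ ≤ 1 / 2) ∧ ζ ∈ Ioi (0 : ℝ) := by
    have c1 : Continuous fun ζ : ℝ => (∑ i, ‖(F.pc i).c‖) * √(7 * ζ) := by fun_prop
    have c2 : Continuous fun ζ : ℝ => (∑ i, ‖(F.pc i).c‖ ^ 2) * ζ := by fun_prop
    have t1 := (c1.tendsto 0).eventually (eventually_le_nhds (b := η) (by simpa using hη))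
    have t2 := (c2.tendsto 0).eventually (eventually_le_nhds (b := 1) (by simp))
    have t3 : ∀ᶠ ζ in 𝓝 (0 : ℝ), ζ ≤ 1 / 2 := ge_mem_nhds (by norm_num)
    exact (Eventually.and (nhdsWithin_le_nhds ((t1.and t2).and t3))
      (self_mem_nhdsWithin (s := Ioi (0 : ℝ)))).exists
  have hζ : 0 < ζ := hζ0
  filter_upwards [Fam.eventually_small hV, nhdsWithin_le_nhds (ge_mem_nhds hζ)] with r hr hrζ
  have hrζ' : r ≤ ζ := hrζ
  have hq : ∀ᶠ q : ℕ in atTop, ∀ i, |(F.pc i).j + (F.pc i).n / ((cm q).q : ℝ) - (F.pc i).j| ≤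
      (F.pc i).j * min (P.eps * r / 2) ζ := by
    refine eventually_all.2 fun i => ?_
    have h1 : 0 < ((F.pc i).j : ℝ) * min (P.eps * r / 2) ζ :=
      mul_pos (cs_j_pos (hV i)) (lt_min (by have := P.eps_pos; have := hr.1; positivity) hζ)
    have h2 := (tendsto_one_div_add_atTop_nhds_zero_nat (𝕜 := ℝ)).const_mul |((F.pc i).n : ℝ)|
    rw [mul_zero] at h2
    filter_upwards [h2.eventually (ge_mem_nhds h1)] with q hq
    have hQ : ((cm q).q : ℝ) = q + 1 := by simp [cm]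
    rw [add_sub_cancel_left, hQ, abs_div, abs_of_pos (by positivity : (0 : ℝ) < q + 1),
      div_eq_mul_one_div]
    exact hq
  filter_upwards [hq, child_inj hV hS hr] with q hq hI
  filter_upwards [eventually_all.2 fun i => cs_piece (hV i) hr.1 (hr.2 i) hζ hζ3 (hq i),
    self_mem_nhdsWithin] with δ h hδ mu' hmu κ
  have hc := cs_cut (hI.2.2 δ hδ mu') hmu.1 hmu.2 (fun _ => rfl) (fun _ => rfl) κ
  rw [cs_sum_child F P q r δ mu' κ Pc.full,
    cs_sum_child F P q r δ mu' κ fun p => ‖p.c‖ ^ 2] at hc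
  refine (norm_sub_le_norm_sub_add_norm_sub _ (∑ i, if F.lab i = κ then
    ∑ j ∈ (F.pc i).win P r δ, ((F.pc i).kid P q δ mu' j).full else 0) _).trans (add_le_add ?_ ?_)
  · rw [Fam.vecL, map_sum, ← Finset.sum_sub_distrib]
    refine (norm_sum_le _ _).trans (le_trans ?_ hζ1)
    rw [Finset.sum_mul]
    refine Finset.sum_le_sum fun i _ => ?_
    split_ifs
    · refine (Real.le_sqrt (norm_nonneg _) (by positivity)).2
        ((h i mu').1.trans (mul_le_mul_of_nonneg_left (show 2 * r + 5 * ζ ≤ 7 * ζ by linarith)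
          (sq_nonneg _))) |>.trans_eq ?_
      rw [Real.sqrt_mul (sq_nonneg _), Real.sqrt_sq (norm_nonneg _)]
    · rw [map_zero, sub_zero, norm_zero]
      positivity
  · refine Real.le_sqrt_of_sq_le (hc.trans_le (mul_le_mul_of_nonneg_left ?_ hmu.1))
    refine le_trans ?_ (add_le_add_right hζ2 _)
    rw [Fam.massL, Finset.sum_mul, ← Finset.sum_add_distrib]
    refine Finset.sum_le_sum fun i _ => ?_
    split_ifs
    · exact (h i mu').2
    · positivity

theorem cs_count (x y : ℝ) (hxy : x ≤ y) {M : ℕ} (hM : 1 ≤ M) (i : ℤ) :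
    ∃ J : Finset ℤ, (∀ j ∈ J, x < j ∧ (j : ℝ) ≤ y) ∧
      (∀ j : ℤ, x < j → (j : ℝ) ≤ y → j % M = i → j ∈ J) ∧ (J.card : ℝ) ≤ (y - x) / M + 1 := by
  have hM' : (0 : ℝ) < M := by exact_mod_cast hM
  refine ⟨(Finset.Ioc ⌊(x - i) / M⌋ ⌊(y - i) / M⌋).image fun k => k * M + i, ?_, ?_, ?_⟩
  · intro j hj
    obtain ⟨k, hk, rfl⟩ := Finset.mem_image.1 hj
    rw [Finset.mem_Ioc, Int.floor_lt, Int.le_floor, div_lt_iff₀ hM', le_div_iff₀ hM'] at hk
    push_cast
    constructor <;> linarith [hk.1, hk.2]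
  · intro j h1 h2 h3
    have e : j / M * M + i = j := by rw [← h3]; exact Int.ediv_mul_add_emod j M
    have e' : ((j / M : ℤ) : ℝ) * M + i = j := by exact_mod_cast e
    refine Finset.mem_image.2 ⟨j / M, ?_, e⟩
    rw [Finset.mem_Ioc, Int.floor_lt, Int.le_floor, div_lt_iff₀ hM', le_div_iff₀ hM']
    constructor <;> linarith
  · have h1 : ⌊(x - i) / M⌋ ≤ ⌊(y - i) / M⌋ := Int.floor_mono (by gcongr)
    have h2 : ((Finset.Ioc ⌊(x - i) / M⌋ ⌊(y - i) / M⌋).card : ℝ) =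
        ⌊(y - i) / M⌋ - ⌊(x - i) / M⌋ := by
      exact_mod_cast Int.card_Ioc_of_le _ _ h1
    have h3 := Int.floor_le ((y - i) / M)
    have h4 := Int.lt_floor_add_one ((x - i) / M)
    have h5 : (y - x) / M = (y - i) / M - (x - i) / M := by ring
    refine le_trans (by exact_mod_cast Finset.card_image_le) (h2.trans_le ?_)
    linarith

/-- At `t`, only `j` with `j δ ∈ (t (1 - eps'), t]` contribute; there are at most `κ' t / M + 1`
of them in a residue class, each contributes at most `δ S / (κ' δ t)`. -/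
theorem child_dens {F : Fam Λ} {P : Prof} (hV : F.Valid P) {r δ κ' : ℝ} (hr : F.Small r) (q : ℕ)
    {S' : Shape} {P' : Prof} (hP' : P'.Is δ κ' S') {M : ℕ} (hM : 1 ≤ M) (κ : Λ) (i : ℤ) {t S : ℝ}
    (ht : 0 < t) (hS : 0 ≤ S) (h : ∀ t' ∈ Icc (t * (1 - P'.eps)) t, F.densL P κ t' ≤ S) :
    ((F.child P q r δ P'.sh.mu).refine M).densL P' (κ, i) t ≤ S * (1 / M + 1 / (κ' * t)) := by
  classical
  have hδ : 0 < δ := hP'.1 ▸ P'.a0_pos
  have he := P'.eps_pos
  have he1 := P'.eps_le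
  have hκ : 0 < κ' := (mul_pos_iff_of_pos_right hδ).1 (hP'.2.1 ▸ he)
  have hM' : (0 : ℝ) < M := by exact_mod_cast hM
  obtain ⟨J, hJ1, hJ2, hJ3⟩ := cs_count (t * (1 - P'.eps) / δ) (t / δ)
    (by gcongr; nlinarith) hM i
  have e : ((F.child P q r δ P'.sh.mu).refine M).densL P' (κ, i) t =
      ∑ i', if F.lab i' = κ then ∑ j ∈ (F.pc i').win P r δ,
        (if j % M = i then ((F.pc i').kid P q δ P'.sh.mu j).dens P' t else 0) else 0 := by
    refine Eq.trans ?_ (cs_sum_child F P q r δ P'.sh.mu κ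
      fun p => if p.j % M = i then p.dens P' t else 0)
    refine Finset.sum_congr rfl fun s _ => ?_
    simp only [Fam.refine, Prod.mk.injEq, ite_and]
  have h1 : ∀ i', ∑ j ∈ (F.pc i').win P r δ,
      (if j % M = i then ((F.pc i').kid P q δ P'.sh.mu j).dens P' t else 0) ≤
      ∑ j ∈ J, (F.pc i').dens P (j * δ) / (κ' * t) := by
    intro i'
    have hn : ∀ j : ℤ, 0 ≤ (F.pc i').dens P (j * δ) / (κ' * t) := fun j =>
      div_nonneg (Pc.dens_nonneg (hV i') _) (by positivity)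
    refine le_trans (Finset.sum_le_sum (g := fun j : ℤ => if j ∈ J then
      (F.pc i').dens P (j * δ) / (κ' * t) else 0) fun j hj => ?_) ?_
    · have hn' : 0 ≤ if j ∈ J then (F.pc i').dens P (j * δ) / (κ' * t) else 0 := by
        split_ifs
        exacts [hn j, le_rfl]
      by_cases hji : j % M = i
      swap
      · rwa [if_neg hji]
      rw [if_pos hji, Pc.dens]
      by_cases hmem : t ∈ Ico (P'.tt ((F.pc i').kid P q δ P'.sh.mu j).j
          ((F.pc i').kid P q δ P'.sh.mu j).a) (P'.tt ((F.pc i').kid P q δ P'.sh.mu j).j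
          ((F.pc i').kid P q δ P'.sh.mu j).b)
      swap
      · rwa [indicator_of_notMem hmem]
      rw [indicator_of_mem hmem, Pc.norm_kid_sq (hV i') hr.1 (hr.2 i') hδ q _ hj]
      have a0 := (cs_win (hV i') hr.1 (hr.2 i') hδ hj).1
      have a1 : (0 : ℝ) < j := (mul_pos_iff_of_pos_right hδ).1 a0
      have hmu := P'.sh.mu_pos
      have hmu' := P'.sh.mu_le
      have a2 : (j : ℝ) * δ ≤ t := by
        have := (P'.tt_ge a1 le_rfl zero_le_one).1.trans hmem.1
        rwa [hP'.1] at this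
      have a3 : t * (1 - P'.eps) < j * δ := by
        have := hmem.2.trans_le (P'.tt_ge (w := 1 - P'.sh.mu) a1 (by linarith) (by linarith)).2
        rwa [hP'.1, lt_div_iff₀ (by linarith)] at this
      rw [if_pos (hJ2 j ((div_lt_iff₀ hδ).2 a3) ((le_div_iff₀ hδ).2 a2) hji)]
      change δ * (F.pc i').dens P (j * δ) * (j * P'.a0) / (P'.eps * t ^ 2) ≤ _
      rw [hP'.1, hP'.2.1]
      have a4 := Pc.dens_nonneg (hV i') (j * δ)
      calc _ ≤ δ * (F.pc i').dens P (j * δ) * t / (κ' * δ * t ^ 2) := by gcongr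
        _ = _ := by field_simp
    · rw [← Finset.sum_filter]
      exact Finset.sum_le_sum_of_subset_of_nonneg (fun j hj => (Finset.mem_filter.1 hj).2)
        fun j _ _ => hn j
  have h2 : ∀ j ∈ J, F.densL P κ (j * δ) / (κ' * t) ≤ S / (κ' * t) := by
    intro j hj
    obtain ⟨a1, a2⟩ := hJ1 j hj
    exact div_le_div_of_nonneg_right
      (h _ ⟨((div_lt_iff₀ hδ).1 a1).le, (le_div_iff₀ hδ).1 a2⟩) (by positivity)
  calc _ ≤ ∑ i', if F.lab i' = κ then ∑ j ∈ J, (F.pc i').dens P (j * δ) / (κ' * t) else 0 := by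
        rw [e]
        refine Finset.sum_le_sum fun i' _ => ?_
        split_ifs
        exacts [h1 i', le_rfl]
    _ = ∑ j ∈ J, F.densL P κ (j * δ) / (κ' * t) := by
        simp only [Fam.densL, Finset.sum_div]
        rw [Finset.sum_comm]
        refine Finset.sum_congr rfl fun i' _ => ?_
        split_ifs
        · rfl
        · simp
    _ ≤ J.card * (S / (κ' * t)) := by
        simpa using Finset.sum_le_card_nsmul J _ _ h2
    _ ≤ ((t / δ - t * (1 - P'.eps) / δ) / M + 1) * (S / (κ' * t)) := by gcongr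
    _ = _ := by
        rw [hP'.2.1]
        field_simp
        ring

theorem child_dens_ind {F : Fam Λ} {P : Prof} (hV : F.Valid P) {r δ κ' : ℝ} (hr : F.Small r) (q : ℕ)
    {S' : Shape} {P' : Prof} (hP' : P'.Is δ κ' S') {M : ℕ} (hM : 1 ≤ M) (κ : Λ) (i : ℤ)
    {lo hi S : ℝ} (hlo : 0 < lo) (hS : 0 ≤ S)
    (h : ∀ t, F.densL P κ t ≤ (Icc lo hi).indicator (fun _ => S) t) (t : ℝ) :
    ((F.child P q r δ P'.sh.mu).refine M).densL P' (κ, i) t ≤
      (Icc lo (hi / (1 - P'.eps))).indicator (fun _ => S * (1 / M + 1 / (κ' * lo))) t := by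
  classical
  have hδ : 0 < δ := hP'.1 ▸ P'.a0_pos
  have he := P'.eps_pos
  have he1 := P'.eps_le
  have hκ : 0 < κ' := (mul_pos_iff_of_pos_right hδ).1 (hP'.2.1 ▸ he)
  by_cases hmem : t ∈ Icc lo (hi / (1 - P'.eps))
  · rw [indicator_of_mem hmem]
    refine (child_dens hV hr q hP' hM κ i (hlo.trans_le hmem.1) hS fun t' _ =>
      (h t').trans (indicator_le_self' (fun _ _ => hS) t')).trans ?_
    gcongr
    exact hmem.1
  rw [indicator_of_notMem hmem]
  rcases le_or_gt t 0 with ht | ht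
  · refine Finset.sum_nonpos fun s _ => ?_
    split_ifs
    · have hv := child_valid hV hr hδ q P' s
      have h1 := P'.tt_pos (cs_j_pos hv) (hv.2.2.1.le.trans (cs_b_le hv))
      exact (indicator_of_notMem (fun h' => absurd (h1.trans_le h'.1) (not_lt.2 ht)) _).le
    · exact le_rfl
  · refine (child_dens hV hr q hP' hM κ i ht le_rfl fun t' ht' => ?_).trans_eq (zero_mul _)
    refine (h t').trans_eq (indicator_of_notMem (fun h' => hmem ⟨h'.1.trans ht'.2, ?_⟩) _)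
    rw [le_div_iff₀ (by linarith)]
    exact ht'.1.trans h'.2

theorem densL_refine_one (F : Fam Λ) (P : Prof) (κ : Λ) (t : ℝ) :
    (F.refine 1).densL P (κ, 0) t = F.densL P κ t := by
  refine Finset.sum_congr rfl fun s _ => ?_
  have : (F.refine 1).lab s = (κ, 0) ↔ F.lab s = κ := by
    simp [Fam.refine]
  by_cases h : F.lab s = κ
  · rw [if_pos h, if_pos (this.2 h)]
    rfl
  · rw [if_neg h, if_neg fun h' => h (this.1 h')]

end Crest.Agent.R081
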