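import Crest.Agent.R081.Maps
import Crest.Agent.R240.Param

/-! `C^k`-closeness of consecutive approximants. -/

set_option autoImplicit false

namespace Crest.Agent.R081

open MeasureTheory Set Filter Topology Crest.AnalysisR.Torus3 Crest.Agent.R210 Crest.Agent.R075

theorem close_proj_add (x y : Fin 3 → ℝ) : proj (x + y) = proj x + proj y := by
  funext i
  simp [proj]

theorem close_proj_sub (x y : Fin 3 → ℝ) : proj (x - y) = proj x - proj y := by
  funext i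
  simp [proj]

theorem close_proj_int (z : Fin 3 → ℤ) : proj (fun i => (z i : ℝ)) = 0 := by
  funext i
  simp only [proj, Pi.zero_apply]
  exact (AddCircle.coe_eq_zero_iff 1).2 ⟨z i, by simp⟩

theorem close_proj_surj (y : T3) : ∃ x, proj x = y :=
  ⟨fun i => rep (y i), funext fun i => coe_rep (y i)⟩

theorem close_refl' (k : ℕ) {τ : ℝ} (hτ : 0 ≤ τ) (T : Equiv.Perm T3) : Close k τ T T :=
  ⟨fun _ => 0, contDiff_const, fun x => by
    have : proj 0 = 0 := by funext i; simp [proj]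
    rw [this, add_zero], fun i _ x => by simpa using hτ⟩

theorem close_trans' {k : ℕ} {τ τ' : ℝ} {T T' T'' : Equiv.Perm T3} (h : Close k τ T T')
    (h' : Close k τ' T' T'') : Close k (τ + τ') T T'' := by
  obtain ⟨V, h1, h2, h3⟩ := h
  obtain ⟨V', h1', h2', h3'⟩ := h'
  refine ⟨V + V', h1.add h1', fun x => ?_, fun i hi x => ?_⟩
  · rw [h2', h2, Pi.add_apply, close_proj_add, add_assoc]
  · rw [iteratedFDeriv_add_apply (h1.of_le (by exact_mod_cast le_top)).contDiffAt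
      (h1'.of_le (by exact_mod_cast le_top)).contDiffAt]
    exact (norm_add_le _ _).trans (add_le_add (h3 i hi x) (h3' i hi x))

theorem close_mono' {k k' : ℕ} {τ τ' : ℝ} {T T' : Equiv.Perm T3} (h : Close k τ T T') (hk : k' ≤ k)
    (hτ : τ ≤ τ') : Close k' τ' T T' := by
  obtain ⟨V, h1, h2, h3⟩ := h
  exact ⟨V, h1, h2, fun i hi x => (h3 i (hi.trans hk) x).trans hτ⟩

theorem close_dist' {k : ℕ} {τ : ℝ} {T T' : Equiv.Perm T3} (h : Close k τ T T') (y : T3) :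
    dist (T y) (T' y) ≤ τ := by
  obtain ⟨V, -, h2, h3⟩ := h
  obtain ⟨x, rfl⟩ := close_proj_surj y
  have h0 := h3 0 (Nat.zero_le k) x
  rw [norm_iteratedFDeriv_zero] at h0
  rw [h2, dist_self_add_right]
  refine le_trans ?_ h0
  rw [pi_norm_le_iff_of_nonneg (norm_nonneg _)]
  exact fun i => le_trans QuotientAddGroup.norm_mk_le_norm (norm_le_pi_norm (V x) i)

theorem Close2.refl (k : ℕ) {τ : ℝ} (hτ : 0 ≤ τ) (T : VD) : Close2 k τ T T :=
  ⟨close_refl' k hτ _, close_refl' k hτ _⟩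

theorem Close2.trans {k : ℕ} {τ τ' : ℝ} {T T' T'' : VD} (h : Close2 k τ T T')
    (h' : Close2 k τ' T' T'') : Close2 k (τ + τ') T T'' :=
  ⟨close_trans' h.1 h'.1, close_trans' h.2 h'.2⟩

theorem Close2.mono {k k' : ℕ} {τ τ' : ℝ} {T T' : VD} (h : Close2 k τ T T') (hk : k' ≤ k)
    (hτ : τ ≤ τ') : Close2 k' τ' T T' :=
  ⟨close_mono' h.1 hk hτ, close_mono' h.2 hk hτ⟩

theorem Close2.near {k : ℕ} {τ : ℝ} {T T' : VD} (h : Close2 k τ T T') : Near τ T T' :=
  fun x => ⟨close_dist' h.1 x, close_dist' h.2 x⟩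

theorem close_lift_per {T : T3 → T3} {F : (Fin 3 → ℝ) → (Fin 3 → ℝ)} (hF : IsSmoothLift T F)
    (z : Fin 3 → ℤ) : ∃ z' : Fin 3 → ℤ, ∀ x, F (x + fun i => (z i : ℝ)) = F x + fun i => (z' i : ℝ) := by
  have hc := hF.1.continuous
  have h1 : ∀ x i, F (x + fun i => (z i : ℝ)) i - F x i ∈ AddSubgroup.zmultiples (1 : ℝ) := by
    intro x i
    have : proj (F (x + fun i => (z i : ℝ)) - F x) = 0 := by
      rw [close_proj_sub, ← hF.2, ← hF.2, close_proj_add, close_proj_int, add_zero, sub_self]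
    exact (QuotientAddGroup.eq_zero_iff _).1 (congrFun this i)
  have h2 : ∀ x i, F (x + fun i => (z i : ℝ)) i - F x i = F (0 + fun i => (z i : ℝ)) i - F 0 i :=
    fun x i => isPreconnected_univ.constant_of_mapsTo (T := AddSubgroup.zmultiples (1 : ℝ))
      (f := fun x => F (x + fun i => (z i : ℝ)) i - F x i)
      (SetLike.isDiscrete_iff_discreteTopology.2 inferInstance) (by fun_prop) (fun x _ => h1 x i)
      (mem_univ _) (mem_univ _)
  choose z' hz' using fun i => AddSubgroup.mem_zmultiples_iff.1 (h1 0 i)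
  refine ⟨z', fun x => funext fun i => ?_⟩
  have := h2 x i
  rw [← hz' i] at this
  simp only [zsmul_eq_mul, mul_one] at this
  simp only [Pi.add_apply]
  linarith

theorem close_iter_smooth {Q E : Type} [NormedAddCommGroup Q] [NormedSpace ℝ Q]
    [NormedAddCommGroup E] [NormedSpace ℝ E] {U : Set Q} {V : Q → E → E}
    (hV : ∀ z : Q × E, z.1 ∈ U → ContDiffAt ℝ (⊤ : ℕ∞) (fun z : Q × E => V z.1 z.2) z) (i : ℕ) :
    ∀ z : Q × E, z.1 ∈ U →
      ContDiffAt ℝ (⊤ : ℕ∞) (fun z : Q × E => iteratedFDeriv ℝ i (V z.1) z.2) z := by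
  induction i with
  | zero =>
    intro z hz
    simp only [iteratedFDeriv_zero_eq_comp, Function.comp_apply]
    exact (continuousMultilinearCurryFin0 ℝ E E).symm.contDiff.contDiffAt.comp z (hV z hz)
  | succ i ih =>
    intro z hz
    simp only [iteratedFDeriv_succ_eq_comp_left, Function.comp_apply]
    refine (LinearIsometryEquiv.contDiff (𝕜 := ℝ) (E := E →L[ℝ] E [×i]→L[ℝ] E)
      (F := E [×(i + 1)]→L[ℝ] E)
      (continuousMultilinearCurryLeftEquiv ℝ (fun _ : Fin (i + 1) => E) E).symm).contDiffAt.comp z ?_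
    refine ContDiffAt.fderiv (n := (⊤ : ℕ∞)) (f := fun (z : Q × E) y => iteratedFDeriv ℝ i (V z.1) y)
      (g := fun z => z.2) ?_ contDiffAt_snd (by exact_mod_cast le_top)
    exact (ih (z.1, z.2) hz).comp (z, z.2) (f := fun w : (Q × E) × E => (w.1.1, w.2)) (by fun_prop)

/-- General principle.  Let `F`, `G` be smooth lifts of `H`, `H⁻¹`.  The field
`V p x = G (F x + v p (F x)) - G (F x + v0 (F x))` is jointly smooth and `ℤ³`-periodic in `x`
(for `z ∈ ℤ³`, `F (x + z) - F x` is continuous and integer valued, hence constant; same for `G`).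
`(p, x) ↦ iteratedFDeriv ℝ i (V p) x` is continuous and vanishes on `{d p = 0}`; conclude by
compactness of `K × [0,1]³`. -/
theorem close_general {Q : Type} [NormedAddCommGroup Q] [NormedSpace ℝ Q] [FiniteDimensional ℝ Q]
    (H : VD) (K : Set Q) (hK : IsCompact K) (U : Set Q) (hU : IsOpen U) (hKU : K ⊆ U)
    (d : Q → ℝ) (hd : Continuous d)
    (v : Q → (Fin 3 → ℝ) → (Fin 3 → ℝ)) (v0 : (Fin 3 → ℝ) → (Fin 3 → ℝ))
    (hv : ContDiffOn ℝ (⊤ : ℕ∞) (fun z : Q × (Fin 3 → ℝ) => v z.1 z.2) (U ×ˢ univ))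
    (hv0 : ContDiff ℝ (⊤ : ℕ∞) v0)
    (hper : ∀ p ∈ K, ∀ x, ∀ z : Fin 3 → ℤ, v p (x + fun i => (z i : ℝ)) = v p x)
    (hper0 : ∀ x, ∀ z : Fin 3 → ℤ, v0 (x + fun i => (z i : ℝ)) = v0 x)
    (h0 : ∀ p ∈ K, d p = 0 → v p = v0) (k : ℕ) {τ : ℝ} (hτ : 0 < τ) :
    ∃ δ0 > 0, ∀ p ∈ K, |d p| < δ0 → ∀ S S' : Equiv.Perm T3,
      (∀ y, S (proj y) = proj (y + v0 y)) → (∀ y, S' (proj y) = proj (y + v p y)) →
      Close k τ ((H : Equiv.Perm T3)⁻¹ * S * H) ((H : Equiv.Perm T3)⁻¹ * S' * H) := by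
  obtain ⟨⟨F, hF⟩, G, hG⟩ := H.2.1
  set V : Q → (Fin 3 → ℝ) → (Fin 3 → ℝ) :=
    fun p x => G (F x + v p (F x)) - G (F x + v0 (F x)) with hVd
  have hV : ∀ z : Q × (Fin 3 → ℝ), z.1 ∈ U →
      ContDiffAt ℝ (⊤ : ℕ∞) (fun z : Q × (Fin 3 → ℝ) => V z.1 z.2) z := by
    intro z hz
    have a1 : ContDiffAt ℝ (⊤ : ℕ∞) (fun z : Q × (Fin 3 → ℝ) => F z.2) z :=
      hF.1.contDiffAt.comp z contDiffAt_snd
    have a2 : ContDiffAt ℝ (⊤ : ℕ∞) (fun z : Q × (Fin 3 → ℝ) => v z.1 (F z.2)) z :=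
      (hv.contDiffAt ((hU.prod isOpen_univ).mem_nhds (x := (z.1, F z.2)) ⟨hz, mem_univ _⟩)).comp z
        (f := fun z : Q × (Fin 3 → ℝ) => (z.1, F z.2)) (contDiffAt_fst.prodMk a1)
    exact (hG.1.contDiffAt.comp z (a1.add a2)).sub
      (hG.1.contDiffAt.comp z (a1.add (hv0.contDiffAt.comp z a1)))
  have hVp : ∀ p ∈ K, ∀ x, ∀ z : Fin 3 → ℤ, V p (x + fun i => (z i : ℝ)) = V p x := by
    intro p hp x z
    obtain ⟨z', h1⟩ := close_lift_per hF z
    obtain ⟨z'', h2⟩ := close_lift_per hG z'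
    simp only [hVd]
    rw [h1, hper p hp, hper0, add_right_comm, h2, add_right_comm (F x), h2]
    abel
  set N : Q × (Fin 3 → ℝ) → ℝ := fun z => ∑ i ∈ Finset.range (k + 1), ‖iteratedFDeriv ℝ i (V z.1) z.2‖
    with hN
  have hC : IsCompact (K ×ˢ Icc (0 : Fin 3 → ℝ) 1) := hK.prod isCompact_Icc
  have hNc : ContinuousOn N (K ×ˢ Icc (0 : Fin 3 → ℝ) 1) :=
    continuousOn_finset_sum _ fun i _ z hz =>
      (close_iter_smooth hV i z (hKU hz.1)).continuousAt.norm.continuousWithinAt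
  have hC' : IsCompact (K ×ˢ Icc (0 : Fin 3 → ℝ) 1 ∩ N ⁻¹' Ici τ) :=
    hC.of_isClosed_subset (hNc.preimage_isClosed_of_isClosed hC.isClosed isClosed_Ici)
      inter_subset_left
  obtain ⟨δ0, hδ0, hδ⟩ := hC'.exists_forall_le' (f := fun z => |d z.1|) (a := 0) (by fun_prop)
    (fun z hz => abs_pos.2 fun h => by
      have a1 : V z.1 = fun _ => 0 := funext fun x => by simp [hVd, h0 z.1 hz.1.1 h]
      have a2 : τ ≤ N z := hz.2
      simp [hN, a1] at a2
      linarith)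
  refine ⟨δ0, hδ0, fun p hp hdp S S' hS hS' => ⟨V p, ?_, fun x => ?_, fun i hi x => ?_⟩⟩
  · exact contDiff_iff_contDiffAt.2 fun x => (hV (p, x) (hKU hp)).comp x
      (f := fun x => (p, x)) (by fun_prop)
  · change (H : Equiv.Perm T3).symm (S' ((H : Equiv.Perm T3) (proj x))) =
      (H : Equiv.Perm T3).symm (S ((H : Equiv.Perm T3) (proj x))) + _
    rw [hF.2, hS, hS', hG.2, hG.2, ← close_proj_add]
    simp [hVd]
  · set x' : Fin 3 → ℝ := fun j => Int.fract (x j) with hx'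
    have e : x = x' + fun j => ((⌊x j⌋ : ℤ) : ℝ) := funext fun j => by simp [hx']
    have e2 : iteratedFDeriv ℝ i (V p) x = iteratedFDeriv ℝ i (V p) x' := by
      rw [e, ← iteratedFDeriv_comp_add_right]
      simp only [hVp p hp]
    have hm : (p, x') ∈ K ×ˢ Icc (0 : Fin 3 → ℝ) 1 :=
      ⟨hp, fun j => Int.fract_nonneg _, fun j => (Int.fract_lt_one _).le⟩
    have hlt : N (p, x') < τ := by
      by_contra hn
      exact absurd (hδ (p, x') ⟨hm, not_lt.1 hn⟩) (not_le.2 hdp)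
    rw [e2]
    refine le_trans ?_ hlt.le
    exact Finset.single_le_sum (f := fun i => ‖iteratedFDeriv ℝ i (V p) x'‖)
      (fun _ _ => norm_nonneg _) (Finset.mem_range.2 (Nat.lt_succ_of_le hi))

/-- Hadamard's lemma: the difference quotient of a smooth function is smooth
(`Q w τ = ∫ u in 0..1, f' (w + u τ)`; e.g. via `contDiffOn_convolution_right_with_param`). -/
theorem exists_diff_quot {f : ℝ → ℝ} (hf : ContDiff ℝ (⊤ : ℕ∞) f) :
    ∃ Q : ℝ × ℝ → ℝ, ContDiff ℝ (⊤ : ℕ∞) Q ∧ (∀ w τ, f (w + τ) - f w = τ * Q (w, τ)) ∧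
      (∀ w, Q (w, 0) = deriv f w) ∧
      ∀ w τ, Q (w, τ) = ∫ u in (0 : ℝ)..1, deriv f (w + u * τ) := by
  have hd : ContDiff ℝ (⊤ : ℕ∞) (deriv f) := (contDiff_infty_iff_deriv.1 hf).2
  have hdf : Differentiable ℝ f := (contDiff_infty_iff_deriv.1 hf).1
  refine ⟨fun z => ∫ u in (0 : ℝ)..1, deriv f (z.1 + u * z.2), ?_, fun w τ => ?_, fun w => by simp,
    fun _ _ => rfl⟩
  · have := (R240.contDiff_integral_cpt (volume.restrict (Ioc (0 : ℝ) 1)) (K := Icc 0 1) isCompact_Icc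
      (by
        rw [Measure.restrict_apply measurableSet_Icc.compl]
        convert measure_empty (μ := (volume : Measure ℝ))
        exact eq_empty_of_forall_notMem fun x hx => hx.1 (Ioc_subset_Icc_self hx.2))
      (f := fun _ => 1) (integrable_const _)
      (Φ := fun z : (ℝ × ℝ) × ℝ => deriv f (z.1.1 + z.2 * z.1.2)) (hd.comp (by fun_prop))).1
    simpa only [intervalIntegral.integral_of_le zero_le_one, one_smul] using this
  · have h1 : ∀ u ∈ uIcc (0 : ℝ) 1, HasDerivAt (fun u => f (w + u * τ)) (τ * deriv f (w + u * τ)) u :=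
      fun u _ => by
        have := (hdf (w + u * τ)).hasDerivAt.comp u
          (((hasDerivAt_id u).mul_const τ).const_add w)
        exact this.congr_deriv (by simp [mul_comm])
    have h2 := intervalIntegral.integral_eq_sub_of_hasDerivAt h1
      (Continuous.intervalIntegrable (by have := hd.continuous; fun_prop) _ _)
    rw [intervalIntegral.integral_const_mul] at h2
    simpa using h2.symm

theorem close_al_int (P : Prof) (w : ℝ) (n : ℤ) : P.al (w + n) = P.al w := by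
  simpa using P.al_periodic.int_mul n w

theorem close_B_int (S : Shape) (w : ℝ) (n : ℤ) : S.B (w + n) = S.B w + n := by
  have h : Function.Periodic (fun w => S.B w - w) 1 := fun w => by simp only [S.per]; ring
  have := h.int_mul n w
  simp only [mul_one] at this
  linarith

theorem close_RE (P : Prof) (ρ : ℝ) (y : Fin 3 → ℝ) :
    RE P ρ (proj y) = proj (y + ![1 * P.al (y 2), 1 * (ρ * P.al (y 2)), 0]) ∧
    (RE P ρ)⁻¹ (proj y) = proj (y + ![-1 * P.al (y 2), -1 * (ρ * P.al (y 2)), 0]) := by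
  have h1 := coe_rep_deg (f := P.al) (N := 0) (fun w => by simpa using P.al_periodic w) (y 2)
  have h2 := coe_rep_deg (f := fun w => ρ * P.al w) (N := 0)
    (fun w => by simp [P.al_periodic w]) (y 2)
  constructor
  · funext i
    fin_cases i
    · simp [RE, proj, h1]
    · simp only [RE, proj, Equiv.coe_fn_mk, h2]
      simp
    · simp [RE, proj]
  · funext i
    change (RE P ρ).invFun (proj y) i = _
    fin_cases i
    · simp [RE, proj, h1, sub_eq_add_neg]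
    · simp only [RE, proj, h2]
      simp [sub_eq_add_neg]
    · simp [RE, proj]

theorem close_TT_inv (H : VD) (P : Prof) (ρ : ℝ) : (((TT H P ρ)⁻¹ : VD) : Equiv.Perm T3) =
    (H : Equiv.Perm T3)⁻¹ * (RE P ρ)⁻¹ * H := by
  simp [TT, RR, mul_assoc]

theorem close_rho_aux (H : VD) (P : Prof) (k : ℕ) {τ : ℝ} (hτ : 0 < τ) (s : ℝ) :
    ∃ δ0 > 0, ∀ ρ ∈ Icc (-1 : ℝ) 1, |ρ| < δ0 → ∀ S S' : Equiv.Perm T3,
      (∀ y, S (proj y) = proj (y + ![s * P.al (y 2), s * (0 * P.al (y 2)), 0])) →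
      (∀ y, S' (proj y) = proj (y + ![s * P.al (y 2), s * (ρ * P.al (y 2)), 0])) →
      Close k τ ((H : Equiv.Perm T3)⁻¹ * S * H) ((H : Equiv.Perm T3)⁻¹ * S' * H) := by
  have ha := P.al_contDiff
  have hv : ContDiff ℝ (⊤ : ℕ∞) fun z : ℝ × (Fin 3 → ℝ) =>
      (![s * P.al (z.2 2), s * (z.1 * P.al (z.2 2)), 0] : Fin 3 → ℝ) := by
    rw [contDiff_pi]
    intro i
    fin_cases i <;> simp only [Fin.zero_eta, Fin.mk_one, Fin.reduceFinMk, Matrix.cons_val] <;>
      fun_prop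
  exact close_general H (Icc (-1 : ℝ) 1) isCompact_Icc univ isOpen_univ (subset_univ _) id
    continuous_id (fun ρ y => ![s * P.al (y 2), s * (ρ * P.al (y 2)), 0])
    (fun y => ![s * P.al (y 2), s * (0 * P.al (y 2)), 0]) hv.contDiffOn
    (hv.comp (f := fun y => (0, y)) (by fun_prop))
    (fun p _ x z => by simp only [Pi.add_apply, close_al_int])
    (fun x z => by simp only [Pi.add_apply, close_al_int])
    (fun p _ hp => by obtain rfl : p = 0 := hp; rfl) k hτ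

theorem close_rho (H : VD) (P : Prof) (k : ℕ) {τ : ℝ} (hτ : 0 < τ) :
    ∃ ρ0 > 0, ∀ ρ : ℝ, |ρ| < ρ0 → Close2 k τ (TT H P 0) (TT H P ρ) := by
  obtain ⟨a, ha, h1⟩ := close_rho_aux H P k hτ 1
  obtain ⟨b, hb, h2⟩ := close_rho_aux H P k hτ (-1)
  refine ⟨min 1 (min a b), by positivity, fun ρ hρ => ?_⟩
  simp only [lt_min_iff] at hρ
  have hm : ρ ∈ Icc (-1 : ℝ) 1 := abs_le.1 hρ.1.le
  refine ⟨h1 ρ hm hρ.2.1 _ _ (fun y => (close_RE P 0 y).1) fun y => (close_RE P ρ y).1, ?_⟩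
  rw [close_TT_inv, close_TT_inv]
  exact h2 ρ hm hρ.2.2 _ _ (fun y => (close_RE P 0 y).2) fun y => (close_RE P ρ y).2

theorem close_hm (P : Prof) (m : Mat) (σ : ℤ) (β δ e1 : ℝ) (y : Fin 3 → ℝ) :
    hmE P m σ β δ e1 (proj y) = proj ![y 2, m.b * y 0 - m.a * y 1 - P.Afn m.q δ e1 (y 2),
      m.q * y 1 - m.p * y 0 + σ * y 2 - β] := by
  obtain ⟨N, hN⟩ := P.Afn_deg m.q δ e1
  have h1 := coe_rep_deg hN (y 2)
  funext i
  fin_cases i
  · simp [hmE, proj]
  · simp only [hmE, proj, Equiv.coe_fn_mk, h1]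
    simp only [Fin.mk_one, Fin.reduceFinMk, Matrix.cons_val, ← zsmul_eq_mul]
    rfl
  · simp only [hmE, proj, Equiv.coe_fn_mk]
    simp only [Fin.mk_one, Fin.reduceFinMk, Matrix.cons_val, ← zsmul_eq_mul]
    rfl

/-- parameters `(δ, β, e1, e2, ρ')` -/
abbrev ClosePar : Type := ℝ × ℝ × ℝ × ℝ × ℝ

section
variable (P : Prof) (m : Mat) (σ : ℤ) (S' : Shape) (κ s : ℝ) (Q : ℝ × ℝ → ℝ)

noncomputable def closeW (β : ℝ) (y : Fin 3 → ℝ) : ℝ := m.q * y 1 - m.p * y 0 + σ * y 2 - β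

noncomputable def closeTh (p : ClosePar) (y : Fin 3 → ℝ) : ℝ :=
  (1 - κ * p.1 * (closeW m σ p.2.1 y - S'.B (closeW m σ p.2.1 y)))⁻¹

noncomputable def closeTa (p : ClosePar) (y : Fin 3 → ℝ) : ℝ := s * p.1 * closeTh m σ S' κ p y

noncomputable def closeDe (p : ClosePar) (y : Fin 3 → ℝ) : ℝ :=
  s * closeTh m σ S' κ p y * Q (y 2, closeTa m σ S' κ s p y) / m.q +
    p.2.2.1 * closeTa m σ S' κ s p y +
    p.2.2.2.1 * (P.sh.B (y 2 + closeTa m σ S' κ s p y) - P.sh.B (y 2)) +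
    p.2.2.2.2 * closeTa m σ S' κ s p y

noncomputable def closeV (p : ClosePar) (y : Fin 3 → ℝ) : Fin 3 → ℝ :=
  ![m.q * closeDe P m σ S' κ s Q p y - m.a * σ * closeTa m σ S' κ s p y,
    m.p * closeDe P m σ S' κ s Q p y - m.b * σ * closeTa m σ S' κ s p y, closeTa m σ S' κ s p y]

theorem closeV_smooth (hQ : ContDiff ℝ (⊤ : ℕ∞) Q) :
    ContDiffOn ℝ (⊤ : ℕ∞) (fun z : ClosePar × (Fin 3 → ℝ) => closeV P m σ S' κ s Q z.1 z.2)
      ({p : ClosePar | |κ * p.1| < 1} ×ˢ univ) := by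
  intro z hz
  refine ContDiffAt.contDiffWithinAt ?_
  have hB := P.sh.smooth
  have hB' := S'.smooth
  have hW : ContDiff ℝ (⊤ : ℕ∞) fun z : ClosePar × (Fin 3 → ℝ) => closeW m σ z.1.2.1 z.2 := by
    unfold closeW
    fun_prop
  have hTh : ContDiffAt ℝ (⊤ : ℕ∞)
      (fun z : ClosePar × (Fin 3 → ℝ) => closeTh m σ S' κ z.1 z.2) z := by
    unfold closeTh
    refine ContDiffAt.inv (ContDiff.contDiffAt (by fun_prop)) ?_
    have h1 : |κ * z.1.1| < 1 := hz.1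
    have h2 := S'.abs_le (closeW m σ z.1.2.1 z.2)
    have h3 : |κ * z.1.1 * (closeW m σ z.1.2.1 z.2 - S'.B (closeW m σ z.1.2.1 z.2))| < 1 := by
      rw [abs_mul]
      exact lt_of_le_of_lt (mul_le_of_le_one_right (abs_nonneg _) h2) h1
    have := (abs_lt.1 h3).2
    linarith
  have hTa : ContDiffAt ℝ (⊤ : ℕ∞)
      (fun z : ClosePar × (Fin 3 → ℝ) => closeTa m σ S' κ s z.1 z.2) z := by
    unfold closeTa
    fun_prop
  have h2 : ContDiffAt ℝ (⊤ : ℕ∞) (fun z : ClosePar × (Fin 3 → ℝ) => z.2 2) z := by fun_prop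
  have hQ' := hQ.contDiffAt.comp z (h2.prodMk hTa)
  have hB1 := hB.contDiffAt.comp z (h2.add hTa)
  have hB2 := hB.contDiffAt.comp z h2
  have hDe : ContDiffAt ℝ (⊤ : ℕ∞)
      (fun z : ClosePar × (Fin 3 → ℝ) => closeDe P m σ S' κ s Q z.1 z.2) z :=
    (((((contDiffAt_const.mul hTh).mul hQ').div_const _).add
      (ContDiffAt.mul (by fun_prop) hTa)).add (ContDiffAt.mul (by fun_prop) (hB1.sub hB2))).add
      (ContDiffAt.mul (by fun_prop) hTa)
  rw [contDiffAt_pi]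
  intro i
  fin_cases i
  · exact (contDiffAt_const.mul hDe).sub (contDiffAt_const.mul hTa)
  · exact (contDiffAt_const.mul hDe).sub (contDiffAt_const.mul hTa)
  · exact hTa

theorem closeV_per (hQ : ∀ w τ (n : ℤ), Q (w + n, τ) = Q (w, τ)) (p : ClosePar) (y : Fin 3 → ℝ)
    (z : Fin 3 → ℤ) :
    closeV P m σ S' κ s Q p (y + fun i => (z i : ℝ)) = closeV P m σ S' κ s Q p y := by
  have hW : closeW m σ p.2.1 (y + fun i => (z i : ℝ)) =
      closeW m σ p.2.1 y + (m.q * z 1 - m.p * z 0 + σ * z 2 : ℤ) := by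
    simp only [closeW, Pi.add_apply]
    push_cast
    ring
  have hTh : closeTh m σ S' κ p (y + fun i => (z i : ℝ)) = closeTh m σ S' κ p y := by
    simp only [closeTh, hW, close_B_int, add_sub_add_right_eq_sub]
  have hTa : closeTa m σ S' κ s p (y + fun i => (z i : ℝ)) = closeTa m σ S' κ s p y := by
    simp only [closeTa, hTh]
  have hDe : closeDe P m σ S' κ s Q p (y + fun i => (z i : ℝ)) = closeDe P m σ S' κ s Q p y := by
    simp only [closeDe, hTh, hTa, Pi.add_apply, hQ]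
    rw [add_right_comm (y 2), close_B_int, close_B_int, add_sub_add_right_eq_sub]
  simp only [closeV, hDe, hTa]

theorem closeV_zero (hQ : ∀ w, Q (w, 0) = P.al w) (p : ClosePar) (hp : p.1 = 0) :
    closeV P m σ S' κ s Q p =
      fun y => ![s * P.al (y 2), s * ((m.p : ℝ) / m.q * P.al (y 2)), 0] := by
  have hq : (m.q : ℝ) ≠ 0 := Int.cast_ne_zero.2 m.qpos.ne'
  funext y
  simp only [closeV, closeDe, closeTa, closeTh, hp, mul_zero, zero_mul, sub_zero, inv_one, hQ,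
    add_zero, sub_self, mul_one]
  congr 1
  · field_simp
  · congr 1
    ring

theorem closeV_conj (hQ : ∀ w τ, P.AA (w + τ) - P.AA w = τ * Q (w, τ)) {δ : ℝ} (hδ : δ ≠ 0)
    {P' : Prof} (hP' : P'.Is δ κ S') (β e1 ρ' : ℝ) (R : Equiv.Perm T3)
    (hR : ∀ y, R (proj y) = proj (y + ![s * P'.al (y 2), s * (ρ' * P'.al (y 2)), 0]))
    (y : Fin 3 → ℝ) :
    ((hmE P m σ β δ e1)⁻¹ * R * hmE P m σ β δ e1) (proj y) = proj (y + closeV P m σ S' κ s Q
      (δ, β, e1, Int.fract (-(P.AA 1 / (m.q * δ) + e1)), ρ') y) := by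
  have hq : (m.q : ℝ) ≠ 0 := Int.cast_ne_zero.2 m.qpos.ne'
  have hdet : (m.q : ℝ) * m.b - m.p * m.a = 1 := by exact_mod_cast m.det
  set p : ClosePar := (δ, β, e1, Int.fract (-(P.AA 1 / (m.q * δ) + e1)), ρ') with hp
  rw [Equiv.Perm.mul_apply, Equiv.Perm.mul_apply, Equiv.Perm.inv_eq_iff_eq, close_hm, close_hm, hR]
  have hTa : s * P'.al (m.q * y 1 - m.p * y 0 + σ * y 2 - β) = closeTa m σ S' κ s p y := by
    simp only [Prof.al, hP'.1, hP'.2.1, hP'.2.2, closeTa, closeTh, closeW, hp, div_eq_mul_inv,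
      mul_assoc]
  have hDe : closeDe P m σ S' κ s Q p y = P.Afn m.q δ e1 (y 2 + closeTa m σ S' κ s p y) -
      P.Afn m.q δ e1 (y 2) + ρ' * closeTa m σ S' κ s p y := by
    have h1 := hQ (y 2) (closeTa m σ S' κ s p y)
    have h2 : s * closeTh m σ S' κ p y * Q (y 2, closeTa m σ S' κ s p y) / m.q =
        (P.AA (y 2 + closeTa m σ S' κ s p y) - P.AA (y 2)) / (m.q * δ) := by
      rw [h1]
      nth_rewrite 2 [closeTa]
      simp only [hp]
      field_simp
    unfold closeDe Prof.Afn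
    rw [h2]
    simp only [hp]
    ring
  congr 1
  funext i
  fin_cases i
  · simp only [Fin.zero_eta, Pi.add_apply, Matrix.cons_val, closeV, hTa]
  · simp only [Fin.mk_one, Pi.add_apply, Matrix.cons_val, closeV]
    rw [mul_left_comm, hTa]
    linear_combination (-closeDe P m σ S' κ s Q p y) * hdet - hDe
  · simp only [Fin.reduceFinMk, Pi.add_apply, Matrix.cons_val, closeV]
    linear_combination (σ * closeTa m σ S' κ s p y) * hdet

end

theorem close_step_aux (H : VD) (P : Prof) (m : Mat) (σ : ℤ) (S' : Shape) {κ : ℝ} (hκ : 0 < κ)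
    (k : ℕ) {τ : ℝ} (hτ : 0 < τ) (s : ℝ) :
    ∀ᶠ δ in 𝓝[>] (0 : ℝ), ∀ P' : Prof, P'.Is δ κ S' → ∀ β ∈ Icc (0 : ℝ) 1,
      ∀ e1 ∈ Icc (-1 : ℝ) 1, ∀ ρ' ∈ Icc (-1 : ℝ) 1, ∀ S R : Equiv.Perm T3,
        (∀ y, S (proj y) = proj (y + ![s * P.al (y 2), s * ((m.p : ℝ) / m.q * P.al (y 2)), 0])) →
        (∀ y, R (proj y) = proj (y + ![s * P'.al (y 2), s * (ρ' * P'.al (y 2)), 0])) →
        Close k τ ((H : Equiv.Perm T3)⁻¹ * S * H)
          ((H : Equiv.Perm T3)⁻¹ * ((hmE P m σ β δ e1)⁻¹ * R * hmE P m σ β δ e1) * H) := by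
  obtain ⟨Q, hQ, h1, h2, h3⟩ := exists_diff_quot P.AA_contDiff
  have hd : deriv P.AA = P.al := funext fun w => (P.AA_hasDerivAt w).deriv
  rw [hd] at h2 h3
  have h4 : ∀ w t (n : ℤ), Q (w + n, t) = Q (w, t) := fun w t n => by
    rw [h3, h3]
    simp only [add_right_comm w, close_al_int]
  have ha := P.al_contDiff
  obtain ⟨δ0, hδ0, h⟩ := close_general H
    (Icc 0 (1 / (2 * κ)) ×ˢ Icc 0 1 ×ˢ Icc (-1) 1 ×ˢ Icc 0 1 ×ˢ Icc (-1) 1 : Set ClosePar)
    (isCompact_Icc.prod (isCompact_Icc.prod (isCompact_Icc.prod (isCompact_Icc.prod isCompact_Icc))))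
    {p : ClosePar | |κ * p.1| < 1} (isOpen_lt (by fun_prop) continuous_const)
    (fun p hp => by
      have a1 := hp.1.1
      have a2 := hp.1.2
      rw [le_div_iff₀ (by positivity)] at a2
      change |κ * p.1| < 1
      rw [abs_of_nonneg (by positivity)]
      linarith)
    (fun p => p.1) continuous_fst (closeV P m σ S' κ s Q)
    (fun y => ![s * P.al (y 2), s * ((m.p : ℝ) / m.q * P.al (y 2)), 0])
    (closeV_smooth P m σ S' κ s Q hQ)
    (by
      rw [contDiff_pi]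
      intro i
      fin_cases i <;> simp only [Fin.zero_eta, Fin.mk_one, Fin.reduceFinMk, Matrix.cons_val] <;>
        fun_prop)
    (fun p _ => closeV_per P m σ S' κ s Q h4 p)
    (fun x z => by simp only [Pi.add_apply, close_al_int])
    (fun p _ hp => closeV_zero P m σ S' κ s Q h2 p hp) k hτ
  filter_upwards [Ioo_mem_nhdsGT (show (0 : ℝ) < min δ0 (1 / (2 * κ)) by positivity)]
    with δ hδ P' hP' β hβ e1 he1 ρ' hρ' S R hS hR
  have a1 := lt_min_iff.1 hδ.2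
  exact h (δ, β, e1, Int.fract (-(P.AA 1 / (m.q * δ) + e1)), ρ')
    ⟨⟨hδ.1.le, a1.2.le⟩, hβ, he1, ⟨Int.fract_nonneg _, (Int.fract_lt_one _).le⟩, hρ'⟩
    (by rw [abs_of_pos hδ.1]; exact a1.1) _ _ hS
    (closeV_conj P m σ S' κ s Q h1 hδ.1.ne' hP' β e1 ρ' R hR)

/-- In the coordinates of `H`, `(hm)⁻¹ * RR P' ρ' * hm` (and its inverse, sign `s = ± 1`) is
`y ↦ y + (q Δ - a σ τ, p Δ - b σ τ, τ)` with `τ = s δ θ`, `θ = 1 / (1 - κ δ (w' - B' w'))`,
`w' = q y 1 - p y 0 + σ y 2 - β`, `Δ = Afn (y 2 + τ) - Afn (y 2) + ρ' τ`, and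
`Afn (w + τ) - Afn w = s θ Q (w, τ) / q + e1 τ + e2 (B (w + τ) - B w)` with `Q` the difference
quotient of `AA`.  Apply `close_general` with parameters `(δ, β, e1, e2, ρ')`, `d = δ`. -/
theorem close_step (H : VD) (P : Prof) (m : Mat) (σ : ℤ) (S' : Shape) {κ : ℝ} (hκ : 0 < κ) (k : ℕ)
    {τ : ℝ} (hτ : 0 < τ) :
    ∀ᶠ δ in 𝓝[>] (0 : ℝ), ∀ P' : Prof, P'.Is δ κ S' → ∀ β ∈ Icc (0 : ℝ) 1,
      ∀ e1 ∈ Icc (-1 : ℝ) 1, ∀ ρ' ∈ Icc (-1 : ℝ) 1,
        Close2 k τ (TT H P ((m.p : ℝ) / m.q)) (TT (hm P m σ β δ e1 * H) P' ρ') := by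
  filter_upwards [close_step_aux H P m σ S' hκ k hτ 1, close_step_aux H P m σ S' hκ k hτ (-1)]
    with δ h1 h2 P' hP' β hβ e1 he1 ρ' hρ'
  constructor
  · have := h1 P' hP' β hβ e1 he1 ρ' hρ' _ _ (fun y => (close_RE P _ y).1)
      fun y => (close_RE P' ρ' y).1
    convert this using 1 <;> simp [TT, RR, hm, mul_assoc]
  · have := h2 P' hP' β hβ e1 he1 ρ' hρ' _ _ (fun y => (close_RE P _ y).2)
      fun y => (close_RE P' ρ' y).2
    rw [close_TT_inv, close_TT_inv]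
    convert this using 1
    simp [hm, mul_assoc]

end Crest.Agent.R081
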