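import Crest.Agent.R075.Stat

/-! Row 81: generic lemmas for the stationary phase estimates. -/

set_option autoImplicit false

namespace Crest.Agent.R081

open Real Set intervalIntegral Crest.Agent.R210 Crest.Agent.R075 Filter Topology

theorem core_ev {g : ℝ → ℝ} (hg : ContinuousAt g 0) {η : ℝ} (h : g 0 < η) :
    ∀ᶠ δ in 𝓝[>] (0 : ℝ), g δ < η :=
  (hg.eventually_lt continuousAt_const h).filter_mono nhdsWithin_le_nhds

theorem core_phase {f : ℝ → ℝ} (hf : ContDiff ℝ (⊤ : ℕ∞) f) :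
    Phase f (deriv f) (deriv (deriv f)) (deriv (deriv (deriv f))) := by
  obtain ⟨h0, hf1⟩ := contDiff_infty_iff_deriv.1 hf
  obtain ⟨h1, hf2⟩ := contDiff_infty_iff_deriv.1 hf1
  obtain ⟨h2, hf3⟩ := contDiff_infty_iff_deriv.1 hf2
  exact ⟨fun x => (h0 x).hasDerivAt, fun x => (h1 x).hasDerivAt, fun x => (h2 x).hasDerivAt,
    hf3.continuous⟩

theorem core_bound {f : ℝ → ℝ} (hf : Continuous f) : ∃ K, 0 < K ∧ ∀ x ∈ Icc (0 : ℝ) 1, |f x| ≤ K := by
  obtain ⟨K, hK⟩ := isCompact_Icc.exists_bound_of_continuousOn (s := Icc (0 : ℝ) 1) hf.continuousOn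
  exact ⟨max K 1, lt_max_of_lt_right one_pos, fun x hx => (hK x hx).trans (le_max_left _ _)⟩

theorem core_sum_sq {i j : ℤ} (hi : 2 ≤ i) (hij : i ≤ j) :
    1 / (i : ℝ) - 1 / j ≤ ∑ k ∈ Finset.Ico i j, 1 / (k : ℝ) ^ 2 ∧
      ∑ k ∈ Finset.Ico i j, 1 / (k : ℝ) ^ 2 ≤ 1 / ((i : ℝ) - 1) - 1 / ((j : ℝ) - 1) := by
  induction j, hij using Int.leInduction with
  | base => simp
  | succ j hij ih =>
    rw [← Finset.insert_Ico_right_eq_Ico_add_one hij, Finset.sum_insert (by simp)]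
    have hj : (2 : ℝ) ≤ j := by exact_mod_cast hi.trans hij
    push_cast
    have a1 : 1 / (j : ℝ) - 1 / (j + 1) ≤ 1 / (j : ℝ) ^ 2 := by
      rw [div_sub_div _ _ (by linarith) (by linarith), div_le_div_iff₀ (by positivity) (by positivity)]
      nlinarith
    have a2 : 1 / (j : ℝ) ^ 2 ≤ 1 / ((j : ℝ) - 1) - 1 / j := by
      rw [div_sub_div _ _ (by linarith) (by linarith),
        div_le_div_iff₀ (by positivity) (mul_pos (by linarith) (by linarith))]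
      nlinarith
    rw [add_sub_cancel_right]
    constructor <;> linarith [ih.1, ih.2]

theorem core_riemann {x y h : ℝ} (hh : 0 < h) (hx : h < x) (hxy : x ≤ y) :
    1 / (x + h) - 1 / y ≤ ∑ k ∈ Finset.Ico ⌈x / h⌉ ⌈y / h⌉, h / (k * h) ^ 2 ∧
      ∑ k ∈ Finset.Ico ⌈x / h⌉ ⌈y / h⌉, h / (k * h) ^ 2 ≤ 1 / (x - h) - 1 / y := by
  have hi : 2 ≤ ⌈x / h⌉ := by
    have : (1 : ℤ) < ⌈x / h⌉ := Int.lt_ceil.2 (by rw [Int.cast_one, lt_div_iff₀ hh]; linarith)
    omega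
  have hij : ⌈x / h⌉ ≤ ⌈y / h⌉ := Int.ceil_mono (div_le_div_of_nonneg_right hxy hh.le)
  obtain ⟨h1, h2⟩ := core_sum_sq hi hij
  have e : ∑ k ∈ Finset.Ico ⌈x / h⌉ ⌈y / h⌉, h / (k * h) ^ 2 =
      1 / h * ∑ k ∈ Finset.Ico ⌈x / h⌉ ⌈y / h⌉, 1 / (k : ℝ) ^ 2 := by
    rw [Finset.mul_sum]
    refine Finset.sum_congr rfl fun k _ => ?_
    by_cases hk : (k : ℝ) = 0
    · simp [hk]
    · field_simp
  have hi' : (2 : ℝ) ≤ ⌈x / h⌉ := by exact_mod_cast hi
  have hj' : ((⌈x / h⌉ : ℤ) : ℝ) ≤ ⌈y / h⌉ := by exact_mod_cast hij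
  have a1 : x ≤ ⌈x / h⌉ * h := (div_le_iff₀ hh).1 (Int.le_ceil _)
  have a2 : (⌈x / h⌉ - 1) * h < x := (lt_div_iff₀ hh).1 (by linarith [Int.ceil_lt_add_one (x / h)])
  have a3 : y ≤ ⌈y / h⌉ * h := (div_le_iff₀ hh).1 (Int.le_ceil _)
  have a4 : (⌈y / h⌉ - 1) * h < y := (lt_div_iff₀ hh).1 (by linarith [Int.ceil_lt_add_one (y / h)])
  generalize ((⌈x / h⌉ : ℤ) : ℝ) = i at *
  generalize ((⌈y / h⌉ : ℤ) : ℝ) = j at *
  have p : ∀ t : ℝ, 1 / h * (1 / t) = 1 / (t * h) := fun t => by rw [one_div_mul_one_div, mul_comm]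
  rw [e]
  have k0 : 0 ≤ 1 / h := by positivity
  constructor
  · refine le_trans ?_ (mul_le_mul_of_nonneg_left h1 k0)
    rw [mul_sub, p, p]
    have b1 : 1 / (x + h) ≤ 1 / (i * h) :=
      one_div_le_one_div_of_le (mul_pos (by linarith) hh) (by linarith)
    have b2 : 1 / (j * h) ≤ 1 / y := one_div_le_one_div_of_le (by linarith) a3
    linarith
  · refine (mul_le_mul_of_nonneg_left h2 k0).trans ?_
    rw [mul_sub, p, p]
    have b1 : 1 / ((i - 1) * h) ≤ 1 / (x - h) :=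
      one_div_le_one_div_of_le (by linarith) (by linarith)
    have b2 : 1 / y ≤ 1 / ((j - 1) * h) :=
      one_div_le_one_div_of_le (mul_pos (by linarith) hh) a4.le
    linarith

theorem core_mvt_ge {f f' : ℝ → ℝ} {a b c x y : ℝ} (h : ∀ x, HasDerivAt f (f' x) x)
    (hb : ∀ t ∈ Icc a b, c ≤ f' t) (hx : a ≤ x) (hxy : x ≤ y) (hy : y ≤ b) :
    c * (y - x) ≤ f y - f x :=
  mvt_ge h hxy fun t ht => hb t ⟨hx.trans ht.1, ht.2.trans hy⟩

/-- Stationary phase with one non-degenerate critical point. -/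
theorem core_stat {φ φ₁ φ₂ φ₃ : ℝ → ℝ} (h : Phase φ φ₁ φ₂ φ₃) {F : ℂ}
    (hF : ∀ r : ℝ, 0 < r → ‖(∫ x in -r..r, ee (x ^ 2 / 2)) - F‖ ≤ 1 / r) {a b w r c K : ℝ}
    (hc : 0 < c) (hr : 0 < r) (hw : a + r ≤ w) (hw' : w + r ≤ b) (h1 : φ₁ w = 0)
    (h2 : ∀ x ∈ Icc a b, c ≤ φ₂ x) (h3 : ∀ x ∈ Icc a b, |φ₃ x| ≤ K) :
    ‖(∫ v in a..b, ee (φ v)) - F * ee (φ w) / √(φ₂ w)‖ ≤ 3 / (c * r) + 4 * π * K * r ^ 4 := by
  have c0 : Continuous fun v => ee (φ v) := continuous_ee.comp h.c₀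
  have i1 : ‖∫ v in a..w - r, ee (φ v)‖ ≤ 1 / (c * r) := by
    refine first_deriv_test h (by linarith) (by positivity) (fun x hx => ?_)
      (fun x hx => hc.le.trans (h2 x ⟨hx.1, by linarith [hx.2]⟩))
    have := core_mvt_ge h.d₁ h2 hx.1 (show x ≤ w by linarith [hx.2]) (by linarith)
    have := mul_le_mul_of_nonneg_left (show r ≤ w - x by linarith [hx.2]) hc.le
    exact le_abs.2 (Or.inr (by linarith))
  have i3 : ‖∫ v in w + r..b, ee (φ v)‖ ≤ 1 / (c * r) := by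
    refine first_deriv_test h hw' (by positivity) (fun x hx => ?_)
      (fun x hx => hc.le.trans (h2 x ⟨by linarith [hx.1], hx.2⟩))
    have := core_mvt_ge h.d₁ h2 (show a ≤ w by linarith) (show w ≤ x by linarith [hx.1]) hx.2
    have := mul_le_mul_of_nonneg_left (show r ≤ x - w by linarith [hx.1]) hc.le
    exact le_abs.2 (Or.inl (by linarith))
  have hwm : w ∈ Icc (w - r) (w + r) := ⟨by linarith, by linarith⟩
  have sub : ∀ v ∈ Icc (w - r) (w + r), v ∈ Icc a b := fun v hv =>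
    ⟨by linarith [hv.1], by linarith [hv.2]⟩
  have ab : ∀ v ∈ Icc (w - r) (w + r), |v - w| ≤ r := fun v hv =>
    abs_le.2 ⟨by linarith [hv.1], by linarith [hv.2]⟩
  have K0 : 0 ≤ K := (abs_nonneg _).trans (h3 w (sub w hwm))
  have t1 : ∀ v ∈ Icc (w - r) (w + r), |φ₂ v - φ₂ w| ≤ K * r := fun v hv =>
    (mvt_abs (fun x _ => h.d₂ x) (fun x hx => h3 x (sub x hx)) hwm hv).trans
      (mul_le_mul_of_nonneg_left (ab v hv) K0)
  have t2 : ∀ v ∈ Icc (w - r) (w + r), |φ₁ v - φ₁ w - φ₂ w * (v - w)| ≤ K * r * r := by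
    intro v hv
    have := mvt_abs (f := fun v => φ₁ v - φ₁ w - φ₂ w * (v - w)) (f' := fun v => φ₂ v - φ₂ w)
      (fun x _ => (((h.d₁ x).sub_const _).sub
        (((hasDerivAt_id x).sub_const w).const_mul _)).congr_deriv (by simp)) t1 hwm hv
    simp only [sub_self, mul_zero, sub_zero] at this
    exact this.trans (mul_le_mul_of_nonneg_left (ab v hv) (by positivity))
  have t3 : ∀ v ∈ Icc (w - r) (w + r),
      |φ v - φ w - φ₁ w * (v - w) - φ₂ w * ((v - w) ^ 2 / 2)| ≤ K * r * r * r := by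
    intro v hv
    have := mvt_abs (f := fun v => φ v - φ w - φ₁ w * (v - w) - φ₂ w * ((v - w) ^ 2 / 2))
      (f' := fun v => φ₁ v - φ₁ w - φ₂ w * (v - w))
      (fun x _ => ((((h.d₀ x).sub_const _).sub
        (((hasDerivAt_id x).sub_const w).const_mul _)).sub
        (((((hasDerivAt_id x).sub_const w).pow 2).div_const 2).const_mul _)).congr_deriv
          (by simp)) t2 hwm hv
    simp only [sub_self, mul_zero, sub_zero, ne_eq, OfNat.ofNat_ne_zero, not_false_eq_true,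
      zero_pow, zero_div] at this
    exact this.trans (mul_le_mul_of_nonneg_left (ab v hv) (by positivity))
  set A := φ₂ w with hA
  have a1 : c ≤ A := h2 w (sub w hwm)
  have a0 : 0 < A := by linarith
  have sa := sqrt_pos.2 a0
  have aa : √A * √A = A := mul_self_sqrt a0.le
  have c1 : Continuous fun v : ℝ => ee (φ w) * ee ((√A * (v - w)) ^ 2 / 2) := by fun_prop
  have i2 : ‖(∫ v in w - r..w + r, ee (φ v)) -
      ∫ v in w - r..w + r, ee (φ w) * ee ((√A * (v - w)) ^ 2 / 2)‖ ≤ 4 * π * K * r ^ 4 := by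
    rw [← integral_sub (c0.intervalIntegrable _ _) (c1.intervalIntegrable _ _)]
    refine (norm_integral_le_of_norm_le_const (C := 2 * π * (K * r * r * r))
      fun v hv => ?_).trans (le_of_eq ?_)
    · rw [uIoc_of_le (by linarith)] at hv
      rw [← ee_add]
      refine (norm_ee_sub _ _).trans (mul_le_mul_of_nonneg_left ?_ (by positivity))
      have e : φ v - (φ w + (√A * (v - w)) ^ 2 / 2) =
          φ v - φ w - φ₁ w * (v - w) - A * ((v - w) ^ 2 / 2) := by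
        rw [mul_pow, Real.sq_sqrt a0.le, h1]; ring
      rw [e]
      exact t3 v (Ioc_subset_Icc_self hv)
    · rw [show w + r - (w - r) = 2 * r by ring, abs_of_pos (by positivity)]; ring
  have i4 : ‖(∫ v in w - r..w + r, ee (φ w) * ee ((√A * (v - w)) ^ 2 / 2)) - F * ee (φ w) / √A‖ ≤
      1 / (c * r) := by
    have e1 : ∫ v in w - r..w + r, ee ((√A * (v - w)) ^ 2 / 2) =
        (√A)⁻¹ • ∫ x in -(√A * r)..√A * r, ee (x ^ 2 / 2) := by
      rw [integral_comp_sub_right (fun v => ee ((√A * v) ^ 2 / 2)),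
        integral_comp_mul_left (fun x => ee (x ^ 2 / 2)) sa.ne']
      congr 2 <;> ring
    have e2 : ∀ B : ℂ, ee (φ w) * ((√A)⁻¹ • B) - F * ee (φ w) / √A
        = ee (φ w) * ((√A)⁻¹ • (B - F)) := by
      intro B; simp only [Complex.real_smul]; push_cast; ring
    rw [integral_const_mul, e1, e2, norm_mul, norm_ee, one_mul, norm_smul, norm_inv,
      Real.norm_of_nonneg sa.le]
    refine (mul_le_mul_of_nonneg_left (hF _ (by positivity)) (by positivity)).trans ?_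
    rw [show (√A)⁻¹ * (1 / (√A * r)) = 1 / (√A * √A * r) by field_simp, aa]
    exact one_div_le_one_div_of_le (by positivity) (mul_le_mul_of_nonneg_right a1 hr.le)
  rw [← integral_add_adjacent_intervals (b := w - r) (c0.intervalIntegrable _ _)
    (c0.intervalIntegrable _ _), ← integral_add_adjacent_intervals (a := w - r) (b := w + r)
    (c0.intervalIntegrable _ _) (c0.intervalIntegrable _ _)]
  have e : ∀ A B C D E : ℂ, A + (B + C) - E = A + C + (B - D) + (D - E) := fun _ _ _ _ _ => by ring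
  rw [e _ _ _ (∫ v in w - r..w + r, ee (φ w) * ee ((√A * (v - w)) ^ 2 / 2))]
  refine (norm_add_le _ _).trans ((add_le_add ((norm_add_le _ _).trans (add_le_add
    ((norm_add_le _ _).trans (add_le_add i1 i3)) i2)) i4).trans (le_of_eq ?_))
  ring

theorem core_ratio {τ s η : ℝ} (hη : 0 < η) (hη1 : η ≤ 1 / 2) (h1 : |τ - 1| ≤ η)
    (h2 : |s - 1| ≤ η / 100) : |τ / s ^ 2 - 1| ≤ 11 / 10 * η := by
  obtain ⟨a1, a2⟩ := abs_le.1 h1
  obtain ⟨b1, b2⟩ := abs_le.1 h2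
  have hs : 0 < s := by linarith
  have s1 : 99 / 100 ≤ s ^ 2 := by nlinarith
  have s2 : s ^ 2 - 1 ≤ η / 40 := by nlinarith
  have s3 : 1 - s ^ 2 ≤ η / 40 := by nlinarith
  rw [div_sub_one (by positivity), abs_div, abs_of_pos (by positivity : 0 < s ^ 2),
    div_le_iff₀ (by positivity), abs_le]
  constructor <;> nlinarith

theorem core_ratio' {τ s ε : ℝ} (hε : 0 < ε) (hε1 : ε ≤ 1) (h1 : |τ - 1| ≤ ε / 2)
    (h2 : |s - 1| ≤ ε / 100) : |1 - τ / s| ≤ 3 / 4 * ε := by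
  obtain ⟨a1, a2⟩ := abs_le.1 h1
  obtain ⟨b1, b2⟩ := abs_le.1 h2
  have hs : 99 / 100 ≤ s := by linarith
  rw [one_sub_div (by linarith), abs_div, abs_of_pos (by linarith : 0 < s),
    div_le_iff₀ (by linarith), abs_le]
  constructor <;> nlinarith

theorem core_sqrt {A t θ : ℝ} (hA : 0 ≤ A) (ht : 0 ≤ t) (h : |t - 1| ≤ θ) :
    |√(A * t) - √A| ≤ θ * √A := by
  rw [Real.sqrt_mul hA, ← mul_sub_one, abs_mul, abs_of_nonneg (sqrt_nonneg _), mul_comm]
  refine mul_le_mul_of_nonneg_right (le_trans ?_ h) (sqrt_nonneg _)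
  have e : t - 1 = (√t - 1) * (√t + 1) := by nlinarith [Real.mul_self_sqrt ht]
  rw [e, abs_mul]
  refine le_mul_of_one_le_right (abs_nonneg _) ?_
  rw [abs_of_nonneg (by positivity)]
  linarith [sqrt_nonneg t]

theorem core_cplx {g s c : ℂ} {A θ : ℝ} (hs : ‖s‖ = A) (h : ‖g - s‖ ≤ θ * A) :
    -‖g‖ ^ 2 + ‖c - g‖ ^ 2 ≤ -A ^ 2 + (2 * θ + 2 * θ ^ 2) * A ^ 2 + 2 * ‖c - s‖ ^ 2 := by
  have hA : 0 ≤ A := hs ▸ norm_nonneg s
  have h1 : A - ‖g - s‖ ≤ ‖g‖ := by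
    have := norm_sub_norm_le s g
    rw [norm_sub_rev s g] at this
    linarith
  have h2 : ‖c - g‖ ≤ ‖c - s‖ + ‖g - s‖ := by
    have := norm_sub_le (c - s) (g - s)
    rwa [sub_sub_sub_cancel_right] at this
  have e0 := norm_nonneg (g - s)
  have g0 := norm_nonneg g
  have h3 : A ^ 2 - 2 * A * ‖g - s‖ ≤ ‖g‖ ^ 2 := by
    rcases le_total A ‖g - s‖ with h4 | h4
    · nlinarith
    · nlinarith
  have h4 : ‖c - g‖ ^ 2 ≤ 2 * ‖c - s‖ ^ 2 + 2 * ‖g - s‖ ^ 2 := by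
    have := pow_le_pow_left₀ (norm_nonneg _) h2 2
    nlinarith [sq_nonneg (‖c - s‖ - ‖g - s‖)]
  have h5 : ‖g - s‖ ^ 2 ≤ (θ * A) ^ 2 := pow_le_pow_left₀ e0 h 2
  have h6 : A * ‖g - s‖ ≤ A * (θ * A) := mul_le_mul_of_nonneg_left h hA
  nlinarith

end Crest.Agent.R081
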