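import Crest.Agent.R081.Hilb
import Crest.Agent.R081.CoreAux

/-! Stationary phase for the logarithmic profile. -/

set_option autoImplicit false

namespace Crest.Agent.R081

open MeasureTheory Set Filter Topology Crest.AnalysisR.Torus3 Crest.Agent.R210 Crest.Agent.R075

theorem core_amp_sq (P : Prof) {ν δ : ℝ} (hν : 0 < ν) (hδ : 0 < δ) (j : ℤ) :
    P.amp ν δ j ^ 2 = δ * (ν * P.a0) / (P.eps * (j * δ) ^ 2) := by
  have := P.a0_pos
  have := P.eps_pos
  exact Real.sq_sqrt (by positivity)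

theorem core_deriv_al (P : Prof) {w : ℝ} (hw : w ∈ Icc (0 : ℝ) (1 - P.sh.mu)) :
    deriv P.al w = P.a0 * P.eps / (1 - P.eps * w) ^ 2 := by
  have hmu := P.sh.mu_pos
  have hmu' := P.sh.mu_le
  have he := P.eps_pos
  have he' := P.eps_le
  have hd : 0 < 1 - P.eps * w := by nlinarith [hw.1, hw.2]
  have h1 : HasDerivAt P.al (deriv P.al w) w := (core_phase P.al_contDiff).d₀ w
  have h2 : HasDerivAt (fun w => P.a0 / (1 - P.eps * w)) (P.a0 * P.eps / (1 - P.eps * w) ^ 2) w := by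
    refine ((hasDerivAt_const w P.a0).div (((hasDerivAt_id w).const_mul P.eps).const_sub 1)
      hd.ne').congr_deriv ?_
    simp
  have h3 : ∀ x ∈ Icc (0 : ℝ) (1 - P.sh.mu), P.al x = P.a0 / (1 - P.eps * x) := fun x hx => by
    simpa [Prof.tt] using P.mul_al_eq 1 hx
  exact (uniqueDiffOn_Icc (by linarith) w hw).eq_deriv _ h1.hasDerivWithinAt
    (h2.hasDerivWithinAt.congr h3 (h3 w hw))

theorem core_coeff {a b : ℝ} (h0 : 0 ≤ a) (hab : a ≤ b) (h1 : b ≤ 1) (φ : ℝ → ℝ) (j : ℝ) :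
    ∫ w in (0 : ℝ)..1, (Ico a b).indicator (fun w => ee (φ w)) w * ee (-(j * w)) =
      ∫ w in a..b, ee (φ w - j * w) := by
  have e : ∀ w, (Ico a b).indicator (fun w => ee (φ w)) w * ee (-(j * w)) =
      (Ico a b).indicator (fun w => ee (φ w - j * w)) w := fun w => by
    by_cases hw : w ∈ Ico a b
    · rw [indicator_of_mem hw, indicator_of_mem hw, ← ee_add, sub_eq_add_neg]
    · rw [indicator_of_notMem hw, indicator_of_notMem hw, zero_mul]
  simp only [e]
  rw [intervalIntegral.integral_of_le zero_le_one, intervalIntegral.integral_of_le hab,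
    ← integral_Ico_eq_integral_Ioc, ← integral_Ico_eq_integral_Ioc,
    setIntegral_indicator measurableSet_Ico, inter_eq_right.2 (Ico_subset_Ico h0 h1)]

open Classical in
/-- Riemann sums of `ν a0 / (eps t²)` over `t = j δ`, `m ∣ j`;
`∫ t in tt a .. tt b, ν a0 / (eps t²) = b - a`. -/
theorem amp_sum (P : Prof) {a b ν η : ℝ} (h0 : 0 ≤ a) (hab : a ≤ b) (h1 : b ≤ 1) (hν : 0 < ν)
    (hη : 0 < η) (m : ℕ) (hm : 1 ≤ m) :
    ∀ᶠ δ in 𝓝[>] (0 : ℝ), |∑ j ∈ (Wi (P.tt ν a) (P.tt ν b) δ).filter (fun j => (m : ℤ) ∣ j),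
      P.amp ν δ j ^ 2 - (b - a) / m| ≤ η := by
  have ha0 := P.a0_pos
  have he := P.eps_pos
  have he' := P.eps_le
  have hm' : (1 : ℝ) ≤ m := by exact_mod_cast hm
  set x := P.tt ν a with hx
  set y := P.tt ν b with hy
  set K := ν * P.a0 / P.eps with hK
  have K0 : 0 < K := by positivity
  have x0 : 0 < x := P.tt_pos hν (hab.trans h1)
  have hxy : x ≤ y := P.tt_le_tt hν hab h1
  have eK : K * (1 / x - 1 / y) = b - a := by
    have d1 : 0 < 1 - P.eps * a := by nlinarith
    have d2 : 0 < 1 - P.eps * b := by nlinarith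
    simp only [hK, hx, hy, Prof.tt]
    field_simp
    ring
  have v1 : ∀ᶠ δ in 𝓝[>] (0 : ℝ), m * δ < x := core_ev (by fun_prop) (by simpa using x0)
  have v2 : ∀ᶠ δ in 𝓝[>] (0 : ℝ), K * (1 / x - 1 / (x + m * δ)) < η :=
    core_ev (by fun_prop (disch := simpa using x0.ne')) (by simpa using hη)
  have v3 : ∀ᶠ δ in 𝓝[>] (0 : ℝ), K * (1 / (x - m * δ) - 1 / x) < η :=
    core_ev (by fun_prop (disch := simpa using x0.ne')) (by simpa using hη)
  filter_upwards [self_mem_nhdsWithin, v1, v2, v3] with δ hδ w1 w2 w3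
  have hδ : 0 < δ := hδ
  have hh : 0 < m * δ := by positivity
  obtain ⟨r1, r2⟩ := core_riemann hh w1 hxy
  have e : ∑ j ∈ (Wi x y δ).filter (fun j => (m : ℤ) ∣ j), P.amp ν δ j ^ 2 =
      K / m * ∑ k ∈ Wi x y (m * δ), m * δ / (k * (m * δ)) ^ 2 := by
    rw [Finset.mul_sum]
    symm
    refine Finset.sum_bij (fun k _ => (m : ℤ) * k) (fun k hk => ?_) (fun k _ k' _ e => ?_)
      (fun j hj => ?_) fun k hk => ?_
    · rw [mem_Wi hh] at hk
      refine Finset.mem_filter.2 ⟨(mem_Wi hδ).2 ?_, dvd_mul_right _ _⟩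
      push_cast
      constructor <;> linarith [hk.1, hk.2]
    · exact mul_left_cancel₀ (by exact_mod_cast (by omega : m ≠ 0)) e
    · obtain ⟨hj, k, rfl⟩ := Finset.mem_filter.1 hj
      rw [mem_Wi hδ] at hj
      push_cast at hj
      exact ⟨k, (mem_Wi hh).2 ⟨by linarith [hj.1], by linarith [hj.2]⟩, rfl⟩
    · rw [core_amp_sq P hν hδ, hK]
      push_cast
      by_cases hk : (k : ℝ) = 0
      · simp [hk]
      · field_simp
  rw [e, ← eK, Wi, mul_div_right_comm, ← mul_sub, abs_mul, abs_of_pos (by positivity : 0 < K / m)]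
  refine (mul_le_mul_of_nonneg_right (div_le_self K0.le hm') (abs_nonneg _)).trans ?_
  rw [← abs_of_pos K0, ← abs_mul, abs_le]
  constructor <;> nlinarith

/-- Stationary phase.  The phase `φ w = lam AA w / δ - y w` is a `Phase` (derivatives `al`, `al'`,
`al''`), `φ'' = lam al' / δ ≥ c / δ` on `[0, 1 - mu]`, the stationary point is `ws lam (y δ)`,
`φ (ws) = Ph lam δ y` (use `AA_eq`), `φ'' (ws) = eps (y δ)² / (δ lam a0)`.  Split at distance
`δ^(2/5)` from the stationary point; `first_deriv_test` outside, Taylor and `fresnel` inside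
(compare `Crest.Agent.R075.Profile.J_stat`). -/
theorem stat_phase (P : Prof) {a b lam r η : ℝ} (h0 : 0 ≤ a) (h1 : b ≤ 1 - P.sh.mu)
    (hl : 0 < lam) (hr : 0 < r) (hη : 0 < η) :
    ∀ᶠ δ in 𝓝[>] (0 : ℝ), ∀ y : ℝ, 0 < y → a + r ≤ P.ws lam (y * δ) → P.ws lam (y * δ) ≤ b - r →
      ‖(∫ w in a..b, ee (lam * P.AA w / δ - y * w)) -
        fres * (√(δ * (lam * P.a0) / (P.eps * (y * δ) ^ 2)) : ℝ) * ee (P.Ph lam δ y)‖ ≤ η * √δ := by
  have ha0 := P.a0_pos
  have he := P.eps_pos
  have he' := P.eps_le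
  have hmu := P.sh.mu_pos
  have ph := core_phase P.al_contDiff
  obtain ⟨K, K0, hK⟩ := core_bound ph.c₂
  set c := lam * (P.a0 * P.eps) with hc
  have c0 : 0 < c := by positivity
  set M := 6 / (c * η) with hM
  have M0 : 0 < M := by positivity
  have v1 : ∀ᶠ δ in 𝓝[>] (0 : ℝ), M * √δ < r := core_ev (by fun_prop) (by simpa using hr)
  have v2 : ∀ᶠ δ in 𝓝[>] (0 : ℝ), 4 * Real.pi * (lam * K) * M ^ 4 * √δ < η / 2 :=
    core_ev (by fun_prop) (by simpa using hη)
  filter_upwards [self_mem_nhdsWithin, v1, v2] with δ hδ w1 w2 y hy a1 a2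
  have hδ : 0 < δ := hδ
  have sδ : 0 < √δ := Real.sqrt_pos.2 hδ
  have ss : √δ * √δ = δ := Real.mul_self_sqrt hδ.le
  set w := P.ws lam (y * δ) with hw
  have hP : Phase (fun v => lam * P.AA v / δ - y * v) (fun v => lam * P.al v / δ - y)
      (fun v => lam * deriv P.al v / δ) (fun v => lam * deriv (deriv P.al) v / δ) :=
    ⟨fun v => ((((P.AA_hasDerivAt v).const_mul lam).div_const δ).sub
        ((hasDerivAt_id v).const_mul y)).congr_deriv (by simp),
      fun v => (((ph.d₀ v).const_mul lam).div_const δ).sub_const y,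
      fun v => ((ph.d₁ v).const_mul lam).div_const δ, (ph.c₂.const_mul lam).div_const δ⟩
  have sub : ∀ x ∈ Icc a b, x ∈ Icc (0 : ℝ) (1 - P.sh.mu) := fun x hx =>
    ⟨h0.trans hx.1, hx.2.trans h1⟩
  have hwm : w ∈ Icc (0 : ℝ) (1 - P.sh.mu) := sub w ⟨by linarith, by linarith⟩
  have yδ : 0 < y * δ := by positivity
  have hd : 1 - P.eps * w = lam * P.a0 / (y * δ) := by
    rw [hw, Prof.ws]; field_simp; ring
  have key := core_stat hP (Classical.choose_spec fresnel).2 (a := a) (b := b) (w := w)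
    (r := M * √δ) (c := c / δ) (K := lam * K / δ) (by positivity) (by positivity) (by linarith)
    (by linarith)
    (by
      rw [P.mul_al_eq lam hwm, hw, P.tt_ws hl yδ]
      field_simp
      ring)
    (fun x hx => by
      obtain ⟨x0, x1⟩ := sub x hx
      rw [core_deriv_al P ⟨x0, x1⟩]
      refine div_le_div_of_nonneg_right (mul_le_mul_of_nonneg_left ?_ hl.le) hδ.le
      have d1 : 0 < 1 - P.eps * x := by nlinarith
      have d2 : 1 - P.eps * x ≤ 1 := by nlinarith
      exact le_div_self (by positivity) (by positivity) (by nlinarith))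
    (fun x hx => by
      obtain ⟨x0, x1⟩ := sub x hx
      rw [abs_div, abs_mul, abs_of_pos hl, abs_of_pos hδ]
      exact div_le_div_of_nonneg_right
        (mul_le_mul_of_nonneg_left (hK x ⟨x0, by linarith⟩) hl.le) hδ.le)
  have e1 : lam * P.AA w / δ - y * w = P.Ph lam δ y := by
    rw [P.AA_eq hwm, hd, Prof.Ph, hw, Prof.ws]
    field_simp
    ring
  have e2 : √(lam * deriv P.al w / δ) = (√(δ * (lam * P.a0) / (P.eps * (y * δ) ^ 2)))⁻¹ := by
    rw [← Real.sqrt_inv, core_deriv_al P hwm, hd]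
    congr 1
    field_simp
  simp only [e1, e2] at key
  have e3 : Classical.choose fresnel * ee (P.Ph lam δ y) /
      (((√(δ * (lam * P.a0) / (P.eps * (y * δ) ^ 2)))⁻¹ : ℝ) : ℂ) =
      fres * (√(δ * (lam * P.a0) / (P.eps * (y * δ) ^ 2)) : ℝ) * ee (P.Ph lam δ y) := by
    rw [fres, Complex.ofReal_inv, div_inv_eq_mul]; ring
  rw [e3] at key
  refine key.trans ?_
  have e4 : 3 / (c / δ * (M * √δ)) = η / 2 * √δ := by
    rw [hM]
    field_simp
    nlinarith
  have e5 : 4 * Real.pi * (lam * K / δ) * (M * √δ) ^ 4 =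
      4 * Real.pi * (lam * K) * M ^ 4 * √δ * √δ := by
    have : √δ ^ 4 = δ * δ := by nlinarith
    rw [mul_pow, this, mul_assoc _ (√δ) (√δ), ss]
    field_simp
  rw [e4, e5]
  nlinarith

/-- `L²` form, with nominal frequency `ν`.  Use `nsq_sub_sum`, `stat_phase` (with `y = j - l` and
margin `r / 4`: `|ws lam - ws ν| ≤ r / 2`), `card_Wi_le`, `amp_sum` (`m = 1`). -/
theorem core (P : Prof) {a b ν lam l r η : ℝ} (h0 : 0 ≤ a) (hab : a + r ≤ b - r) (h1 : b ≤ 1 - P.sh.mu)
    (hν : 0 < ν) (hr : 0 < r) (hη : 0 < η) (hη1 : η ≤ 1 / 2)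
    (hlam : |lam - ν| ≤ ν * min (P.eps * r / 2) η) :
    ∀ᶠ δ in 𝓝[>] (0 : ℝ), ∀ W ⊆ Wi (P.tt ν (a + r)) (P.tt ν (b - r)) δ, ∀ c : ℤ → ℂ,
      nsq (fun w => (Ico a b).indicator (fun w => ee (lam * P.AA w / δ + l * w)) w -
          ∑ j ∈ W, c j * ee (j * w)) ≤
        (b - a) - ∑ j ∈ W, P.amp ν δ j ^ 2 + 4 * η +
          2 * ∑ j ∈ W, ‖c j - fres * P.amp ν δ j * ee (P.Ph lam δ (j - l))‖ ^ 2 := by
  classical
  have ha0 := P.a0_pos
  have he := P.eps_pos
  have he' := P.eps_le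
  have hmu := P.sh.mu_pos
  have hτ : |lam / ν - 1| ≤ min (P.eps * r / 2) η := by
    rw [div_sub_one hν.ne', abs_div, abs_of_pos hν, div_le_iff₀ hν, mul_comm]; exact hlam
  have τ1 : |lam / ν - 1| ≤ η := hτ.trans (min_le_right _ _)
  have τ2 : |lam / ν - 1| ≤ P.eps * r / 2 := hτ.trans (min_le_left _ _)
  have τ0 : 0 < lam / ν := by linarith [(abs_le.1 τ1).1]
  have hl : 0 < lam := by simpa [hν.ne'] using mul_pos τ0 hν
  set T := ν * P.a0 / (1 - P.eps) with hT
  have T0 : 0 < T := div_pos (by positivity) (by linarith)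
  set k := √(ν * P.a0 / P.eps) / T with hk
  have k0 : 0 < k := by positivity
  have v1 := stat_phase P (a := a) (b := b) (r := r / 4) (η := η / 10 * k) h0 h1 hl (by positivity)
    (by positivity)
  have v2 := amp_sum P (a := a + r) (b := b - r) (η := 2 * r) (by linarith) hab (by linarith) hν
    (by positivity) 1 le_rfl
  have v3 : ∀ᶠ δ in 𝓝[>] (0 : ℝ), |l| * δ / (ν * P.a0) < min (η / 100) (P.eps * r / 100) :=
    core_ev (by fun_prop) (by rw [mul_zero, zero_div]; positivity)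
  filter_upwards [self_mem_nhdsWithin, v1, v2, v3] with δ hδ w1 w2 w3 W hW c
  have hδ : 0 < δ := hδ
  have hab' : a ≤ b := by linarith
  have hb1 : b ≤ 1 := by linarith
  have hG : Bd ((Ico a b).indicator fun w => ee (lam * P.AA w / δ + l * w)) := by
    have := P.AA_contDiff.continuous
    exact (Bd.ee (Continuous.measurable (by fun_prop))).indicator measurableSet_Ico
  rw [nsq_sub_sum hG, nsq_indicator_of_norm h0 hab' hb1 (C := 1) (fun w _ => norm_ee _)]
  have key : ∀ j ∈ W, ‖(∫ w in (0 : ℝ)..1, (Ico a b).indicator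
      (fun w => ee (lam * P.AA w / δ + l * w)) w * ee (-(j * w))) -
        fres * P.amp ν δ j * ee (P.Ph lam δ (j - l))‖ ≤ 6 / 5 * η * P.amp ν δ j := by
    intro j hj
    obtain ⟨j1, j2⟩ := (mem_Wi hδ).1 (hW hj)
    have u1 : ν * P.a0 ≤ j * δ := (P.tt_ge hν (by linarith) (by linarith)).1.trans j1
    have u2 : j * δ ≤ T := j2.le.trans (P.tt_ge hν (by linarith) (by linarith)).2
    have u0 : 0 < j * δ := lt_of_lt_of_le (by positivity) u1
    have j0 : (0 : ℝ) < j := (mul_pos_iff_of_pos_right hδ).1 u0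
    set s : ℝ := (j - l) / j with hs
    have s1 : |s - 1| ≤ min (η / 100) (P.eps * r / 100) := by
      refine le_trans ?_ w3.le
      have : s - 1 = -(l * δ) / (j * δ) := by rw [hs]; field_simp; ring
      rw [this, abs_div, abs_neg, abs_mul, abs_of_pos hδ, abs_of_pos u0]
      exact div_le_div_of_nonneg_left (by positivity) (by positivity) u1
    have s2 := s1.trans (min_le_left _ _)
    have s3 := s1.trans (min_le_right _ _)
    have s0 : 0 < s := by linarith [(abs_le.1 s2).1]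
    have ey : (j : ℝ) - l = s * j := by rw [hs]; field_simp
    have y0 : 0 < (j : ℝ) - l := by rw [ey]; positivity
    have q1 : a + r ≤ P.ws ν (j * δ) := (P.tt_le_iff hν (by linarith) u0).1 j1
    have q2 : P.ws ν (j * δ) < b - r := (P.lt_tt_iff hν (by linarith) u0).1 j2
    have q3 : |P.ws lam ((j - l) * δ) - P.ws ν (j * δ)| ≤ 3 / 4 * r := by
      have e : P.ws lam ((j - l) * δ) - P.ws ν (j * δ) =
          ν * P.a0 / (j * δ) * (1 - lam / ν / s) / P.eps := by
        rw [Prof.ws, Prof.ws, ey]; field_simp; ring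
      have b1 := core_ratio' (by positivity) (by nlinarith) τ2 s3
      have b2 : ν * P.a0 / (j * δ) ≤ 1 := (div_le_one u0).2 u1
      rw [e, abs_div, abs_of_pos he, div_le_iff₀ he, abs_mul,
        abs_of_pos (by positivity : 0 < ν * P.a0 / (j * δ))]
      calc _ ≤ 1 * (3 / 4 * (P.eps * r)) := mul_le_mul b2 b1 (abs_nonneg _) zero_le_one
        _ = _ := by ring
    obtain ⟨q4, q5⟩ := abs_le.1 q3
    have z1 := w1 (j - l) y0 (by linarith) (by linarith)
    rw [core_coeff h0 hab' hb1 (fun w => lam * P.AA w / δ + l * w)]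
    have e1 : ∀ w : ℝ, lam * P.AA w / δ + l * w - j * w = lam * P.AA w / δ - (j - l) * w :=
      fun w => by ring
    simp only [e1]
    have z2 : |√(δ * (lam * P.a0) / (P.eps * ((j - l) * δ) ^ 2)) - P.amp ν δ j| ≤
        11 / 10 * η * P.amp ν δ j := by
      have e2 : δ * (lam * P.a0) / (P.eps * ((j - l) * δ) ^ 2) =
          δ * (ν * P.a0) / (P.eps * (j * δ) ^ 2) * (lam / ν / s ^ 2) := by
        rw [ey]; field_simp
      rw [e2, Prof.amp]
      exact core_sqrt (by positivity) (by positivity) (core_ratio hη hη1 τ1 s2)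
    have z3 : k * √δ ≤ P.amp ν δ j := by
      have e2 : δ * (ν * P.a0) / (P.eps * (j * δ) ^ 2) = ν * P.a0 / P.eps * δ / (j * δ) ^ 2 := by
        field_simp
      rw [Prof.amp, e2, Real.sqrt_div (by positivity), Real.sqrt_sq u0.le,
        Real.sqrt_mul (by positivity), hk, div_mul_eq_mul_div]
      exact div_le_div_of_nonneg_left (by positivity) u0 u2
    have z4 : ‖fres * (√(δ * (lam * P.a0) / (P.eps * ((j - l) * δ) ^ 2)) : ℝ) *
        ee (P.Ph lam δ (j - l)) - fres * P.amp ν δ j * ee (P.Ph lam δ (j - l))‖ ≤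
          11 / 10 * η * P.amp ν δ j := by
      rw [← sub_mul, ← mul_sub, norm_mul, norm_mul, norm_ee, norm_fres, one_mul, mul_one,
        ← Complex.ofReal_sub, Complex.norm_real, Real.norm_eq_abs]
      exact z2
    refine (norm_sub_le_norm_sub_add_norm_sub _ _ _).trans ((add_le_add z1 z4).trans ?_)
    nlinarith [mul_le_mul_of_nonneg_left z3 hη.le]
  have hs : ∑ j ∈ W, P.amp ν δ j ^ 2 ≤ 1 := by
    have f1 : (Wi (P.tt ν (a + r)) (P.tt ν (b - r)) δ).filter (fun j => ((1 : ℕ) : ℤ) ∣ j) =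
        Wi (P.tt ν (a + r)) (P.tt ν (b - r)) δ := Finset.filter_true_of_mem fun j _ => by simp
    rw [f1] at w2
    have f2 := Finset.sum_le_sum_of_subset_of_nonneg (f := fun j => P.amp ν δ j ^ 2) hW
      fun _ _ _ => sq_nonneg _
    have := (abs_le.1 w2).2
    simp only [Nat.cast_one, div_one] at this
    linarith
  have h2 := Finset.sum_le_sum fun j (hj : j ∈ W) => core_cplx (c := c j) (A := P.amp ν δ j)
    (s := fres * P.amp ν δ j * ee (P.Ph lam δ (j - l))) (by
      rw [norm_mul, norm_mul, norm_ee, norm_fres, one_mul, mul_one, Complex.norm_real]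
      exact Real.norm_of_nonneg (Real.sqrt_nonneg _)) (key j hj)
  simp only [Finset.sum_add_distrib, Finset.sum_neg_distrib, ← Finset.mul_sum] at h2
  have h3 : (2 * (6 / 5 * η) + 2 * (6 / 5 * η) ^ 2) * ∑ j ∈ W, P.amp ν δ j ^ 2 ≤ 4 * η := by
    refine (mul_le_of_le_one_right (by positivity) hs).trans ?_
    nlinarith
  linarith

/-- Non-stationary phase over the whole circle (`tail_test`): the derivative of the phase is
`n al / (q δ) + O(1)`. -/
theorem nonstat (P : Prof) {n q : ℤ} (hn : n ≠ 0) (hq : 0 < q) (y : ℝ) {η : ℝ} (hη : 0 < η) :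
    ∀ᶠ δ in 𝓝[>] (0 : ℝ), ‖∫ w in (0 : ℝ)..1, ee (n * P.Afn q δ 0 w + y * w)‖ ≤ η := by
  have ha0 := P.a0_pos
  have pa := core_phase P.al_contDiff
  have pb := core_phase P.sh.smooth
  obtain ⟨K1, k1, h1⟩ := core_bound pa.c₁
  obtain ⟨K2, k2, h2⟩ := core_bound pa.c₂
  obtain ⟨K3, k3, h3⟩ := core_bound pb.c₁
  obtain ⟨K4, k4, h4⟩ := core_bound pb.c₂
  obtain ⟨K5, k5, h5⟩ := core_bound pb.c₃
  have q1 : (1 : ℝ) ≤ q := by exact_mod_cast hq
  have n1 : (1 : ℝ) ≤ |(n : ℝ)| := by exact_mod_cast Int.one_le_abs hn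
  set d : ℝ := P.a0 / (4 * q) with hd
  have d0 : 0 < d := by positivity
  set k : ℝ := |(n : ℝ)| * (K1 + K2 + K4 + K5) with hk
  have v1 : ∀ᶠ δ in 𝓝[>] (0 : ℝ), δ < 1 := core_ev (g := fun δ => δ) (by fun_prop) one_pos
  have v2 : ∀ᶠ δ in 𝓝[>] (0 : ℝ), (|(n : ℝ)| * K3 + |y|) * δ < d :=
    core_ev (by fun_prop) (by simpa using d0)
  have v3 : ∀ᶠ δ in 𝓝[>] (0 : ℝ),
      2 * δ / d + 3 * k * δ ^ 2 / d ^ 3 + 3 * k ^ 2 * δ ^ 2 / d ^ 4 < η :=
    core_ev (by fun_prop) (by simpa using hη)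
  filter_upwards [self_mem_nhdsWithin, v1, v2, v3] with δ hδ w1 w2 w3
  have hδ : 0 < δ := hδ
  set e := Int.fract (-(P.AA 1 / (q * δ) + 0)) with he
  have e0 : 0 ≤ e := Int.fract_nonneg _
  have e1 : e ≤ 1 := (Int.fract_lt_one _).le
  have hP : Phase (fun w => n * P.Afn q δ 0 w + y * w)
      (fun w => n * (P.al w / (q * δ) + e * deriv P.sh.B w) + y)
      (fun w => n * (deriv P.al w / (q * δ) + e * deriv (deriv P.sh.B) w))
      (fun w => n * (deriv (deriv P.al) w / (q * δ) + e * deriv (deriv (deriv P.sh.B)) w)) := by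
    refine ⟨fun w => ?_, fun w => ?_, fun w => ?_, ?_⟩
    · refine ((((((P.AA_hasDerivAt w).div_const (q * δ)).add
        ((hasDerivAt_id w).const_mul 0)).add ((pb.d₀ w).const_mul e)).const_mul (n : ℝ)).add
        ((hasDerivAt_id w).const_mul y)).congr_deriv ?_
      simp
    · exact ((((pa.d₀ w).div_const (q * δ)).add ((pb.d₁ w).const_mul e)).const_mul
        (n : ℝ)).add_const y
    · exact (((pa.d₁ w).div_const (q * δ)).add ((pb.d₂ w).const_mul e)).const_mul (n : ℝ)
    · exact ((pa.c₂.div_const _).add (pb.c₃.const_mul e)).const_mul _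
  have bd : ∀ u v U V : ℝ, |u| ≤ U → |v| ≤ V → U + V ≤ K1 + K2 + K4 + K5 →
      |n * (u / (q * δ) + e * v)| ≤ k / δ := by
    intro u v U V hu hv huv
    have U0 := (abs_nonneg _).trans hu
    have V0 := (abs_nonneg _).trans hv
    rw [abs_mul, hk, mul_div_assoc]
    refine mul_le_mul_of_nonneg_left ((abs_add_le _ _).trans ?_) (abs_nonneg _)
    have b1 : |u / (q * δ)| ≤ U / δ := by
      rw [abs_div, abs_of_pos (by positivity : 0 < (q : ℝ) * δ)]
      exact div_le_div₀ U0 hu hδ (le_mul_of_one_le_left hδ.le q1)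
    have b2 : |e * v| ≤ V / δ := by
      rw [abs_mul, abs_of_nonneg e0]
      exact (mul_le_of_le_one_left (abs_nonneg _) e1).trans
        (hv.trans (le_div_self V0 hδ w1.le))
    refine (add_le_add b1 b2).trans ?_
    rw [← add_div]
    exact div_le_div_of_nonneg_right huv hδ.le
  have lo : ∀ x ∈ Icc (0 : ℝ) 1, d / δ ≤ |n * (P.al x / (q * δ) + e * deriv P.sh.B x) + y| := by
    intro x hx
    have b1 : 2 * (d / δ) ≤ |n * (P.al x / (q * δ))| := by
      have a1 := (P.al_bounds x).1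
      have a2 : 2 * (d / δ) ≤ P.al x / (q * δ) := by
        rw [hd, le_div_iff₀ (by positivity)]
        refine le_trans (le_of_eq ?_) a1
        field_simp
        norm_num
      rw [abs_mul]
      exact (a2.trans (le_abs_self _)).trans (le_mul_of_one_le_left (abs_nonneg _) n1)
    have b2 : |n * (e * deriv P.sh.B x) + y| ≤ d / δ := by
      refine (abs_add_le _ _).trans (le_trans ?_ ((le_div_iff₀ hδ).2 w2.le))
      rw [abs_mul, abs_mul, abs_of_nonneg e0]
      exact add_le_add (mul_le_mul_of_nonneg_left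
        ((mul_le_of_le_one_left (abs_nonneg _) e1).trans (h3 x hx)) (abs_nonneg _)) le_rfl
    have b3 := abs_sub (n * (P.al x / (q * δ) + e * deriv P.sh.B x) + y)
      (n * (e * deriv P.sh.B x) + y)
    rw [show n * (P.al x / (q * δ) + e * deriv P.sh.B x) + y - (n * (e * deriv P.sh.B x) + y) =
      n * (P.al x / (q * δ)) by ring] at b3
    linarith
  have key := tail_test hP zero_le_one (D := d / δ) (K₂ := k / δ) (K₃ := k / δ) (by positivity) lo
    (fun x hx => bd _ _ _ _ (h1 x hx) (h4 x hx) (by linarith))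
    (fun x hx => bd _ _ _ _ (h2 x hx) (h5 x hx) (by linarith))
  have bt : ∀ x ∈ Icc (0 : ℝ) 1, ∀ t : ℝ,
      ‖ee t / (cI * (n * (P.al x / (q * δ) + e * deriv P.sh.B x) + y : ℝ))‖ ≤ δ / d := by
    intro x hx t
    rw [norm_div, norm_ee, norm_mul, norm_cI, Complex.norm_real, Real.norm_eq_abs,
      ← one_div_div d δ]
    refine one_div_le_one_div_of_le (by positivity) ((lo x hx).trans ?_)
    exact le_mul_of_one_le_left (abs_nonneg _) (by linarith [Real.pi_gt_three])
  have b1 := (norm_sub_le _ _).trans (add_le_add (bt 1 (by simp) (n * P.Afn q δ 0 1 + y * 1))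
    (bt 0 (by simp) (n * P.Afn q δ 0 0 + y * 0)))
  refine (norm_le_norm_sub_add _ _).trans ((add_le_add key b1).trans (le_trans (le_of_eq ?_) w3.le))
  field_simp
  ring

end Crest.Agent.R081
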