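import Crest.Agent.R081.DSB

/-! Dirichlet kernels: Riemann sums over shifts and decay; choice of the rotation `β`. -/

set_option autoImplicit false

namespace Crest.Agent.R081

open MeasureTheory Set Filter Topology Crest.AnalysisR.Torus3 Crest.Agent.R210 Crest.Agent.R075

variable {Λ : Type}

theorem dse_riem {φ : ℝ → ℝ} (hc : Continuous φ) {L h : ℝ} (hL0 : 0 ≤ L) (h0 : 0 < h)
    (hL : ∀ x y, φ x - φ y ≤ L * |x - y|) (z : ℝ) (M : ℕ) :
    h * ∑ i ∈ Finset.range M, φ (z - i * h) ≤ (∫ x in (z - M * h)..z, φ x) + L * M * h ^ 2 := by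
  induction M with
  | zero => simp
  | succ M ih =>
    have h1 : ∫ _x in (z - (M + 1 : ℕ) * h)..(z - M * h), (φ (z - M * h) - L * h) ≤
        ∫ x in (z - (M + 1 : ℕ) * h)..(z - M * h), φ x := by
      refine intervalIntegral.integral_mono_on (by push_cast; linarith) (by simp)
        (hc.intervalIntegrable _ _) fun x hx => ?_
      have h2 := hL (z - M * h) x
      have h3 : |z - M * h - x| ≤ h := by
        have := hx.1
        push_cast at this
        rw [abs_of_nonneg (by linarith [hx.2])]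
        linarith
      linarith [mul_le_mul_of_nonneg_left h3 hL0]
    rw [intervalIntegral.integral_const, smul_eq_mul] at h1
    rw [Finset.sum_range_succ, ← intervalIntegral.integral_add_adjacent_intervals
      (b := z - M * h) (hc.intervalIntegrable _ _) (hc.intervalIntegrable _ _)]
    push_cast at h1 ⊢
    nlinarith

theorem dse_int_ee (m : ℤ) (a : ℝ) :
    ∫ x in (a - 1)..a, ee (m * x) = if m = 0 then 1 else 0 := by
  split_ifs with hm
  · simp [hm, ee_zero]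
  · have e : ∀ x : ℝ, ee (m * x) = Complex.exp (cI * m * x) := fun x => by
      rw [ee_eq_exp]; congr 1; push_cast; ring
    simp only [e]
    rw [integral_exp_mul_complex (mul_ne_zero cI_ne (Int.cast_ne_zero.2 hm)), ← e, ← e,
      show (m : ℝ) * a = m * (a - 1) + m by ring, ee_add, ee_int]
    simp

theorem dse_sq (V : Finset ℤ) (z : ℝ) :
    ((‖∑ j ∈ V, ee (j * z)‖ ^ 2 : ℝ) : ℂ) = ∑ j ∈ V, ∑ k ∈ V, ee ((j - k : ℤ) * z) := by
  rw [← Complex.normSq_eq_norm_sq, ← Complex.mul_conj, map_sum, Finset.sum_mul_sum]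
  refine Finset.sum_congr rfl fun j _ => Finset.sum_congr rfl fun k _ => ?_
  rw [← ee_neg, ← ee_add]
  congr 1
  push_cast
  ring

theorem dse_int (V : Finset ℤ) (a : ℝ) :
    ∫ x in (a - 1)..a, ‖∑ j ∈ V, ee (j * x)‖ ^ 2 = V.card := by
  apply Complex.ofReal_injective
  rw [← intervalIntegral.integral_ofReal]
  simp only [dse_sq]
  rw [intervalIntegral.integral_finsetSum fun j _ => Continuous.intervalIntegrable (by fun_prop) _ _]
  rw [Finset.sum_congr rfl fun j _ => intervalIntegral.integral_finsetSum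
    fun k _ => Continuous.intervalIntegrable (by fun_prop) _ _]
  simp only [dse_int_ee, sub_eq_zero]
  rw [Finset.sum_congr rfl fun j hj => by rw [Finset.sum_ite_eq, if_pos hj]]
  simp

theorem dse_lip (u v : ℤ) (x y : ℝ) :
    ‖∑ j ∈ Finset.Ioc u v, ee (j * x)‖ ^ 2 - ‖∑ j ∈ Finset.Ioc u v, ee (j * y)‖ ^ 2 ≤
      4 * Real.pi * ((Finset.Ioc u v).card : ℝ) ^ 3 * |x - y| := by
  refine (le_abs_self _).trans ?_
  rw [← Real.norm_eq_abs, ← Complex.norm_real, Complex.ofReal_sub, dse_sq, dse_sq,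
    ← Finset.sum_sub_distrib]
  have hb : ∀ j ∈ Finset.Ioc u v, ‖∑ k ∈ Finset.Ioc u v, ee ((j - k : ℤ) * x) -
      ∑ k ∈ Finset.Ioc u v, ee ((j - k : ℤ) * y)‖ ≤
      ((Finset.Ioc u v).card : ℝ) * (2 * Real.pi * ((Finset.Ioc u v).card * |x - y|)) := by
    intro j hj
    rw [← Finset.sum_sub_distrib, ← nsmul_eq_mul]
    refine (norm_sum_le _ _).trans (Finset.sum_le_card_nsmul _ _ _ fun k hk => ?_)
    refine (norm_ee_sub _ _).trans (mul_le_mul_of_nonneg_left ?_ (by positivity))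
    rw [← mul_sub, abs_mul]
    refine mul_le_mul_of_nonneg_right ?_ (abs_nonneg _)
    rw [Finset.mem_Ioc] at hj hk
    have h1 : |j - k| ≤ ((Finset.Ioc u v).card : ℤ) := by
      rw [Int.card_Ioc_of_le _ _ (by omega), abs_le]
      omega
    exact_mod_cast h1
  refine (norm_sum_le _ _).trans ((Finset.sum_le_card_nsmul _ _ _ hb).trans ?_)
  rw [nsmul_eq_mul]
  have : 0 ≤ Real.pi * ((Finset.Ioc u v).card : ℝ) ^ 3 * |x - y| := by positivity
  nlinarith

theorem dse_tele (u : ℤ) (z : ℝ) {v : ℤ} (h : u ≤ v) :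
    (ee z - 1) * ∑ j ∈ Finset.Ioc u v, ee (j * z) = ee ((v + 1) * z) - ee ((u + 1) * z) := by
  induction v, h using Int.leInduction with
  | base => simp
  | succ v hv ih =>
    rw [← Finset.insert_Ioc_right_eq_Ioc_add_one hv, Finset.sum_insert (by simp), mul_add, ih,
      sub_mul, ← ee_add]
    push_cast
    rw [show z + ((v : ℝ) + 1) * z = (v + 1 + 1) * z by ring]
    ring

theorem dse_dens_nonneg {P : Prof} {p : Pc} (hp : p.Valid P) (t : ℝ) : 0 ≤ p.dens P t := by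
  refine Set.indicator_nonneg (fun t _ => ?_) t
  have h1 : (0 : ℝ) ≤ p.j := by exact_mod_cast (by linarith [hp.1] : (0 : ℤ) ≤ p.j)
  have := P.a0_pos
  have := P.eps_pos
  positivity

open Classical in
theorem dse_group {F : Fam Λ} {P : Prof} (hV : F.Valid P) {M : ℕ} (hM : 1 ≤ M) (κ : Λ) {S : ℝ}
    (hd : ∀ i t, (F.refine M).densL P (κ, i) t ≤ S / M) (Z : MB Λ) (par : Z.ι → F.ι)
    (hlab : ∀ f, Z.lab f = F.lab (par f)) (hinj : ∀ f f', par f = par f' → Z.J f = Z.J f' → f = f')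
    (g : ℤ → ℝ) (hg : ∀ i, 0 ≤ g i) (J : ℤ) (t : ℝ) :
    (∑ f, if Z.lab f = κ ∧ Z.J f = J then
      (F.pc (par f)).dens P t * g ((F.pc (par f)).j % (M : ℤ)) else 0) ≤
      S / M * ∑ i ∈ Finset.range M, g i := by
  have h1 : (∑ f, if Z.lab f = κ ∧ Z.J f = J then
      (F.pc (par f)).dens P t * g ((F.pc (par f)).j % (M : ℤ)) else 0) ≤
      ∑ p, if F.lab p = κ then (F.pc p).dens P t * g ((F.pc p).j % (M : ℤ)) else 0 := by
    rw [← Finset.sum_filter, ← Finset.sum_filter, ← Finset.sum_image (g := par)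
      (f := fun p => (F.pc p).dens P t * g ((F.pc p).j % (M : ℤ)))]
    · refine Finset.sum_le_sum_of_subset_of_nonneg ?_
        fun p _ _ => mul_nonneg (dse_dens_nonneg (hV p) t) (hg _)
      intro p hp
      obtain ⟨f, hf, rfl⟩ := Finset.mem_image.1 hp
      exact Finset.mem_filter.2 ⟨Finset.mem_univ _, by rw [← hlab, (Finset.mem_filter.1 hf).2.1]⟩
    · intro f hf f' hf' h
      exact hinj f f' h (by
        rw [(Finset.mem_filter.1 (Finset.mem_coe.1 hf)).2.2,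
          (Finset.mem_filter.1 (Finset.mem_coe.1 hf')).2.2])
  have h2 : (∑ p, if F.lab p = κ then (F.pc p).dens P t * g ((F.pc p).j % (M : ℤ)) else 0) =
      ∑ i ∈ Finset.range M, (F.refine M).densL P (κ, (i : ℤ)) t * g i := by
    have e : ∀ i : ℕ, (F.refine M).densL P (κ, (i : ℤ)) t =
        ∑ p : F.ι, if F.lab p = κ ∧ (F.pc p).j % (M : ℤ) = i then (F.pc p).dens P t else 0 := by
      intro i
      refine Finset.sum_congr rfl fun p _ => ?_
      have e' : (F.refine M).lab p = (κ, (i : ℤ)) ↔ F.lab p = κ ∧ (F.pc p).j % (M : ℤ) = i :=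
        Prod.ext_iff
      by_cases h : F.lab p = κ ∧ (F.pc p).j % (M : ℤ) = i
      · rw [if_pos h, if_pos (e'.2 h)]
        rfl
      · rw [if_neg h, if_neg fun h' => h (e'.1 h')]
    simp only [e, Finset.sum_mul]
    rw [Finset.sum_comm]
    refine Finset.sum_congr rfl fun p _ => ?_
    have hM' : (0 : ℤ) < M := by exact_mod_cast hM
    have a1 := Int.emod_nonneg (F.pc p).j hM'.ne'
    have a2 := Int.emod_lt_of_pos (F.pc p).j hM'
    by_cases hp : F.lab p = κ
    · rw [if_pos hp, Finset.sum_eq_single ((F.pc p).j % (M : ℤ)).toNat]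
      · rw [Int.toNat_of_nonneg a1, if_pos ⟨hp, rfl⟩]
      · intro i _ hi
        rw [if_neg (fun h => hi (by omega)), zero_mul]
      · intro hi
        exact absurd (Finset.mem_range.2 (by omega)) hi
    · simp [hp]
  rw [h2] at h1
  refine h1.trans ?_
  rw [Finset.mul_sum]
  exact Finset.sum_le_sum fun i _ => mul_le_mul_of_nonneg_right (hd _ _) (hg _)

/-- `φ = ‖∑ j ∈ Ioc u v, e(j z)‖²` is `1`-periodic with integral `N` over a period and Lipschitz with
constant `4 π N³`. -/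
theorem bump_sum (u v : ℤ) (M : ℕ) {h : ℝ} (h0 : 0 < h) (h1 : M * h ≤ 1) (z : ℝ) :
    h * ∑ i ∈ Finset.range M, ‖∑ j ∈ Finset.Ioc u v, ee (j * (z - i * h))‖ ^ 2 ≤
      (Finset.Ioc u v).card + 4 * Real.pi * h * ((Finset.Ioc u v).card : ℝ) ^ 3 := by
  have hc : Continuous fun x : ℝ => ‖∑ j ∈ Finset.Ioc u v, ee (j * x)‖ ^ 2 := by fun_prop
  have h2 := dse_riem hc (by positivity) h0 (dse_lip u v) z M
  have h3 : ∫ x in (z - M * h)..z, ‖∑ j ∈ Finset.Ioc u v, ee (j * x)‖ ^ 2 ≤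
      ∫ x in (z - 1)..z, ‖∑ j ∈ Finset.Ioc u v, ee (j * x)‖ ^ 2 :=
    intervalIntegral.integral_mono_interval (by linarith) (by nlinarith [Nat.cast_nonneg (α := ℝ) M])
      le_rfl (Eventually.of_forall fun x => sq_nonneg _) (hc.intervalIntegrable _ _)
  rw [dse_int] at h3
  have h4 := mul_le_mul_of_nonneg_left h1
    (show 0 ≤ 4 * Real.pi * h * ((Finset.Ioc u v).card : ℝ) ^ 3 by positivity)
  nlinarith

/-- `(e z - 1) ∑ = e((v+1) z) - e((u+1) z)` and `‖e z - 1‖ ≥ 4 dist (z, ℤ)`. -/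
theorem dir_far (u v : ℤ) {e z : ℝ} (he : 0 < e) (hz : ∀ m : ℤ, e ≤ |z + m|) :
    ‖∑ j ∈ Finset.Ioc u v, ee (j * z)‖ ^ 2 ≤ 1 / (4 * e ^ 2) := by
  rcases le_or_gt u v with h | h
  swap
  · rw [Finset.Ioc_eq_empty (by omega)]
    simp only [Finset.sum_empty, norm_zero]
    norm_num
    positivity
  have h1 := congrArg norm (dse_tele u z h)
  rw [norm_mul] at h1
  have h2 : ‖ee ((v + 1) * z) - ee ((u + 1) * z)‖ ≤ 2 :=
    (norm_sub_le _ _).trans (by simp only [norm_ee]; norm_num)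
  have h3 : 16 * e ^ 2 ≤ ‖ee z - 1‖ ^ 2 := by
    have a1 := lower_cos (abs_sub_round z)
    have a2 : ee (z - round z) = ee z := by
      have := ee_add (z - round z) (round z)
      rw [ee_int, mul_one, sub_add_cancel] at this
      exact this.symm
    have a3 := hz (-round z)
    rw [Int.cast_neg, ← sub_eq_add_neg] at a3
    have a4 : e ^ 2 ≤ (z - round z) ^ 2 := by
      rw [← sq_abs (z - round z)]
      exact pow_le_pow_left₀ he.le a3 2
    have a5 : ‖ee z - 1‖ ^ 2 = 2 * (1 - (ee z).re) := by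
      have b := norm_ee z
      rw [← Complex.normSq_eq_norm_sq, Complex.normSq_sub, Complex.normSq_eq_norm_sq, b]
      simp
      ring
    rw [a2] at a1
    linarith
  rw [le_div_iff₀ (by positivity)]
  have h4 : (‖ee z - 1‖ * ‖∑ j ∈ Finset.Ioc u v, ee (j * z)‖) ^ 2 ≤ 2 ^ 2 :=
    pow_le_pow_left₀ (by positivity) (h1 ▸ h2) 2
  have h5 := mul_le_mul_of_nonneg_right h3 (sq_nonneg ‖∑ j ∈ Finset.Ioc u v, ee (j * z)‖)
  rw [mul_pow] at h4
  linarith

theorem far_of_not_mem_Arc {x L e y z : ℝ} (hy : y ∈ Icc x (x + L))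
    (hz : z ∉ Arc (x - e) (x + L + e)) (m : ℤ) : e ≤ |z - y + m| := by
  by_contra hn
  rw [not_le, abs_lt] at hn
  exact hz ⟨m, by linarith [hy.1], by linarith [hy.2]⟩

theorem measurableSet_Arc (x y : ℝ) : MeasurableSet (Arc x y) := by
  have e : Arc x y = ⋃ m : ℤ, (fun z : ℝ => z + m) ⁻¹' Icc x y := by
    ext z
    simp only [Arc, mem_iUnion, mem_preimage]
    rfl
  rw [e]
  exact MeasurableSet.iUnion fun m => measurableSet_Icc.preimage (measurable_add_const _)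

theorem volume_Arc_le {x y : ℝ} (hxy : x ≤ y) :
    (volume (Ico (0 : ℝ) 1 ∩ Arc x y)).toReal ≤ y - x := by
  refine ENNReal.toReal_le_of_le_ofReal (by linarith) ?_
  have h1 : Ico (0 : ℝ) 1 ∩ Arc x y ⊆
      ⋃ m : ℤ, (fun z : ℝ => z + m) ⁻¹' (Ico (m : ℝ) (m + 1) ∩ Icc x y) := by
    rintro z ⟨hz, m, hm⟩
    exact mem_iUnion.2 ⟨m, ⟨by linarith [hz.1], by linarith [hz.2]⟩, hm⟩
  refine (measure_mono h1).trans ((measure_iUnion_le _).trans ?_)
  simp only [measure_preimage_add_right]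
  rw [← measure_iUnion ((pairwise_disjoint_Ico_intCast ℝ).mono fun a b h =>
      h.mono inter_subset_left inter_subset_left)
    fun m => measurableSet_Ico.inter measurableSet_Icc, ← Real.volume_Icc]
  exact measure_mono (iUnion_subset fun m => inter_subset_right)

open Classical in
/-- Averaging over `β`. -/
theorem exists_beta (s : Finset ℤ) (f : ℤ → ℝ) {θ : ℝ} (h0 : 0 ≤ θ) :
    ∃ β ∈ Icc (0 : ℝ) 1,
      ((s.filter fun J => 1 - θ < Int.fract (f J - β)).card : ℝ) ≤ θ * s.card := by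
  have hi : ∀ J ∈ s, IntegrableOn ((Arc (f J - 1) (f J - 1 + θ)).indicator fun _ => (1 : ℝ))
      (Ico (0 : ℝ) 1) := fun J _ =>
    (integrableOn_const (by simp)).indicator (measurableSet_Arc _ _)
  obtain ⟨β, hβ, h⟩ := exists_le_setAverage (μ := volume) (s := Ico (0 : ℝ) 1)
    (f := fun β => ∑ J ∈ s, (Arc (f J - 1) (f J - 1 + θ)).indicator (fun _ => (1 : ℝ)) β)
    (by simp) (by simp) (integrable_finsetSum _ hi)
  refine ⟨β, Ico_subset_Icc_self hβ, le_trans ?_ (h.trans ?_)⟩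
  · rw [Finset.card_filter]
    push_cast
    refine Finset.sum_le_sum fun J _ => ?_
    split_ifs with hJ
    · rw [indicator_of_mem]
      have h1 := Int.fract_lt_one (f J - β)
      have h2 := Int.floor_add_fract (f J - β)
      exact ⟨⌊f J - β⌋, by linarith, by linarith⟩
    · exact indicator_nonneg (fun _ _ => zero_le_one) _
  · rw [setAverage_eq, integral_finsetSum _ hi, mul_comm, ← nsmul_eq_mul]
    simp only [Measure.real, Real.volume_Ico, sub_zero, ENNReal.ofReal_one, ENNReal.toReal_one,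
      inv_one, one_smul]
    refine Finset.sum_le_card_nsmul _ _ _ fun J _ => ?_
    rw [setIntegral_indicator (measurableSet_Arc _ _), setIntegral_const, smul_eq_mul, mul_one]
    exact (volume_Arc_le (by linarith)).trans (by linarith)

open Classical in
/-- Pointwise bound for the sum of the bumps of a label.  Group the parents by the residue
`i = j % M ∈ [0, M)`, use the density bound `S / M` and `bump_sum` with `h = Lp / M`. -/
theorem ebound {F : Fam Λ} {P : Prof} (hV : F.Valid P) {M : ℕ} (hM : 1 ≤ M) (κ : Λ)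
    {S Pp Lp κr δ t0 T : ℝ} (hS : 0 ≤ S) (hL : 0 < Lp) (hL1 : Lp ≤ 1) (hκ : 0 < κr) (hδ : 0 < δ)
    (ht0 : 0 < t0) (hd : ∀ i t, (F.refine M).densL P (κ, i) t ≤ S / M)
    (Z : MB Λ) (par : Z.ι → F.ι) (A : Z.ι → ℝ) (u v : ℤ → ℤ) (s : ℤ → ℝ)
    (hlab : ∀ f, Z.lab f = F.lab (par f)) (hinj : ∀ f f', par f = par f' → Z.J f = Z.J f' → f = f')
    (hVf : ∀ f, Z.V f = Finset.Ioc (u (Z.J f)) (v (Z.J f)))
    (hcard : ∀ f, ((Z.V f).card : ℝ) ≤ κr * (Z.J f * δ) + 1)
    (hJ : ∀ f, t0 ≤ Z.J f * δ ∧ Z.J f * δ ≤ T)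
    (hA : ∀ f, A f ^ 2 = (F.pc (par f)).dens P (Z.J f * δ) / (κr * Z.J f))
    (hpoly : ∀ f, Z.lab f = κ → ∀ z, ‖Z.poly f z‖ ^ 2 = A f ^ 2 * ‖∑ j ∈ Z.V f, ee (j * (z + s (Z.J f) -
      (Pp + Lp * (((F.pc (par f)).j % (M : ℤ) : ℤ) : ℝ) / M)))‖ ^ 2) (J : ℤ) (z : ℝ) :
    (∑ f, if Z.lab f = κ ∧ Z.J f = J then ‖Z.poly f z‖ ^ 2 else 0) ≤
      S * δ / Lp * (1 + 1 / (κr * t0)) * (1 + 4 * Real.pi * (κr * T + 1) ^ 2 / M) := by
  have hM' : (0 : ℝ) < M := by exact_mod_cast hM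
  by_cases hex : ∃ f, Z.lab f = κ ∧ Z.J f = J
  swap
  · rw [Finset.sum_eq_zero fun f _ => if_neg fun h => hex ⟨f, h⟩]
    positivity
  obtain ⟨f₀, -, hf₀⟩ := hex
  have hJ0 := hJ f₀
  have hN := hcard f₀
  rw [hVf, hf₀] at hN
  rw [hf₀] at hJ0
  have hJpos : (0 : ℝ) < J := (mul_pos_iff_of_pos_right hδ).1 (ht0.trans_le hJ0.1)
  have key := dse_group hV hM κ hd Z par hlab hinj
    (fun i => (κr * J)⁻¹ *
      ‖∑ j ∈ Finset.Ioc (u J) (v J), ee (j * (z + s J - Pp - i * (Lp / M)))‖ ^ 2)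
    (fun i => by positivity) J (J * δ)
  have hb := bump_sum (u J) (v J) M (h := Lp / M) (by positivity)
    (by rw [mul_div_cancel₀ _ hM'.ne']; exact hL1) (z + s J - Pp)
  refine le_trans (le_of_eq (Finset.sum_congr rfl fun f _ => ?_)) (key.trans ?_)
  · split_ifs with h
    · rw [hpoly f h.1, hA, hVf, h.2, div_eq_mul_inv, mul_assoc]
      congr 4
      refine Finset.sum_congr rfl fun j _ => ?_
      congr 2
      ring
    · rfl
  · simp only [Int.cast_natCast]
    rw [← Finset.mul_sum]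
    set N : ℝ := ((Finset.Ioc (u J) (v J)).card : ℝ)
    set Q := ∑ i ∈ Finset.range M,
      ‖∑ j ∈ Finset.Ioc (u J) (v J), ee (j * (z + s J - Pp - i * (Lp / M)))‖ ^ 2
    have hN0 : 0 ≤ N := Nat.cast_nonneg _
    have a1 : N / (κr * (J * δ)) ≤ 1 + 1 / (κr * t0) := by
      have b1 : 1 / (κr * (J * δ)) ≤ 1 / (κr * t0) :=
        one_div_le_one_div_of_le (by positivity) (mul_le_mul_of_nonneg_left hJ0.1 hκ.le)
      calc N / (κr * (J * δ)) ≤ (κr * (J * δ) + 1) / (κr * (J * δ)) := by gcongr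
        _ = 1 + 1 / (κr * (J * δ)) := by field_simp
        _ ≤ _ := by linarith
    have a2 : 1 + 4 * Real.pi * (Lp / M) * N ^ 2 ≤ 1 + 4 * Real.pi * (κr * T + 1) ^ 2 / M := by
      have b1 : N ≤ κr * T + 1 := hN.trans (by linarith [mul_le_mul_of_nonneg_left hJ0.2 hκ.le])
      calc _ ≤ 1 + 4 * Real.pi * (1 / M) * (κr * T + 1) ^ 2 := by gcongr
        _ = _ := by ring
    calc S / M * ((κr * J)⁻¹ * Q) = S / (Lp * (κr * J)) * (Lp / M * Q) := by field_simp
      _ ≤ S / (Lp * (κr * J)) * (N + 4 * Real.pi * (Lp / M) * N ^ 3) := by gcongr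
      _ = S * δ / Lp * (N / (κr * (J * δ))) * (1 + 4 * Real.pi * (Lp / M) * N ^ 2) := by
        field_simp
      _ ≤ _ := by gcongr

open Classical in
/-- Sum of the squared amplitudes of a label. -/
theorem asum {F : Fam Λ} {P : Prof} (hV : F.Valid P) {M : ℕ} (hM : 1 ≤ M) (κ : Λ)
    {S κr δ t0 T : ℝ} (hS : 0 ≤ S) (hκ : 0 < κr) (hδ : 0 < δ) (hδ1 : δ ≤ 1) (ht0 : 0 < t0)
    (hT : t0 ≤ T) (hd : ∀ i t, (F.refine M).densL P (κ, i) t ≤ S / M)
    (Z : MB Λ) (par : Z.ι → F.ι) (A : Z.ι → ℝ)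
    (hlab : ∀ f, Z.lab f = F.lab (par f)) (hinj : ∀ f f', par f = par f' → Z.J f = Z.J f' → f = f')
    (hJ : ∀ f, t0 ≤ Z.J f * δ ∧ Z.J f * δ ≤ T)
    (hA : ∀ f, A f ^ 2 = (F.pc (par f)).dens P (Z.J f * δ) / (κr * Z.J f)) :
    (∑ f, if Z.lab f = κ then A f ^ 2 else 0) ≤ S * (T + 1) / (κr * t0) := by
  have hM' : (0 : ℝ) < M := by exact_mod_cast hM
  have hT0 : 0 < T := ht0.trans_le hT
  have hmem : ∀ f, Z.J f ∈ Finset.Icc 1 ⌊T / δ⌋ := fun f => by
    have h1 : (0 : ℝ) < Z.J f := (mul_pos_iff_of_pos_right hδ).1 (ht0.trans_le (hJ f).1)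
    rw [Finset.mem_Icc, Int.le_floor, le_div_iff₀ hδ]
    exact ⟨by exact_mod_cast h1, (hJ f).2⟩
  have h1 : (∑ f, if Z.lab f = κ then A f ^ 2 else 0) ≤ ∑ f, ∑ J ∈ Finset.Icc 1 ⌊T / δ⌋,
      if Z.lab f = κ ∧ Z.J f = J then (F.pc (par f)).dens P (J * δ) * (δ / (κr * t0)) else 0 := by
    refine Finset.sum_le_sum fun f _ => ?_
    by_cases hf : Z.lab f = κ
    · simp only [hf, true_and, if_true]
      rw [Finset.sum_ite_eq, if_pos (hmem f), hA, div_eq_mul_one_div]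
      refine mul_le_mul_of_nonneg_left ?_ (dse_dens_nonneg (hV _) _)
      have h2 : (0 : ℝ) < Z.J f := (mul_pos_iff_of_pos_right hδ).1 (ht0.trans_le (hJ f).1)
      rw [div_le_div_iff₀ (by positivity) (by positivity)]
      linarith [mul_le_mul_of_nonneg_left (hJ f).1 hκ.le]
    · simp [hf]
  rw [Finset.sum_comm] at h1
  refine h1.trans ((Finset.sum_le_card_nsmul _ _ (S * (δ / (κr * t0))) fun J _ => ?_).trans ?_)
  · refine (dse_group hV hM κ hd Z par hlab hinj (fun _ => δ / (κr * t0)) (fun _ => by positivity)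
      J (J * δ)).trans (le_of_eq ?_)
    rw [Finset.sum_const, Finset.card_range, nsmul_eq_mul]
    field_simp
  · have h2 : ((Finset.Icc 1 ⌊T / δ⌋).card : ℝ) ≤ T / δ := by
      have h3 : (0 : ℤ) ≤ ⌊T / δ⌋ := Int.floor_nonneg.2 (by positivity)
      have h4 : ((Finset.Icc 1 ⌊T / δ⌋).card : ℤ) = ⌊T / δ⌋ := by
        rw [Int.card_Icc_of_le _ _ (by omega)]
        ring
      have h5 : ((Finset.Icc 1 ⌊T / δ⌋).card : ℝ) = ⌊T / δ⌋ := by exact_mod_cast h4
      rw [h5]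
      exact Int.floor_le _
    rw [nsmul_eq_mul]
    calc _ ≤ T / δ * (S * (δ / (κr * t0))) := by gcongr
      _ = S * T / (κr * t0) := by field_simp
      _ ≤ _ := by gcongr; linarith

end Crest.Agent.R081
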