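import Crest.Agent.R081.CS
import Crest.Agent.R081.Close

/-! The potential halves under a C-step; iteration of C-steps. -/

set_option autoImplicit false

namespace Crest.Agent.R081

open MeasureTheory Set Filter Topology Crest.AnalysisR.Torus3 Crest.Agent.R210 Crest.Agent.R075

variable {Λ : Type}

/-- The arithmetic of partners. -/
theorem iter_arith {j0 j1 : ℤ} (n0 n1 : ℤ) (h0 : 1 ≤ j0) (h1 : 1 ≤ j1) (G : ℕ) :
    ∀ᶠ q : ℕ in atTop, ∃ m : ℕ, 1 ≤ m ∧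
      (∀ j j' : ℤ, 0 < j' → j' < j → j * ((q + 1) * j1 + n1) = j' * ((q + 1) * j0 + n0) →
        (m : ℤ) ∣ j) ∧ ((j1 < j0 ∧ j0 * n1 = j1 * n0 ∧ 2 ≤ m) ∨ G ≤ m) := by
  filter_upwards [eventually_ge_atTop
    (G * (j1 * n0 - j0 * n1).natAbs + n0.natAbs + n1.natAbs)] with q hq
  have hq' : (G : ℤ) * |j1 * n0 - j0 * n1| + |n0| + |n1| ≤ q := by
    have := (Int.ofNat_le).2 hq
    push_cast at this
    simpa [Int.natCast_natAbs] using this
  have hq0 : (0 : ℤ) ≤ q := Int.natCast_nonneg q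
  have hGD : 0 ≤ (G : ℤ) * |j1 * n0 - j0 * n1| := by positivity
  have e0 := neg_abs_le n0
  have e1 := neg_abs_le n1
  have f0 := abs_nonneg n0
  have f1 := abs_nonneg n1
  obtain ⟨N0, hN0⟩ : ∃ N0 : ℤ, N0 = (q + 1) * j0 + n0 := ⟨_, rfl⟩
  obtain ⟨N1, hN1⟩ : ∃ N1 : ℤ, N1 = (q + 1) * j1 + n1 := ⟨_, rfl⟩
  have g0 : (G : ℤ) * |j1 * n0 - j0 * n1| < N0 := by nlinarith
  have g1 : 0 < N1 := by nlinarith
  have g2 : 0 < N0 := hGD.trans_lt g0
  have hD : j1 * N0 - j0 * N1 = j1 * n0 - j0 * n1 := by rw [hN0, hN1]; ring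
  rw [← hN0, ← hN1]
  rcases le_or_gt N0 N1 with hle | hlt
  · refine ⟨G + 1, by omega, fun j j' hj' hjj h => ?_, Or.inr (by omega)⟩
    exfalso
    nlinarith
  · obtain ⟨g, a, a', hg, hco, ha, ha'⟩ := Int.exists_gcd_one' (m := N0) (n := N1)
      (Int.gcd_pos_of_ne_zero_left _ g2.ne')
    have hg' : (0 : ℤ) < g := by exact_mod_cast hg
    have p1 : 0 < a' := by
      by_contra h
      nlinarith
    have p2 : a' < a := by
      by_contra h
      nlinarith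
    have p3 : ((a.toNat : ℕ) : ℤ) = a := Int.toNat_of_nonneg (by omega)
    refine ⟨a.toNat, by omega, fun j j' _ _ h => ?_, ?_⟩
    · rw [p3]
      refine Int.dvd_of_dvd_mul_left_of_gcd_one (c := a') ⟨j', ?_⟩ hco
      refine mul_right_cancel₀ hg'.ne' ?_
      rw [ha, ha'] at h
      linarith
    · by_cases hD0 : j1 * n0 - j0 * n1 = 0
      · refine Or.inl ⟨?_, by linarith, by omega⟩
        by_contra h
        nlinarith
      · refine Or.inr ?_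
        have p4 : (g : ℤ) ∣ j1 * n0 - j0 * n1 := by
          rw [← hD, ha, ha']
          exact ⟨j1 * a - j0 * a', by ring⟩
        have p5 : (g : ℤ) ≤ |j1 * n0 - j0 * n1| :=
          Int.le_of_dvd (abs_pos.2 hD0) ((dvd_abs _ _).2 p4)
        have p6 : (G : ℤ) < a := by
          by_contra h
          have hG : (0 : ℤ) ≤ G := Int.natCast_nonneg G
          nlinarith
        omega

theorem iter_mass_nonneg {P : Prof} {p : Pc} (hp : p.Valid P) : 0 ≤ p.mass :=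
  mul_nonneg (sq_nonneg _) (sub_nonneg.2 hp.2.2.1.le)

open Classical in
/-- The mass of the children of `p` that have a partner among the children of `p'`. -/
theorem iter_pair {P : Prof} {p p' : Pc} (hp : p.Valid P) (hp' : p'.Valid P) {r : ℝ} (hr : 0 < r)
    (hr' : p.a + r ≤ p.b - r) {θ : ℝ} (hθ : 0 < θ) :
    ∀ᶠ q : ℕ in atTop, ∀ᶠ δ in 𝓝[>] (0 : ℝ),
      ∑ j ∈ p.win P r δ, (if ∃ j' : ℤ, 0 < j' ∧ j' < j ∧
          j * ((q + 1) * p'.j + p'.n) = j' * ((q + 1) * p.j + p.n) then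
        ‖p.c‖ ^ 2 * P.amp p.j δ j ^ 2 else 0) ≤ (if p.Partner p' then p.mass / 2 else 0) + θ := by
  have hm0 := iter_mass_nonneg hp
  obtain ⟨G, hG⟩ := exists_nat_gt (p.mass / (θ / 2))
  have hG0 : (0 : ℝ) < G := lt_of_le_of_lt (by positivity) hG
  filter_upwards [iter_arith p.n p'.n hp.1 hp'.1 G] with q ⟨m, hm, hdvd, hcase⟩
  have hj : (0 : ℝ) < p.j := by exact_mod_cast lt_of_lt_of_le one_pos hp.1
  have hmu := P.sh.mu_pos
  filter_upwards [amp_sum P (a := p.a + r) (b := p.b - r) (ν := p.j)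
    (η := θ / 2 / (‖p.c‖ ^ 2 + 1)) (by linarith [hp.2.1]) hr' (by linarith [hp.2.2.2]) hj
    (by positivity) m hm] with δ hδ
  have hm' : (0 : ℝ) < m := by exact_mod_cast hm
  have e1 : ∑ j ∈ p.win P r δ, (if ∃ j' : ℤ, 0 < j' ∧ j' < j ∧
          j * ((q + 1) * p'.j + p'.n) = j' * ((q + 1) * p.j + p.n) then
        ‖p.c‖ ^ 2 * P.amp p.j δ j ^ 2 else 0) ≤ ‖p.c‖ ^ 2 *
      ∑ j ∈ (p.win P r δ).filter (fun j => (m : ℤ) ∣ j), P.amp p.j δ j ^ 2 := by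
    rw [Finset.mul_sum, Finset.sum_filter]
    refine Finset.sum_le_sum fun j _ => ?_
    split_ifs with h1 h2
    · exact le_rfl
    · obtain ⟨j', a1, a2, a3⟩ := h1
      exact absurd (hdvd j j' a1 a2 a3) h2
    · positivity
    · exact le_rfl
  have e2 : ∑ j ∈ (p.win P r δ).filter (fun j => (m : ℤ) ∣ j), P.amp p.j δ j ^ 2 ≤
      (p.b - p.a) / m + θ / 2 / (‖p.c‖ ^ 2 + 1) := by
    have h1 := (abs_le.1 hδ).2
    have h2 : (p.b - r - (p.a + r)) / m ≤ (p.b - p.a) / m :=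
      div_le_div_of_nonneg_right (by linarith) hm'.le
    unfold Pc.win
    linarith
  have e3 : ‖p.c‖ ^ 2 * (θ / 2 / (‖p.c‖ ^ 2 + 1)) ≤ θ / 2 := by
    rw [← mul_div_assoc, div_le_iff₀ (by positivity)]
    nlinarith
  have e4 : p.mass / m ≤ (if p.Partner p' then p.mass / 2 else 0) + θ / 2 := by
    rcases hcase with ⟨a1, a2, a3⟩ | a1
    · rw [if_pos ⟨a1, a2⟩]
      have : p.mass / m ≤ p.mass / 2 := by
        gcongr
        exact_mod_cast a3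
      linarith
    · have h1 : p.mass / m ≤ p.mass / G := by gcongr
      have h2 : p.mass / G ≤ θ / 2 := by
        rw [div_lt_iff₀ (by positivity)] at hG
        rw [div_le_iff₀ hG0]
        linarith
      have h3 : 0 ≤ (if p.Partner p' then p.mass / 2 else 0) := by split_ifs <;> positivity
      linarith
  have e5 := mul_le_mul_of_nonneg_left e2 (sq_nonneg ‖p.c‖)
  have e6 : ‖p.c‖ ^ 2 * ((p.b - p.a) / m) = p.mass / m := by rw [Pc.mass, mul_div_assoc]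
  rw [mul_add, e6] at e5
  linarith

theorem iter_kid_mass (P : Prof) (p : Pc) (q : ℕ) (δ : ℝ) {mu' : ℝ} (h : mu' ∈ Icc (0 : ℝ) 1)
    (j : ℤ) : 0 ≤ (p.kid P q δ mu' j).mass ∧
      (p.kid P q δ mu' j).mass ≤ ‖p.c‖ ^ 2 * P.amp p.j δ j ^ 2 := by
  have e : ‖(p.kid P q δ mu' j).c‖ ^ 2 = ‖p.c‖ ^ 2 * P.amp p.j δ j ^ 2 := by
    simp only [Pc.kid, norm_mul, norm_fres, norm_ee, mul_one, Complex.norm_real, Real.norm_eq_abs,
      mul_pow, sq_abs]
  have e' : (p.kid P q δ mu' j).mass = ‖p.c‖ ^ 2 * P.amp p.j δ j ^ 2 * (1 - mu') := by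
    rw [Pc.mass, e]
    simp [Pc.kid]
  rw [e']
  have h0 : 0 ≤ ‖p.c‖ ^ 2 * P.amp p.j δ j ^ 2 := by positivity
  exact ⟨mul_nonneg h0 (by linarith [h.2]), by nlinarith [h.1]⟩

theorem iter_win_pos {P : Prof} {p : Pc} (hp : p.Valid P) {r δ : ℝ} (hr : 0 < r)
    (hr' : p.a + r ≤ p.b - r) (hδ : 0 < δ) {j : ℤ} (hj : j ∈ p.win P r δ) : 0 < j := by
  have hj0 : (0 : ℝ) < p.j := by exact_mod_cast lt_of_lt_of_le one_pos hp.1
  have h1 := ((mem_Wi hδ).1 hj).1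
  have h2 : 0 < P.tt p.j (p.a + r) := P.tt_pos hj0 (by linarith [hp.2.2.2, P.sh.mu_pos])
  have h3 : (0 : ℝ) < j := (mul_pos_iff_of_pos_right hδ).1 (h2.trans_le h1)
  exact_mod_cast h3

/-- Let `N i = q j_i + n_i > 0` and `a (i,i') = N i / gcd (N i) (N i')`.  If `(i', j')` is a partner
of `(i, j)` then `N i' < N i`, `a ∣ j`, and `j'` is determined by `(i, i', j)`.  For `q` large either
`i'` is a partner of `i` (and `a ≥ 2`) or `a > G`.  The children of `i` with `a ∣ j` have mass at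
most `mass i / a + small` (`amp_sum`). -/
theorem child_phi {F : Fam Λ} {P : Prof} (hV : F.Valid P) {r : ℝ} (hr : F.Small r) {η : ℝ}
    (hη : 0 < η) : ∀ᶠ q : ℕ in atTop, ∀ᶠ δ in 𝓝[>] (0 : ℝ), ∀ mu' ∈ Icc (0 : ℝ) 1,
      (F.child P q r δ mu').Phi ≤ F.Phi / 2 + η := by
  classical
  obtain ⟨θ, hθ, hθη⟩ : ∃ θ : ℝ, 0 < θ ∧ (Fintype.card F.ι : ℝ) * (Fintype.card F.ι * θ) ≤ η := by
    refine ⟨η / ((Fintype.card F.ι : ℝ) ^ 2 + 1), by positivity, ?_⟩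
    rw [← mul_assoc, ← mul_div_assoc, div_le_iff₀ (by positivity)]
    nlinarith
  have h1 := eventually_all.2 fun i => eventually_all.2 fun i' =>
    iter_pair (hV i) (hV i') hr.1 (hr.2 i) hθ
  have h2 : ∀ᶠ q : ℕ in atTop, ∀ i, 0 < ((q : ℤ) + 1) * (F.pc i).j + (F.pc i).n := by
    refine eventually_all.2 fun i => ?_
    filter_upwards [eventually_ge_atTop (F.pc i).n.natAbs] with q hq
    have hq' : |(F.pc i).n| ≤ q := by
      have := (Int.ofNat_le).2 hq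
      simpa [Int.natCast_natAbs] using this
    have := (hV i).1
    have hq0 : (0 : ℤ) ≤ q := Int.natCast_nonneg q
    nlinarith [neg_abs_le (F.pc i).n]
  filter_upwards [h1, h2] with q hq hN
  have h3 := eventually_all.2 fun i => eventually_all.2 fun i' => hq i i'
  filter_upwards [h3, self_mem_nhdsWithin] with δ hδ hδ0 mu' hmu
  have hδ0' : 0 < δ := hδ0
  have key : ∀ s : (F.child P q r δ mu').ι, ((F.child P q r δ mu').pc s).mass *
      ((Finset.univ.filter fun s' => ((F.child P q r δ mu').pc s).Partner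
        ((F.child P q r δ mu').pc s')).card : ℝ) ≤
      ∑ i', (if ∃ j' : ℤ, 0 < j' ∧ j' < s.2 ∧ (s.2 : ℤ) * ((q + 1) * (F.pc i').j + (F.pc i').n) =
          j' * ((q + 1) * (F.pc s.1).j + (F.pc s.1).n) then
        ‖(F.pc s.1).c‖ ^ 2 * P.amp (F.pc s.1).j δ s.2 ^ 2 else 0) := by
    intro s
    rw [← Finset.sum_filter, Finset.sum_const, nsmul_eq_mul, mul_comm]
    have hk := iter_kid_mass P (F.pc s.1) q δ hmu s.2
    refine mul_le_mul ?_ hk.2 hk.1 (Nat.cast_nonneg _)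
    refine Nat.cast_le.2 (Finset.card_le_card_of_injOn (fun s' => s'.1) (fun s' hs' => ?_) ?_)
    · have := (Finset.mem_filter.1 hs').2
      exact Finset.mem_filter.2 ⟨Finset.mem_univ _, s'.2,
        iter_win_pos (hV _) hr.1 (hr.2 _) hδ0' s'.2.2, this.1, this.2⟩
    · rintro ⟨i', j'⟩ h' ⟨i'', j''⟩ h'' (rfl : i' = i'')
      have a1 : (s.2 : ℤ) * ((q + 1) * (F.pc i').j + (F.pc i').n) =
          j' * ((q + 1) * (F.pc s.1).j + (F.pc s.1).n) := (Finset.mem_filter.1 h').2.2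
      have a2 : (s.2 : ℤ) * ((q + 1) * (F.pc i').j + (F.pc i').n) =
          j'' * ((q + 1) * (F.pc s.1).j + (F.pc s.1).n) := (Finset.mem_filter.1 h'').2.2
      have a3 : j' = j'' := Subtype.ext (mul_right_cancel₀ (hN s.1).ne' (a1.symm.trans a2))
      rw [a3]
  refine (Finset.sum_le_sum fun s _ => key s).trans ?_
  have e1 : F.Phi / 2 = ∑ i, ∑ i', if (F.pc i).Partner (F.pc i') then (F.pc i).mass / 2 else 0 := by
    rw [Fam.Phi, Finset.sum_div]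
    refine Finset.sum_congr rfl fun i _ => ?_
    rw [← Finset.sum_filter, Finset.sum_const, nsmul_eq_mul]
    ring
  have e2 : (Fintype.card F.ι : ℝ) * (Fintype.card F.ι * θ) = ∑ _i : F.ι, ∑ _i' : F.ι, θ := by
    simp
  refine le_trans ?_ (add_le_add_right hθη _)
  rw [e1, e2, ← Finset.sum_add_distrib]
  erw [Fintype.sum_sigma]
  refine Finset.sum_le_sum fun i _ => ?_
  rw [← Finset.sum_add_distrib, Finset.sum_comm]
  refine Finset.sum_le_sum fun i' _ => le_trans (le_of_eq ?_) (hδ i i')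
  exact Finset.sum_coe_sort ((F.pc i).win P r δ) fun j => if ∃ j' : ℤ, 0 < j' ∧ j' < j ∧
    j * ((q + 1) * (F.pc i').j + (F.pc i').n) = j' * ((q + 1) * (F.pc i).j + (F.pc i).n) then
      ‖(F.pc i).c‖ ^ 2 * P.amp (F.pc i).j δ j ^ 2 else 0

/-- One C-step, all properties together (`close_rho`, `close_step`, `norm_kp_sub`). -/
theorem cstep (H : VD) {P : Prof} {F : Fam Λ} (hV : F.Valid P) (hS : F.Sep) (S' : Shape) {κ' : ℝ}
    (hκ : 0 < κ') (k : ℕ) {τ η : ℝ} (hτ : 0 < τ) (hη : 0 < η) :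
    ∀ᶠ r in 𝓝[>] (0 : ℝ), F.Small r ∧ ∀ᶠ q : ℕ in atTop,
      ((∀ i, 0 < (cm q).q * (F.pc i).j + (F.pc i).n) ∧
      (∀ i i', (cm q).q * (F.pc i).j + (F.pc i).n = (cm q).q * (F.pc i').j + (F.pc i').n →
        (F.pc i).j = (F.pc i').j ∧ (F.pc i).n = (F.pc i').n) ∧
      ∀ δ > 0, ∀ mu', (F.child P q r δ mu').Inj) ∧
      ∀ᶠ δ in 𝓝[>] (0 : ℝ), ∀ P' : Prof, P'.Is δ κ' S' →
        Close2 k τ (TT H P 0) (TT (hm P (cm q) 0 0 δ 0 * H) P' 0) ∧
        (F.child P q r δ P'.sh.mu).Valid P' ∧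
        (∀ κ, ‖kp H (F.vecL κ) - kp (hm P (cm q) 0 0 δ 0 * H) ((F.child P q r δ P'.sh.mu).vecL κ)‖ ≤
          η + √(S'.mu * (F.massL κ + 1))) ∧
        (F.child P q r δ P'.sh.mu).Phi ≤ F.Phi / 2 + η := by
  obtain ⟨ρ0, hρ0, hρ⟩ := close_rho H P k (half_pos hτ)
  have hq : ∀ᶠ q : ℕ in atTop, |(((cm q).p : ℝ) / (cm q).q)| < ρ0 := by
    filter_upwards [(tendsto_one_div_add_atTop_nhds_zero_nat (𝕜 := ℝ)).eventually
      (gt_mem_nhds hρ0)] with q hq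
    have : (((cm q).p : ℝ) / (cm q).q) = 1 / ((q : ℝ) + 1) := by simp [cm]
    rwa [this, abs_of_pos (by positivity)]
  filter_upwards [Fam.eventually_small hV, child_approx hV hS hη] with r hr ha
  refine ⟨hr, ?_⟩
  filter_upwards [child_inj hV hS hr, ha, child_phi hV hr hη, hq] with q h1 h2 h3 h4
  refine ⟨h1, ?_⟩
  filter_upwards [h2, h3, close_step H P (cm q) 0 S' hκ k (half_pos hτ), self_mem_nhdsWithin]
    with δ g1 g2 g3 g4 P' hP'
  have hmu : P'.sh.mu ∈ Icc (0 : ℝ) 1 := ⟨P'.sh.mu_pos.le, by linarith [P'.sh.mu_le]⟩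
  refine ⟨?_, child_valid hV hr g4 q P', fun κ => ?_, g2 _ hmu⟩
  · have := (hρ _ h4).trans (g3 P' hP' 0 (by simp) 0 (by simp) 0 (by simp))
    rwa [add_halves] at this
  · rw [norm_kp_sub, ← hP'.2.2]
    exact g1 _ hmu κ

theorem iter_ind_mono {lo hi hi' c c' : ℝ} (h : hi ≤ hi') (hc : c ≤ c') (hc' : 0 ≤ c') (t : ℝ) :
    (Icc lo hi).indicator (fun _ => c) t ≤ (Icc lo hi').indicator (fun _ => c') t := by
  by_cases ht : t ∈ Icc lo hi
  · rw [indicator_of_mem ht, indicator_of_mem (Icc_subset_Icc_right h ht)]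
    exact hc
  · rw [indicator_of_notMem ht]
    exact indicator_nonneg (fun _ _ => hc') t

/-- One C-step with all parameters chosen. -/
theorem iter_one (H : VD) {P : Prof} {F : Fam Λ} (hV : F.Valid P) (hS : F.Sep) (lo hi : Λ → ℝ)
    {t0 T S : ℝ} (ht0 : 0 < t0) (hlo : ∀ κ, t0 ≤ lo κ) (hhi : ∀ κ, hi κ ≤ T) (hS0 : 0 ≤ S)
    (hmass : ∀ κ, F.massL κ ≤ 2)
    (hd : ∀ κ t, F.densL P κ t ≤ (Icc (lo κ) (hi κ)).indicator (fun _ => S) t)
    {M : ℕ} (hM : 1 ≤ M) (k : ℕ) {τ η : ℝ} (hτ : 0 < τ) (hη : 0 < η) :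
    ∃ (H' : VD) (P' : Prof) (F' : Fam Λ), Close2 k τ (TT H P 0) (TT H' P' 0) ∧ F'.Valid P' ∧
      F'.Inj ∧ (∀ κ, ‖kp H (F.vecL κ) - kp H' (F'.vecL κ)‖ ≤ η) ∧ F'.Phi ≤ F.Phi / 2 + η ∧
      (∀ i', ∃ i, F'.lab i' = F.lab i) ∧
      ∀ κ i t, (F'.refine M).densL P' (κ, i) t ≤
        (Icc (lo κ) (hi κ + η)).indicator (fun _ => (1 + η) * S / M) t := by
  have hM' : (0 : ℝ) < M := by exact_mod_cast hM
  obtain ⟨S', hS'⟩ := exists_shape (μ := min (1 / 2) ((η / 2) ^ 2 / 3)) (by positivity)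
    (min_le_left _ _)
  obtain ⟨κ', hκ, hκ'⟩ : ∃ κ' : ℝ, 0 < κ' ∧ κ' * (η * t0) = M :=
    ⟨M / (η * t0), by positivity, by field_simp⟩
  obtain ⟨r, hr, hq⟩ := (cstep H hV hS S' hκ k hτ (half_pos hη)).exists
  obtain ⟨q, ⟨-, -, hinj⟩, hδ⟩ := hq.exists
  have hsm : ∀ᶠ δ in 𝓝[>] (0 : ℝ), κ' * δ * (|T| + η) ≤ η := by
    refine eventually_nhdsWithin_of_eventually_nhds ?_
    have : Tendsto (fun δ : ℝ => κ' * δ * (|T| + η)) (𝓝 0) (𝓝 (κ' * 0 * (|T| + η))) :=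
      Continuous.tendsto (by fun_prop) 0
    rw [mul_zero, zero_mul] at this
    exact this.eventually (ge_mem_nhds hη)
  obtain ⟨δ, ⟨⟨h1, ⟨P', hP'⟩⟩, h2⟩, h3⟩ :=
    (((hδ.and (exists_prof S' hκ)).and hsm).and self_mem_nhdsWithin).exists
  obtain ⟨g1, g2, g3, g4⟩ := h1 P' hP'
  refine ⟨_, P', _, g1, g2, hinj δ h3 _, fun κ => (g3 κ).trans ?_, by linarith,
    fun s => ⟨s.1, rfl⟩, fun κ i t => ?_⟩
  · have : √(S'.mu * (F.massL κ + 1)) ≤ η / 2 := by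
      refine Real.sqrt_le_iff.2 ⟨by positivity, ?_⟩
      have a1 : S'.mu ≤ (η / 2) ^ 2 / 3 := hS' ▸ min_le_right _ _
      have a2 := S'.mu_pos
      have a3 := hmass κ
      nlinarith
    linarith
  · have hl : 0 < lo κ := ht0.trans_le (hlo κ)
    refine (child_dens_ind hV hr q hP' hM κ i hl hS0 (hd κ) t).trans
      (iter_ind_mono ?_ ?_ (by positivity) t)
    · have a1 := P'.eps_pos
      have a2 := P'.eps_le
      rw [div_le_iff₀ (by linarith)]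
      rw [← hP'.2.1] at h2
      have a3 : hi κ ≤ |T| := (hhi κ).trans (le_abs_self T)
      nlinarith
    · have a1 : 1 / (κ' * lo κ) ≤ η / M := by
        rw [div_le_div_iff₀ (by positivity) hM', ← hκ']
        have := mul_le_mul_of_nonneg_left (hlo κ) (mul_pos hκ hη).le
        nlinarith
      have a2 : (1 + η) * S / M = S * (1 / M + η / M) := by ring
      rw [a2]
      gcongr

/-- The state of the iteration: the potential can be made at most `φ`, up to small errors. -/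
def IterA (H : VD) (P : Prof) (F : Fam Λ) (lo hi : Λ → ℝ) (S : ℝ) (k : ℕ) (φ : ℝ) : Prop :=
  ∀ τ η : ℝ, 0 < τ → 0 < η →
    ∃ (H' : VD) (P' : Prof) (F' : Fam Λ), Close2 k τ (TT H P 0) (TT H' P' 0) ∧ F'.Valid P' ∧
      F'.Sep ∧ (∀ κ, ‖kp H (F.vecL κ) - kp H' (F'.vecL κ)‖ ≤ η) ∧ F'.Phi ≤ φ + η ∧
      (∀ i', ∃ i, F'.lab i' = F.lab i) ∧
      ∀ κ t, F'.densL P' κ t ≤ (Icc (lo κ) (hi κ + η)).indicator (fun _ => (1 + η) * S) t

theorem iter_mass {H H' : VD} {P P' : Prof} {F F' : Fam Λ} (hV : F.Valid P) (hS : F.Sep)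
    (hV' : F'.Valid P') (hS' : F'.Sep) {κ : Λ} (hmass : F.massL κ ≤ 1)
    (h : ‖kp H (F.vecL κ) - kp H' (F'.vecL κ)‖ ≤ 2 / 5) : F'.massL κ ≤ 2 := by
  rw [← Fam.norm_sq_vecL hV hS] at hmass
  rw [← Fam.norm_sq_vecL hV' hS']
  have h1 := norm_sub_norm_le (kp H' (F'.vecL κ)) (kp H (F.vecL κ))
  rw [norm_sub_rev, LinearIsometry.norm_map, LinearIsometry.norm_map] at h1
  have h2 : ‖F.vecL κ‖ ≤ 1 := by nlinarith [norm_nonneg (F.vecL κ)]
  nlinarith [norm_nonneg (F'.vecL κ)]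

theorem iter_step {H : VD} {P : Prof} {F : Fam Λ} (hV : F.Valid P) (hS : F.Sep) {lo hi : Λ → ℝ}
    {t0 T S : ℝ} (ht0 : 0 < t0) (hlo : ∀ κ, t0 ≤ lo κ) (hhi : ∀ κ, hi κ ≤ T) (hS0 : 0 ≤ S)
    (hmass : ∀ κ, F.massL κ ≤ 1) {k : ℕ} {φ : ℝ} (h : IterA H P F lo hi S k φ)
    {M : ℕ} (hM : 1 ≤ M) {τ η : ℝ} (hτ : 0 < τ) (hη : 0 < η) :
    ∃ (H' : VD) (P' : Prof) (F' : Fam Λ), Close2 k τ (TT H P 0) (TT H' P' 0) ∧ F'.Valid P' ∧
      F'.Inj ∧ (∀ κ, ‖kp H (F.vecL κ) - kp H' (F'.vecL κ)‖ ≤ η) ∧ F'.Phi ≤ φ / 2 + η ∧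
      (∀ κ, F'.massL κ ≤ 2) ∧ (∀ i', ∃ i, F'.lab i' = F.lab i) ∧
      ∀ κ i t, (F'.refine M).densL P' (κ, i) t ≤
        (Icc (lo κ) (hi κ + η)).indicator (fun _ => (1 + η) * S / M) t := by
  obtain ⟨ε, hε, hε1, hε2⟩ : ∃ ε : ℝ, 0 < ε ∧ ε ≤ η / 3 ∧ ε ≤ 1 / 5 :=
    ⟨min (η / 3) (1 / 5), by positivity, min_le_left _ _, min_le_right _ _⟩
  obtain ⟨H1, P1, F1, a1, a2, a3, a4, a5, a6, a7⟩ := h (τ / 2) ε (half_pos hτ) hε
  obtain ⟨H2, P2, F2, b1, b2, b3, b4, b5, b6, b7⟩ := iter_one H1 a2 a3 lo (fun κ => hi κ + ε)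
    (T := T + ε) (S := (1 + ε) * S) ht0 hlo (fun κ => by linarith [hhi κ]) (by positivity)
    (fun κ => iter_mass hV hS a2 a3 (hmass κ) ((a4 κ).trans (by linarith))) a7 hM k
    (half_pos hτ) hε
  have c : ∀ κ, ‖kp H (F.vecL κ) - kp H2 (F2.vecL κ)‖ ≤ ε + ε := fun κ =>
    (norm_sub_le_norm_sub_add_norm_sub _ _ _).trans (add_le_add (a4 κ) (b4 κ))
  refine ⟨H2, P2, F2, ?_, b2, b3, fun κ => (c κ).trans (by linarith), by linarith,
    fun κ => iter_mass hV hS b2 b3.sep (hmass κ) ((c κ).trans (by linarith)), fun i => ?_,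
    fun κ i t => (b7 κ i t).trans (iter_ind_mono (by linarith) ?_ (by positivity) t)⟩
  · have := a1.trans b1
    rwa [add_halves] at this
  · obtain ⟨i1, h1⟩ := b6 i
    obtain ⟨i0, h0⟩ := a6 i1
    exact ⟨i0, h1.trans h0⟩
  · rw [← mul_assoc]
    have : (1 + ε) * (1 + ε) ≤ 1 + η := by nlinarith
    gcongr

/-- Iterate C-steps (with `M = 1`) until the potential is small, then one more with modulus `M`. -/
theorem iter (H : VD) {P : Prof} {F : Fam Λ} (hV : F.Valid P) (hS : F.Sep) (lo hi : Λ → ℝ)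
    {t0 T S : ℝ} (ht0 : 0 < t0) (hlo : ∀ κ, t0 ≤ lo κ) (hhi : ∀ κ, hi κ ≤ T) (hS0 : 0 ≤ S)
    (hmass : ∀ κ, F.massL κ ≤ 1)
    (hd : ∀ κ t, F.densL P κ t ≤ (Icc (lo κ) (hi κ)).indicator (fun _ => S) t)
    {M : ℕ} (hM : 1 ≤ M) (k : ℕ) {τ η : ℝ} (hτ : 0 < τ) (hη : 0 < η) :
    ∃ (H' : VD) (P' : Prof) (F' : Fam Λ), Close2 k τ (TT H P 0) (TT H' P' 0) ∧ F'.Valid P' ∧
      F'.Inj ∧ (∀ κ, ‖kp H (F.vecL κ) - kp H' (F'.vecL κ)‖ ≤ η) ∧ F'.Phi ≤ η ∧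
      (∀ κ, F'.massL κ ≤ 2) ∧ (∀ i', ∃ i, F'.lab i' = F.lab i) ∧
      ∀ κ i t, (F'.refine M).densL P' (κ, i) t ≤
        (Icc (lo κ) (hi κ + η)).indicator (fun _ => (1 + η) * S / M) t := by
  have hA : ∀ n : ℕ, IterA H P F lo hi S k (F.Phi / 2 ^ n) := by
    intro n
    induction n with
    | zero =>
      intro τ η hτ hη
      exact ⟨H, P, F, Close2.refl k hτ.le _, hV, hS, fun κ => by simpa using hη.le,
        by simpa using hη.le, fun i => ⟨i, rfl⟩, fun κ t => (hd κ t).trans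
          (iter_ind_mono (by linarith) (by nlinarith) (by positivity) t)⟩
    | succ n ih =>
      intro τ η hτ hη
      obtain ⟨H', P', F', a1, a2, a3, a4, a5, -, a6, a7⟩ :=
        iter_step hV hS ht0 hlo hhi hS0 hmass ih (le_refl 1) hτ hη
      refine ⟨H', P', F', a1, a2, a3.sep, a4, by rwa [pow_succ, ← div_div], a6, fun κ t => ?_⟩
      simpa only [densL_refine_one, Nat.cast_one, div_one] using a7 κ 0 t
  obtain ⟨n, hn⟩ := pow_unbounded_of_one_lt (F.Phi / η) (one_lt_two (α := ℝ))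
  have hn' : F.Phi / 2 ^ n ≤ η := by
    rw [div_lt_iff₀ hη] at hn
    rw [div_le_iff₀ (by positivity)]
    linarith
  obtain ⟨H', P', F', a1, a2, a3, a4, a5, a6, a7, a8⟩ :=
    iter_step hV hS ht0 hlo hhi hS0 hmass (hA n) hM hτ (half_pos hη)
  refine ⟨H', P', F', a1, a2, a3, fun κ => (a4 κ).trans (by linarith), by linarith, a6, a7,
    fun κ i t => (a8 κ i t).trans (iter_ind_mono (by linarith) ?_ (by positivity) t)⟩
  gcongr
  linarith

end Crest.Agent.R081
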