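import Crest.Agent.R081.DSR
import Crest.Agent.R081.DSE
import Crest.Agent.R081.Iter

/-! The triple step: stage A, free phases, merging. -/

set_option autoImplicit false

namespace Crest.Agent.R081

open MeasureTheory Set Filter Topology Crest.AnalysisR.Torus3 Crest.Agent.R210 Crest.Agent.R075

variable {Λ : Type}

open Classical in
/-- Output of the triple step. -/
def DOut (P : Prof) (Y : FM Λ) (δ : ℝ) (ω : ℤ → ℝ) (lo hi x y Dm : Λ → ℝ) (T θ η : ℝ) : Prop :=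
  0 < δ ∧ δ ≤ η ∧ P.a0 ≤ η * δ ∧ Y.Ok ∧ (∀ i, 1 ≤ Y.j i) ∧ (∀ J, ω J ∈ Ico (0 : ℝ) 1) ∧
  (∀ i, lo (Y.lab i) ≤ Y.j i * P.a0 ∧ Y.j i * P.a0 ≤ hi (Y.lab i)) ∧
  (∀ κ j z, Y.D κ j z ≤ P.a0 * Dm κ) ∧
  (∀ κ, (∑ i, if Y.lab i = κ then ∫ z in Ico (0 : ℝ) 1 \
    Arc (ω ⌊Y.j i * P.a0 / δ⌋ + x κ) (ω ⌊Y.j i * P.a0 / δ⌋ + y κ), ‖Y.G i z‖ ^ 2 else 0) ≤ η) ∧
  δ * (((Finset.Icc 0 ⌈(T + 1) / δ⌉).filter fun J => 1 - θ < ω J).card : ℝ) ≤ (T + 3) * θ

theorem ds_range {F : Fam Λ} {P : Prof} (hV : F.Valid P) {M : ℕ} {lo hi c t : ℝ} (i : F.ι)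
    (hd : (F.refine M).densL P (F.lab i, (F.pc i).j % (M : ℤ)) t ≤ (Icc lo hi).indicator (fun _ => c) t)
    (hc : (F.pc i).c ≠ 0) (ht : t ∈ Ico (P.tt (F.pc i).j (F.pc i).a) (P.tt (F.pc i).j (F.pc i).b)) :
    t ∈ Icc lo hi := by
  classical
  by_contra hn
  rw [indicator_of_notMem hn] at hd
  have hj : (0 : ℝ) < (F.pc i).j := by exact_mod_cast (hV i).1
  have ht0 : 0 < t := by
    refine lt_of_lt_of_le (P.tt_pos hj ?_) ht.1
    linarith [(hV i).2.2.1, (hV i).2.2.2, P.sh.mu_pos]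
  have h1 : 0 < (F.pc i).dens P t := by
    unfold Pc.dens
    rw [indicator_of_mem ht]
    have := P.a0_pos
    have := P.eps_pos
    have := norm_pos_iff.2 hc
    positivity
  have h2 : (F.pc i).dens P t ≤ (F.refine M).densL P (F.lab i, (F.pc i).j % (M : ℤ)) t := by
    unfold Fam.densL
    refine le_trans (le_of_eq ?_) (Finset.single_le_sum (fun i' _ => ?_)
      (Finset.mem_univ (α := (F.refine M).ι) i))
    · exact (if_pos rfl).symm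
    · split_ifs
      · exact Pc.dens_nonneg (hV i') t
      · exact le_rfl
  linarith

theorem ds_sJ {κr κB δA δ : ℝ} (hκ : 0 < κr) (hδA : 0 < δA) (hδ : 0 < δ) (h0 : 0 < κB * δ)
    (h1 : κB * δ ≤ 1 / 2) {J J0 : ℤ} (hJ : 1 ≤ J) (h2 : J ≤ J0) (h3 : (J0 : ℝ) ≤ J / (1 - κB * δ)) :
    |sJ κr δA δ J0 - sJ κr δA δ J| ≤ 2 * κB / κr := by
  have hJ' : (0 : ℝ) < J := by exact_mod_cast hJ
  have h2' : (J : ℝ) ≤ J0 := by exact_mod_cast h2
  have hJ0 : (0 : ℝ) < J0 := by linarith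
  have e : sJ κr δA δ J0 - sJ κr δA δ J = Real.log (J0 / J) / (δ * κr) := by
    unfold sJ
    rw [← sub_div, add_sub_add_right_eq_sub, ← Real.log_div (by positivity) (by positivity)]
    congr 2
    field_simp
  have h4 : 0 ≤ Real.log (J0 / J) := Real.log_nonneg ((one_le_div hJ').2 h2')
  have h5 : Real.log (J0 / J) ≤ 2 * κB * δ := by
    refine (Real.log_le_sub_one_of_pos (by positivity)).trans ?_
    rw [le_div_iff₀ (by linarith)] at h3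
    rw [sub_le_iff_le_add, div_le_iff₀ hJ']
    nlinarith [mul_nonneg h0.le (show 0 ≤ 1 - 2 * (κB * δ) by linarith)]
  rw [e, abs_of_nonneg (by positivity), div_le_div_iff₀ (by positivity) hκ]
  nlinarith

theorem ds_hi {x hi T η ε y : ℝ} (h0 : 0 < y) (h1 : y ≤ 1 / 2) (hx : x ≤ hi) (hT : hi ≤ T)
    (hε : 2 * y * T ≤ ε) (hεη : ε ≤ η) (hη : 0 < η) : x / (1 - y) ≤ hi + η := by
  rw [div_le_iff₀ (by linarith)]
  nlinarith [mul_le_mul_of_nonneg_left hT h0.le, mul_le_mul_of_nonneg_left h1 hη.le]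

theorem ds_norm_le {v w : H3} {a b : ℝ} (h : ‖v - w‖ ≤ a) (hv : ‖v‖ ≤ b) : ‖w‖ ≤ a + b := by
  have := norm_sub_norm_le w v
  rw [norm_sub_rev] at this
  linarith

theorem ds_card {T δ : ℝ} (hT : 0 ≤ T) (hδ : 0 < δ) (hδ1 : δ ≤ 1) :
    δ * ((Finset.Icc 0 ⌈(T + 1) / δ⌉).card : ℝ) ≤ T + 3 := by
  have h0 : 0 ≤ ⌈(T + 1) / δ⌉ := Int.ceil_nonneg (by positivity)
  have h1 : ((Finset.Icc 0 ⌈(T + 1) / δ⌉).card : ℤ) = ⌈(T + 1) / δ⌉ + 1 - 0 :=
    Int.card_Icc_of_le _ _ (by omega)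
  have h2 : ((Finset.Icc 0 ⌈(T + 1) / δ⌉).card : ℝ) = (⌈(T + 1) / δ⌉ : ℝ) + 1 := by
    rw [sub_zero] at h1
    exact_mod_cast h1
  have h3 := (Int.ceil_lt_add_one ((T + 1) / δ)).le
  rw [h2]
  have h4 : δ * ((T + 1) / δ) = T + 1 := by field_simp
  nlinarith

set_option maxHeartbeats 1000000 in
/-- Choose `κB`, then `κr ≫ κB / e`, `1 / e²`, then `M ≫ (κr T)²`, `φ0`.  `cstep` gives stage A,
`rstep` (positions `Pp + Lp (j % M) / M`) with `close_rho`, `close_step` gives stage B,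
`exists_beta` applied to `- sJ` gives `β` and `ω J = fract (- sJ J - β)`, then `bstep` with
`close_step`; `ebound`, `out_D_le`, `dir_far`, `asum`, `out_outside`;
`|sJ J - sJ J0| ≤ 2 κB / κr ≤ e / 2` for `J0 = ⌊j δ' / δ⌋`, `j ∈ winB J`. -/
theorem dstep {t0 T S Lmin e η : ℝ} (ht0 : 0 < t0) (hT : t0 ≤ T) (hS : 0 ≤ S) (hLm : 0 < Lmin)
    (he : 0 < e) (hη : 0 < η) :
    ∃ M : ℕ, 1 ≤ M ∧ ∃ φ0 > (0 : ℝ), ∀ (H : VD) (P : Prof) (F : Fam Λ) (lo hi Pp Lp : Λ → ℝ),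
      F.Valid P → F.Inj → F.Phi ≤ φ0 → (∀ κ, F.massL κ ≤ 2) → (∀ κ, t0 ≤ lo κ) → (∀ κ, hi κ ≤ T) →
      (∀ κ, Lmin ≤ Lp κ ∧ Lp κ ≤ 1) →
      (∀ κ i t, (F.refine M).densL P (κ, i) t ≤ (Icc (lo κ) (hi κ)).indicator (fun _ => S / M) t) →
      ∀ (S'' : Shape) (κ'' : ℝ), 0 < κ'' → ∀ (k : ℕ) (τ θ η' : ℝ), 0 < τ → 0 ≤ θ → 0 < η' →
      ∃ (H'' : VD) (P'' : Prof) (Y : FM Λ) (δ : ℝ) (ω : ℤ → ℝ), P''.Is P''.a0 κ'' S'' ∧
        Close2 k τ (TT H P 0) (TT H'' P'' 0) ∧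
        (∀ κ, ‖kp H (F.vecL κ) - kp H'' (Y.vecL κ)‖ ≤ η) ∧ (∀ i, ∃ i', Y.lab i = F.lab i') ∧
        δ ≤ η' ∧ P''.a0 ≤ η' * δ ∧
        DOut P'' Y δ ω lo (fun κ => hi κ + η) (fun κ => Pp κ - e) (fun κ => Pp κ + Lp κ + e)
          (fun κ => (1 + η) * S / Lp κ) T θ η := by
  classical
  obtain ⟨ε, hε0, hε1, hεη⟩ : ∃ ε : ℝ, 0 < ε ∧ ε ≤ 1 ∧ ε ≤ η :=
    ⟨min 1 η, lt_min one_pos hη, min_le_left _ _, min_le_right _ _⟩
  have hT0 : 0 < T := ht0.trans_le hT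
  obtain ⟨ζ, hζ⟩ : ∃ ζ : ℝ, ζ = ε ^ 2 / 10000 := ⟨_, rfl⟩
  have hζ0 : 0 < ζ := by rw [hζ]; positivity
  have hζε : ζ ≤ ε / 10000 := by rw [hζ]; nlinarith
  have hζ4 : ζ ≤ 1 / 4 := by linarith
  have hζa : ζ * 3 ≤ (ε / 4) ^ 2 := by rw [hζ]; nlinarith
  have hζb : 256 * ζ ≤ (ε / 3) ^ 2 := by rw [hζ]; nlinarith
  have hcube : (1 + ε / 4) * (1 + ε / 4) * (1 + ε / 4) ≤ 1 + η := by nlinarith
  clear hζ
  obtain ⟨κB, hκB0, hκB⟩ : ∃ κB : ℝ, 0 < κB ∧ 1 / (κB * t0) ≤ ε / 4 :=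
    ⟨4 / (ε * t0), by positivity, le_of_eq (by field_simp)⟩
  obtain ⟨κr, hκr0, hκr1, hκr2, hκr3⟩ : ∃ κr : ℝ, 0 < κr ∧ 1 / (κr * t0) ≤ ε / 4 ∧
      2 * κB / κr ≤ e / 2 ∧ 2 * (S * (T + 1) / (κr * t0) / e ^ 2) ≤ ε := by
    have h1 : 0 < 4 * κB / e := by positivity
    have h2 : 0 ≤ 2 * S * (T + 1) / (t0 * e ^ 2 * ε) := by positivity
    refine ⟨κB + 4 * κB / e + 2 * S * (T + 1) / (t0 * e ^ 2 * ε), by positivity, ?_, ?_, ?_⟩
    · refine le_trans (one_div_le_one_div_of_le (by positivity) ?_) hκB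
      exact mul_le_mul_of_nonneg_right (by linarith) ht0.le
    · refine (div_le_div_of_nonneg_left (by positivity) h1 (by linarith)).trans (le_of_eq ?_)
      field_simp
      norm_num
    · set x := κB + 4 * κB / e + 2 * S * (T + 1) / (t0 * e ^ 2 * ε) with hx
      have hx0 : 0 < x := by positivity
      have h3 : 2 * S * (T + 1) / (t0 * e ^ 2 * ε) ≤ x := by linarith
      rw [div_le_iff₀ (by positivity)] at h3
      have h4 : 2 * (S * (T + 1) / (x * t0) / e ^ 2) = 2 * S * (T + 1) / (x * t0 * e ^ 2) := by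
        field_simp
      rw [h4, div_le_iff₀ (by positivity)]
      linarith
  obtain ⟨M, hM⟩ := exists_nat_gt (16 * Real.pi * (κr * T + 1) ^ 2 / ε)
  have hM0 : (0 : ℝ) < M := lt_of_le_of_lt (by positivity) hM
  have hM1 : 1 ≤ M := by exact_mod_cast hM0
  have hM2 : 4 * Real.pi * (κr * T + 1) ^ 2 / M ≤ ε / 4 := by
    rw [div_lt_iff₀ hε0] at hM
    rw [div_le_iff₀ hM0]
    linarith
  refine ⟨M, hM1, ζ, hζ0, ?_⟩
  intro H P F lo hi Pp Lp hV hI hPhi hmass hlo hhi hLp hd S'' κ'' hκ'' k τ θ η' hτ hθ hη'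
  have hτ4 : 0 < τ / 4 := by positivity
  obtain ⟨SA, hSA⟩ := exists_shape hζ0 (by linarith)
  obtain ⟨r, hr, hq⟩ := (cstep H hV hI.sep SA hκr0 k hτ4 hζ0).exists
  obtain ⟨q, ⟨hq0, hq1, hq2⟩, hq3⟩ := hq.exists
  let pos : F.ι → ℝ := fun i => Pp (F.lab i) + Lp (F.lab i) * (((F.pc i).j % (M : ℤ) : ℤ) : ℝ) / M
  obtain ⟨δA, ⟨⟨hA1, hA2⟩, ⟨PA, hPA⟩⟩, hδA⟩ := (((hq3.and
    (rstep hV hI hr q hq0 hq1 SA hκr0 hζ0 hζ4 hζ0 pos)).and (exists_prof SA hκr0)).and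
    self_mem_nhdsWithin).exists
  have hδA : 0 < δA := hδA
  obtain ⟨cA, vA, nA, phA⟩ := hA1 PA hPA
  rw [hPA.2.2] at vA nA phA
  set HA := hm P (cm q) 0 0 δA 0 * H with hHA
  set G := F.child P q r δA SA.mu with hG
  obtain ⟨ρ0, hρ0, hρ⟩ := close_rho HA PA k hτ4
  obtain ⟨θ', hθ'0, hθ'1, hθ'2, hθ'3⟩ : ∃ θ' : ℝ, 0 < θ' ∧ θ' ≤ ρ0 ∧ θ' ≤ t0 * κB * ζ / 2 ∧ θ' ≤ ζ :=
    ⟨min ρ0 (min (t0 * κB * ζ / 2) ζ), by positivity, min_le_left _ _,
      (min_le_right _ _).trans (min_le_left _ _), (min_le_right _ _).trans (min_le_right _ _)⟩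
  obtain ⟨m, hmp, hmq, hR⟩ := hA2 PA hPA θ' hθ'0
  have hmq0 : (1 : ℝ) ≤ m.q := by exact_mod_cast m.qpos
  have hmp0 : (0 : ℝ) < m.p := by exact_mod_cast hmp
  have hsm : ∀ c : ℝ, 0 < c → ∀ᶠ x in 𝓝[>] (0 : ℝ), x ≤ c := fun c hc =>
    Filter.mem_of_superset (Ioc_mem_nhdsGT hc) fun x hx => hx.2
  obtain ⟨δ0, hδ0, hδ0'⟩ := (nhdsGT_basis (0 : ℝ)).eventually_iff.1
    (((close_step HA PA m 0 SA hκB0 k hτ4).and (exists_prof SA hκB0)).and
      ((hsm ε hε0).and ((hsm η' hη').and (hsm (ε / (2 * κB * T)) (by positivity)))))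
  obtain ⟨δ, hδ, Z, par, A, u, v, hZ, hZn, nB, hlab, hinj, hc, hVf, hcard, hJ, hA, hpoly⟩ := hR δ0 hδ0
  obtain ⟨⟨cB, PB, hPB⟩, hδε, hδη', hδκ⟩ := hδ0' hδ
  have hδp : 0 < δ := hδ.1
  have hJr : ∀ f, (Z.J f : ℝ) * δ ∈ Icc (lo (Z.lab f)) (hi (Z.lab f)) := fun f => by
    rw [hlab f]
    exact ds_range hV (par f) (hd _ _ _) (hc f) (hJ f)
  have hJt : ∀ f, t0 ≤ Z.J f * δ ∧ Z.J f * δ ≤ T := fun f =>
    ⟨(hlo _).trans (hJr f).1, (hJr f).2.trans (hhi _)⟩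
  obtain ⟨β, hβ, hβc⟩ := exists_beta (Finset.Icc 0 ⌈(T + 1) / δ⌉) (fun J => -sJ κr δA δ J) hθ
  set HB := hm PA m 0 0 δ (-1 / m.q) * HA with hHB
  have hρB : ∀ f, |(m.p : ℝ) / m.q * Z.n f| ≤ Z.J f * min (PB.eps * ζ / 2) ζ := by
    intro f
    have hJ1 : (1 : ℝ) ≤ Z.J f := by exact_mod_cast hZ.1 f
    refine (hZn f).trans ?_
    rw [mul_min_of_nonneg _ _ (by linarith)]
    refine le_min (hθ'2.trans ?_) (hθ'3.trans (le_mul_of_one_le_left hζ0.le hJ1))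
    rw [hPB.2.1]
    have h1 := mul_le_mul_of_nonneg_right (hJt f).1 (show 0 ≤ κB * ζ / 2 by positivity)
    linarith
  obtain ⟨δ', ⟨⟨⟨cC, P'', hP''⟩, nC, hout⟩, hδ'1, hδ'2⟩, hδ'⟩ :=
    (((((close_step HB PB (bm m) m.a S'' hκ'' k hτ4).and (exists_prof S'' hκ'')).and
      ((bstep hZ PB hζ0 hζ4 hζ0 (by linarith) hρB β).and (out_outside hZ PB hζ0 hζ4 β))).and
      ((hsm (η * δ) (by positivity)).and (hsm (η' * δ) (by positivity)))).and
      self_mem_nhdsWithin).exists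
  have hδ' : 0 < δ' := hδ'
  have ha0 : P''.a0 = δ' := hP''.1
  have heB : PB.eps = κB * δ := hPB.2.1
  have heB0 : 0 < κB * δ := heB ▸ PB.eps_pos
  have heB1 : κB * δ ≤ 1 / 2 := heB ▸ PB.eps_le
  have hd' : ∀ κ i t, (F.refine M).densL P (κ, i) t ≤ S / M := fun κ i t =>
    (hd κ i t).trans (indicator_le_self' (fun _ _ => by positivity) t)
  refine ⟨hm PB (bm m) m.a β δ' 0 * HB, P'', Z.out PB m ζ β δ', δ,
    fun J => Int.fract (-sJ κr δA δ J - β), ha0 ▸ hP'', ?_, fun κ => ?_, fun i => ⟨par i.1, hlab i.1⟩,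
    hδη', ha0 ▸ hδ'2, hδp, hδε.trans hεη, ha0 ▸ hδ'1, (out_ok hZ PB hζ0 hζ4 hδ').1,
    (out_ok hZ PB hζ0 hζ4 hδ').2, fun J => ⟨Int.fract_nonneg _, Int.fract_lt_one _⟩, fun i => ?_,
    fun κ j z => ?_, fun κ => ?_, ?_⟩
  · have c1 := hρ ((m.p : ℝ) / m.q) (by rw [abs_of_pos (by positivity)]; linarith)
    have h1 : 1 / (m.q : ℝ) ≤ 1 := (div_le_one (by linarith)).2 hmq0
    have h2 : 0 < 1 / (m.q : ℝ) := by positivity
    have c2 := cB PB hPB 0 ⟨le_rfl, zero_le_one⟩ (-1 / m.q)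
      ⟨by rw [neg_div]; linarith, by rw [neg_div]; linarith⟩ (((bm m).p : ℝ) / (bm m).q)
      (by simp only [bm, Int.cast_one]; constructor <;> linarith)
    have c3 := cC P'' hP'' β hβ 0 (by norm_num) 0 (by norm_num)
    exact (((cA.trans c1).trans c2).trans c3).mono le_rfl (le_of_eq (by ring))
  · have n1 : ‖kp H (F.vecL κ) - kp HA (G.vecL κ)‖ ≤ ε / 3 := by
      refine (nA κ).trans ?_
      have h1 : √(SA.mu * (F.massL κ + 1)) ≤ ε / 4 := by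
        rw [Real.sqrt_le_iff, hSA]
        refine ⟨by positivity, ?_⟩
        exact (mul_le_mul_of_nonneg_left (show F.massL κ + 1 ≤ 3 by linarith [hmass κ]) hζ0.le).trans hζa
      linarith
    have m1 : ‖kp H (F.vecL κ)‖ ≤ 2 := by
      rw [LinearIsometry.norm_map]
      refine abs_le_of_sq_le_sq' ?_ (by norm_num) |>.2
      rw [Fam.norm_sq_vecL hV hI.sep]
      linarith [hmass κ]
    have m2 : ‖G.vecL κ‖ ≤ 3 := by
      have := ds_norm_le n1 m1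
      rw [LinearIsometry.norm_map] at this
      linarith
    have m3 : G.massL κ ≤ 9 := by
      rw [← Fam.norm_sq_vecL vA (hq2 δA hδA SA.mu).sep]
      exact (pow_le_pow_left₀ (norm_nonneg _) m2 2).trans (by norm_num)
    have n2 : ‖kp (hm PA m 0 0 δ (-1 / m.q))⁻¹ (G.vecL κ) - Z.vecL m κ‖ ≤ ε / 3 := by
      refine (abs_le_of_sq_le_sq' ((nB κ).trans ?_) (by positivity)).2
      have := mul_le_mul_of_nonneg_left m3 (show 0 ≤ 4 * ζ by positivity)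
      linarith
    have m4 : ‖Z.vecL m κ‖ ≤ 4 := by
      have := ds_norm_le n2 (b := 3) (by rw [LinearIsometry.norm_map]; exact m2)
      linarith
    have m5 : Z.massL κ ≤ 16 := by
      rw [← MB.norm_sq_vecL hZ]
      exact (pow_le_pow_left₀ (norm_nonneg _) m4 2).trans (by norm_num)
    have n3 : ‖kp (hm PB (bm m) m.a β δ' 0)⁻¹ (Z.vecL m κ) - (Z.out PB m ζ β δ').vecL κ‖ ≤ ε / 3 := by
      refine (abs_le_of_sq_le_sq' ((nC κ).trans ?_) (by positivity)).2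
      rw [hPB.2.2, hSA]
      have := mul_le_mul_of_nonneg_left m5 (show 0 ≤ 2 * ζ + 4 * ζ + 10 * ζ by positivity)
      linarith
    rw [← norm_kp_sub HA] at n2
    rw [← norm_kp_sub HB] at n3
    have t1 := norm_sub_le_norm_sub_add_norm_sub (kp H (F.vecL κ)) (kp HA (G.vecL κ))
      (kp HB (Z.vecL m κ))
    have t2 := norm_sub_le_norm_sub_add_norm_sub (kp H (F.vecL κ)) (kp HB (Z.vecL m κ))
      (kp (hm PB (bm m) m.a β δ' 0 * HB) ((Z.out PB m ζ β δ').vecL κ))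
    linarith
  · obtain ⟨h1, h2⟩ := out_range hZ PB hζ0 hζ4 hδ' i
    rw [hPB.1] at h1 h2
    rw [ha0]
    refine ⟨(hJr i.1).1.trans h1, h2.trans ?_⟩
    show _ ≤ hi (Z.lab i.1) + η
    rw [heB]
    rw [le_div_iff₀ (by positivity)] at hδκ
    exact ds_hi heB0 heB1 (hJr i.1).2 (hhi _) (le_of_eq_of_le (by ring) hδκ) hεη hη
  · have hL0 : 0 < Lp κ := hLm.trans_le (hLp κ).1
    have hE := ebound hV hM1 κ (Pp := Pp κ) hS hL0 (hLp κ).2 hκr0 hδp ht0 (hd' κ) Z par A u v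
      (sJ κr δA δ) hlab hinj hVf hcard hJt hA (fun f hf z => by
        rw [hpoly f z]
        simp only [pos, ← hlab f, hf])
    refine (out_D_le hZ hPB hζ0 hζ4 hδ' κ (by positivity) ht0 (fun f => (hJt f).1) hE j z).trans ?_
    rw [ha0]
    have h1 : (1 + 1 / (κr * t0)) * (1 + 4 * Real.pi * (κr * T + 1) ^ 2 / M) * (1 + 1 / (κB * t0)) ≤
        (1 + ε / 4) * (1 + ε / 4) * (1 + ε / 4) := by gcongr
    have h3 : S * δ / Lp κ * (1 + 1 / (κr * t0)) * (1 + 4 * Real.pi * (κr * T + 1) ^ 2 / M) * (δ' / δ) *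
        (1 + 1 / (κB * t0)) = δ' * (S / Lp κ) * ((1 + 1 / (κr * t0)) *
          (1 + 4 * Real.pi * (κr * T + 1) ^ 2 / M) * (1 + 1 / (κB * t0))) := by
      field_simp
    have h4 : δ' * ((1 + η) * S / Lp κ) = δ' * (S / Lp κ) * (1 + η) := by ring
    rw [h3, h4]
    exact mul_le_mul_of_nonneg_left (h1.trans hcube) (by positivity)
  · rw [ha0]
    refine (hout κ (fun j => Arc (Int.fract (-sJ κr δA δ ⌊(j : ℝ) * δ' / δ⌋ - β) + (Pp κ - e))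
      (Int.fract (-sJ κr δA δ ⌊(j : ℝ) * δ' / δ⌋ - β) + (Pp κ + Lp κ + e))) (fun f => A f ^ 2 / e ^ 2)
      (fun j => measurableSet_Arc _ _) (fun f => by positivity) (fun f hf j hj z hz => ?_)).trans ?_
    · obtain ⟨h1, h2⟩ := out_range (β := β) hZ PB hζ0 hζ4 hδ' ⟨f, ⟨j, hj⟩⟩
      change Z.J f * PB.a0 ≤ j * δ' at h1
      change j * δ' ≤ Z.J f * PB.a0 / (1 - PB.eps) at h2
      rw [hPB.1] at h1 h2
      rw [heB] at h2
      have h3 := ds_sJ (J0 := ⌊(j : ℝ) * δ' / δ⌋) hκr0 hδA hδp heB0 heB1 (hZ.1 f)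
        (Int.le_floor.2 ((le_div_iff₀ hδp).2 h1))
        ((Int.floor_le _).trans (by rw [div_le_iff₀ hδp, div_mul_eq_mul_div]; exact h2))
      have hL0 : 0 < Lp κ := hLm.trans_le (hLp κ).1
      have hp : pos (par f) ∈ Icc (Pp κ) (Pp κ + Lp κ) := by
        have hM' : (0 : ℤ) < M := by exact_mod_cast hM1
        have h4 : (0 : ℝ) ≤ (((F.pc (par f)).j % (M : ℤ) : ℤ) : ℝ) := by
          exact_mod_cast Int.emod_nonneg _ hM'.ne'
        have h5 : (((F.pc (par f)).j % (M : ℤ) : ℤ) : ℝ) ≤ M := by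
          exact_mod_cast (Int.emod_lt_of_pos _ hM').le
        simp only [pos, ← hlab f, hf]
        refine ⟨le_add_of_nonneg_right (by positivity), add_le_add le_rfl ?_⟩
        rw [div_le_iff₀ hM0]
        exact mul_le_mul_of_nonneg_left h5 hL0.le
      set J0 := ⌊(j : ℝ) * δ' / δ⌋ with hJ0
      set w := Int.fract (-sJ κr δA δ J0 - β) with hw
      have h4 := far_of_not_mem_Arc (x := w + Pp κ) (L := Lp κ) (e := e) (y := w + pos (par f)) (z := z)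
        ⟨by linarith [hp.1], by linarith [hp.2]⟩ (by
          rw [show w + Pp κ - e = w + (Pp κ - e) by ring,
            show w + Pp κ + Lp κ + e = w + (Pp κ + Lp κ + e) by ring]
          exact hz)
      rw [hpoly f, hVf f]
      have h5 := dir_far (u (Z.J f)) (v (Z.J f)) (e := e / 2)
        (z := z + β + sJ κr δA δ (Z.J f) - pos (par f)) (by positivity) (fun n => by
          have h6 := h4 (n - ⌊-sJ κr δA δ J0 - β⌋)
          have h7 : z - (w + pos (par f)) + ((n - ⌊-sJ κr δA δ J0 - β⌋ : ℤ) : ℝ) =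
              (z + β + sJ κr δA δ (Z.J f) - pos (par f) + n) + (sJ κr δA δ J0 - sJ κr δA δ (Z.J f)) := by
            rw [hw, Int.fract]
            push_cast
            ring
          rw [h7] at h6
          linarith [abs_add_le (z + β + sJ κr δA δ (Z.J f) - pos (par f) + n)
            (sJ κr δA δ J0 - sJ κr δA δ (Z.J f))])
      refine (mul_le_mul_of_nonneg_left h5 (sq_nonneg _)).trans (le_of_eq ?_)
      field_simp
      norm_num
    · have h1 := asum hV hM1 κ hS hκr0 hδp (hδε.trans hε1) ht0 hT (hd' κ) Z par A hlab hinj hJt hA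
      have h2 : (∑ f, if Z.lab f = κ then A f ^ 2 / e ^ 2 else 0) =
          (∑ f, if Z.lab f = κ then A f ^ 2 else 0) / e ^ 2 := by
        rw [Finset.sum_div]
        refine Finset.sum_congr rfl fun f _ => ?_
        split_ifs <;> simp
      rw [h2]
      have h3 := div_le_div_of_nonneg_right h1 (sq_nonneg e)
      linarith
  · refine (mul_le_mul_of_nonneg_left hβc hδp.le).trans ?_
    rw [mul_left_comm, mul_comm (T + 3)]
    exact mul_le_mul_of_nonneg_left (ds_card hT0.le hδp (hδε.trans hε1)) hθ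

end Crest.Agent.R081
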