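import Crest.Agent.R081.Core
import Crest.Agent.R081.Maps

/-! The B-step: merging the modes `(J - j, q j + p n)`, `j ∈ V`, into polynomials in `e(z)`. -/

set_option autoImplicit false

namespace Crest.Agent.R081

open MeasureTheory Set Filter Topology Crest.AnalysisR.Torus3 Crest.Agent.R210 Crest.Agent.R075

/-- Data of the intermediate stage. -/
structure MB (Λ : Type) where
  ι : Type
  fin : Fintype ι
  J : ι → ℤ
  n : ι → ℤ
  V : ι → Finset ℤ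
  c : ι → ℤ → ℂ
  lab : ι → Λ

attribute [instance] MB.fin

variable {Λ : Type}

open Classical in
noncomputable def MB.vecL (Z : MB Λ) (m : Mat) (κ : Λ) : H3 :=
  ∑ f, if Z.lab f = κ then ∑ j ∈ Z.V f, Z.c f j • EE (Z.J f - j) (m.q * j + m.p * Z.n f)
    (fun w => ee (((m.a * j + m.b * Z.n f : ℤ) : ℝ) * w)) else 0

open Classical in
noncomputable def MB.massL (Z : MB Λ) (κ : Λ) : ℝ :=
  ∑ f, if Z.lab f = κ then ∑ j ∈ Z.V f, ‖Z.c f j‖ ^ 2 else 0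

noncomputable def MB.poly (Z : MB Λ) (f : Z.ι) (z : ℝ) : ℂ := ∑ j ∈ Z.V f, Z.c f j * ee (j * z)

/-- The window of final modes attached to `J`. -/
noncomputable def Prof.winB (PB : Prof) (r δ' : ℝ) (J : ℤ) : Finset ℤ :=
  Wi (PB.tt J r) (PB.tt J (1 - PB.sh.mu - r)) δ'

/-- The final finite mode vectors. -/
noncomputable def MB.out (Z : MB Λ) (PB : Prof) (m : Mat) (r β δ' : ℝ) : FM Λ :=
  ⟨Σ f : Z.ι, ↥(PB.winB r δ' (Z.J f)), inferInstance, fun s => s.2,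
    fun s => m.q * Z.J s.1 + m.p * Z.n s.1,
    fun s z => fres * PB.amp (Z.J s.1) δ' s.2 *
      ee (PB.Ph (Z.J s.1 + (m.p : ℝ) / m.q * Z.n s.1) δ'
        ((s.2 : ℤ) - ((m.a * Z.J s.1 + m.b * Z.n s.1 : ℤ) : ℝ))) *
      ee (-(Z.J s.1 * (z + β))) * Z.poly s.1 (z + β),
    fun s => Z.lab s.1⟩

/-- Admissible intermediate data. -/
def MB.Adm (Z : MB Λ) (m : Mat) : Prop :=
  (∀ f, 1 ≤ Z.J f) ∧ (∀ f f', Z.J f = Z.J f' → Z.n f = Z.n f' → f = f') ∧ ∀ f, 2 * |Z.n f| < m.q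

/-- `f ↦ q J + p n` is injective (`p` is invertible modulo `q` by `m.det`). -/
theorem MB.Adm.inj {Z : MB Λ} {m : Mat} (h : Z.Adm m) (f f' : Z.ι)
    (e : m.q * Z.J f + m.p * Z.n f = m.q * Z.J f' + m.p * Z.n f') : f = f' := by
  have hd := m.det
  have hq := m.qpos
  have h1 := h.2.2 f
  have h2 := h.2.2 f'
  have hdvd : m.q ∣ Z.n f - Z.n f' :=
    ⟨m.b * (Z.n f - Z.n f') - m.a * (Z.J f' - Z.J f), by
      linear_combination (-(Z.n f - Z.n f')) * hd - m.a * e⟩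
  have hn : Z.n f - Z.n f' = 0 := by
    refine Int.eq_zero_of_abs_lt_dvd hdvd ?_
    have := abs_sub (Z.n f) (Z.n f')
    linarith
  have hn' : Z.n f = Z.n f' := sub_eq_zero.1 hn
  refine h.2.1 f f' ?_ hn'
  rw [hn'] at e
  exact mul_left_cancel₀ hq.ne' (add_right_cancel e)

open Classical in
lemma dsb_sum_sigma {M : Type*} [AddCommMonoid M] (Z : MB Λ) (κ : Λ) (g : Z.ι → ℤ → M) :
    (∑ f, if Z.lab f = κ then ∑ j ∈ Z.V f, g f j else 0) =
      ∑ s ∈ (Finset.univ.filter fun f => Z.lab f = κ).sigma Z.V, g s.1 s.2 := by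
  rw [Finset.sum_sigma, Finset.sum_filter]

lemma dsb_nsq_one {F : ℝ → ℂ} (hF : ∀ w, ‖F w‖ = 1) : nsq F = 1 := by
  simp [nsq, hF]

lemma dsb_bd_lin (c : ℝ) : Bd fun w => ee (c * w) := Bd.ee (by fun_prop)

lemma dsb_bd_poly (Z : MB Λ) (f : Z.ι) (β : ℝ) : Bd fun z => Z.poly f (z + β) :=
  Bd.sum _ fun j _ => (Bd.const _).mul (Bd.ee (by fun_prop))

lemma dsb_nsq_add {F G : ℝ → ℂ} (hF : Bd F) (hG : Bd G) :
    nsq (fun w => F w + G w) ≤ 2 * nsq F + 2 * nsq G := by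
  rw [← norm_sq_EE 0 0 (hF.add hG), ← norm_sq_EE 0 0 hF, ← norm_sq_EE 0 0 hG, EE_add 0 0 hF hG]
  have h1 := norm_add_le (EE 0 0 F) (EE 0 0 G)
  have h2 := pow_le_pow_left₀ (norm_nonneg _) h1 2
  nlinarith [sq_nonneg (‖EE 0 0 F‖ - ‖EE 0 0 G‖)]

lemma dsb_mem_win {PB : Prof} {r δ' : ℝ} (hr : 0 < r) (hr' : r ≤ 1 / 4) (hδ : 0 < δ') {J j : ℤ}
    (hJ : 1 ≤ J) (hj : j ∈ PB.winB r δ' J) :
    J * PB.a0 ≤ j * δ' ∧ j * δ' ≤ J * PB.a0 / (1 - PB.eps) := by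
  have hJ' : (0 : ℝ) < J := by exact_mod_cast (by omega : 0 < J)
  have h1 := PB.sh.mu_pos
  have h2 := PB.sh.mu_le
  obtain ⟨h3, h4⟩ := (mem_Wi hδ).1 hj
  exact ⟨(PB.tt_ge hJ' hr.le (by linarith)).1.trans h3,
    h4.le.trans (PB.tt_ge hJ' (by linarith) (by linarith)).2⟩

lemma dsb_norm_G (Z : MB Λ) (PB : Prof) (m : Mat) (r β δ' : ℝ) (s : (Z.out PB m r β δ').ι)
    (z : ℝ) : ‖(Z.out PB m r β δ').G s z‖ ^ 2 =
      PB.amp (Z.J s.1) δ' s.2 ^ 2 * ‖Z.poly s.1 (z + β)‖ ^ 2 := by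
  simp only [MB.out, norm_mul, norm_fres, norm_ee, one_mul, mul_one, Complex.norm_real,
    Real.norm_eq_abs, mul_pow, sq_abs]

lemma dsb_amp_sum (PB : Prof) {r η : ℝ} (hr : 0 < r) (hr' : r ≤ 1 / 4) (hη : 0 < η) {J : ℤ}
    (hJ : 1 ≤ J) : ∀ᶠ δ' in 𝓝[>] (0 : ℝ),
      |∑ j ∈ PB.winB r δ' J, PB.amp J δ' j ^ 2 - (1 - PB.sh.mu - 2 * r)| ≤ η := by
  have hJ' : (0 : ℝ) < J := by exact_mod_cast (by omega : 0 < J)
  have h1 := PB.sh.mu_pos
  have h2 := PB.sh.mu_le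
  filter_upwards [amp_sum PB (a := r) (b := 1 - PB.sh.mu - r) hr.le (by linarith) (by linarith)
    hJ' hη 1 le_rfl] with δ' h
  rw [Finset.filter_true_of_mem (fun j _ => by simp)] at h
  have e : 1 - PB.sh.mu - 2 * r = (1 - PB.sh.mu - r - r) / ((1 : ℕ) : ℝ) := by
    push_cast
    ring
  rw [e]
  exact h

theorem MB.norm_sq_vecL {Z : MB Λ} {m : Mat} (h : Z.Adm m) (κ : Λ) :
    ‖Z.vecL m κ‖ ^ 2 = Z.massL κ := by
  rw [MB.vecL, MB.massL, dsb_sum_sigma, dsb_sum_sigma]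
  simp only [← EE_const_mul _ _ _ (dsb_bd_lin _)]
  rw [norm_sq_sum_EE _ _ _ (fun s _ => (Bd.const _).mul (dsb_bd_lin _))]
  · refine Finset.sum_congr rfl fun s _ => ?_
    rw [nsq_const_mul, dsb_nsq_one (fun w => norm_ee _), mul_one]
  · rintro ⟨f, j⟩ _ ⟨f', j'⟩ _ h1 h2
    obtain rfl : f = f' := h.inj f f' (by linear_combination m.q * h1 + h2)
    obtain rfl : j = j' := by linarith
    rfl

theorem out_ok {Z : MB Λ} {m : Mat} (h : Z.Adm m) (PB : Prof) {r β δ' : ℝ} (hr : 0 < r)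
    (hr' : r ≤ 1 / 4) (hδ : 0 < δ') :
    (Z.out PB m r β δ').Ok ∧ ∀ i, 1 ≤ (Z.out PB m r β δ').j i := by
  refine ⟨⟨fun s => ?_, ?_⟩, fun s => ?_⟩
  · exact ((Bd.const _).mul (Bd.ee (by fun_prop))).mul (dsb_bd_poly Z s.1 β)
  · rintro ⟨f, j⟩ ⟨f', j'⟩ h1 h2
    obtain rfl : f = f' := h.inj f f' h2
    obtain rfl : j = j' := Subtype.ext h1
    rfl
  · have h1 := (dsb_mem_win hr hr' hδ (h.1 s.1) s.2.2).1
    have hJ' : (0 : ℝ) < Z.J s.1 := by exact_mod_cast (by have := h.1 s.1; omega : 0 < Z.J s.1)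
    have h2 : (0 : ℝ) < ((s.2 : ℤ) : ℝ) :=
      pos_of_mul_pos_left ((mul_pos hJ' PB.a0_pos).trans_le h1) hδ.le
    have h3 : (0 : ℤ) < (s.2 : ℤ) := by exact_mod_cast h2
    exact h3

/-- The function `G_f`. -/
noncomputable def dsbG (PB : Prof) (m : Mat) (δ' : ℝ) (J n : ℤ) (w : ℝ) : ℂ :=
  ee (((m.q * J + m.p * n : ℤ) : ℝ) * PB.Afn m.q δ' 0 w + ((m.a * J + m.b * n : ℤ) : ℝ) * w)

/-- Its approximate Fourier coefficients. -/
noncomputable def dsbC (PB : Prof) (m : Mat) (δ' : ℝ) (J n j : ℤ) : ℂ :=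
  fres * PB.amp J δ' j *
    ee (PB.Ph (J + (m.p : ℝ) / m.q * n) δ' (j - ((m.a * J + m.b * n : ℤ) : ℝ)))

lemma dsb_bd_G (PB : Prof) (m : Mat) (δ' : ℝ) (J n : ℤ) : Bd (dsbG PB m δ' J n) := by
  have := (PB.Afn_contDiff m.q δ' 0).continuous
  exact Bd.ee (by fun_prop)

lemma dsb_bd_S (W : Finset ℤ) (c : ℤ → ℂ) : Bd fun w => ∑ j ∈ W, c j * ee (j * w) :=
  Bd.sum _ fun _ _ => (Bd.const _).mul (dsb_bd_lin _)

lemma dsb_core (PB : Prof) (m : Mat) {r η : ℝ} (hr : 0 < r) (hr' : r ≤ 1 / 4) (hη : 0 < η)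
    (hη1 : η ≤ 1 / 2) {J n : ℤ} (hJ : 1 ≤ J)
    (hρ : |(m.p : ℝ) / m.q * n| ≤ J * min (PB.eps * r / 2) η) :
    ∀ᶠ δ' in 𝓝[>] (0 : ℝ), nsq (fun w => dsbG PB m δ' J n w -
      ∑ j ∈ PB.winB r δ' J, dsbC PB m δ' J n j * ee (j * w)) ≤ 2 * PB.sh.mu + 4 * r + 10 * η := by
  have hJ' : (0 : ℝ) < J := by exact_mod_cast (by omega : 0 < J)
  have h1 := PB.sh.mu_pos
  have h2 := PB.sh.mu_le
  have hq : (m.q : ℝ) ≠ 0 := by exact_mod_cast m.qpos.ne'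
  filter_upwards [core PB (a := 0) (b := 1 - PB.sh.mu) (ν := J) (lam := J + (m.p : ℝ) / m.q * n)
    (l := ((m.a * J + m.b * n : ℤ) : ℝ)) le_rfl (by linarith) le_rfl hJ' hr hη hη1
    (by rwa [add_sub_cancel_left]), dsb_amp_sum PB hr hr' hη hJ, self_mem_nhdsWithin] with δ' hc ha hδ
  have hδ' : δ' ≠ 0 := ne_of_gt hδ
  have h3 := hc (PB.winB r δ' J) (by rw [zero_add]; exact Finset.Subset.refl _) (dsbC PB m δ' J n)
  simp only [dsbC, sub_self, norm_zero, ne_eq, OfNat.ofNat_ne_zero, not_false_eq_true, zero_pow,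
    Finset.sum_const_zero, mul_zero, add_zero] at h3
  have hA := (PB.AA_contDiff).continuous
  have h4 := dsb_nsq_add
    (((Bd.ee (φ := fun w => (J + (m.p : ℝ) / m.q * n) * PB.AA w / δ' +
      ((m.a * J + m.b * n : ℤ) : ℝ) * w) (by fun_prop)).indicator
        (measurableSet_Ico (a := 0) (b := 1 - PB.sh.mu))).sub
      (dsb_bd_S (PB.winB r δ' J) (dsbC PB m δ' J n)))
    ((dsb_bd_G PB m δ' J n).indicator (measurableSet_Ico (a := 1 - PB.sh.mu) (b := 1)))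
  rw [nsq_indicator_of_norm (F := dsbG PB m δ' J n) (a := 1 - PB.sh.mu) (C := 1) (by linarith)
    (by linarith) le_rfl (fun w _ => norm_ee _)] at h4
  refine le_trans (le_of_eq (nsq_congr fun w hw => ?_)) (h4.trans ?_)
  · congr 1
    by_cases hw' : w < 1 - PB.sh.mu
    · rw [indicator_of_mem (show w ∈ Ico 0 (1 - PB.sh.mu) from ⟨hw.1, hw'⟩),
        indicator_of_notMem (fun h => absurd h.1 (not_le.2 hw')), add_zero, dsbG,
        PB.Afn_eq _ _ _ ⟨hw.1, hw'.le⟩]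
      congr 2
      push_cast
      field_simp
      ring
    · rw [indicator_of_notMem (fun h => hw' h.2),
        indicator_of_mem (show w ∈ Ico (1 - PB.sh.mu) 1 from ⟨not_lt.1 hw', hw.2⟩)]
      ring
  · have h5 := (abs_le.1 ha).1
    simp only [dsbC]
    linarith

lemma dsb_kp (PB : Prof) (m : Mat) (β δ' : ℝ) (J n j : ℤ) :
    kp (hm PB (bm m) m.a β δ' 0)⁻¹ (EE (J - j) (m.q * j + m.p * n)
      (fun w => ee (((m.a * j + m.b * n : ℤ) : ℝ) * w))) =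
      E1 (m.q * J + m.p * n) (j - J) fun w => ee (((j - J : ℤ) : ℝ) * β) * dsbG PB m δ' J n w := by
  rw [kp_hm_inv_EE _ _ _ _ _ _ _ _ (dsb_bd_lin _)]
  have e1 : (bm m).q * (J - j) + (bm m).p * (m.q * j + m.p * n) = m.q * J + m.p * n := by
    simp only [bm]; ring
  have e2 : (bm m).a * (J - j) + (bm m).b * (m.q * j + m.p * n) = j - J := by
    simp only [bm]; ring
  rw [e1, e2]
  congr 1
  funext w
  rw [mul_assoc, ← ee_add, dsbG]
  congr 2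
  simp only [bm]
  push_cast
  ring

lemma dsb_EE_out (N J j' : ℤ) (γ : ℂ) (β : ℝ) (V : Finset ℤ) (c : ℤ → ℂ) :
    EE j' N (fun z => γ * ee (-(J * (z + β))) * ∑ j ∈ V, c j * ee (j * (z + β))) =
      ∑ j ∈ V, E1 N (j - J) fun w => c j * ee (((j - J : ℤ) : ℝ) * β) * (γ * ee (j' * w)) := by
  have e : ∀ j ∈ V, (E1 N (j - J) fun w => c j * ee (((j - J : ℤ) : ℝ) * β) * (γ * ee (j' * w))) =
      EE j' N fun z => c j * ee (((j - J : ℤ) : ℝ) * β) * γ * ee (((j - J : ℤ) : ℝ) * z) := by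
    intro j _
    simp only [← mul_assoc]
    rw [E1_const_mul _ _ _ (dsb_bd_lin _), EE_const_mul _ _ _ (dsb_bd_lin _), E1_ee]
  rw [Finset.sum_congr rfl e, ← EE_sum _ _ _ fun j _ => (Bd.const _).mul (dsb_bd_lin _)]
  congr 1
  funext z
  rw [Finset.mul_sum]
  refine Finset.sum_congr rfl fun j _ => ?_
  have : ee (-(J * (z + β))) * ee (j * (z + β)) =
      ee (((j - J : ℤ) : ℝ) * β) * ee (((j - J : ℤ) : ℝ) * z) := by
    rw [← ee_add, ← ee_add]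
    congr 1
    push_cast
    ring
  linear_combination γ * c j * this

open Classical in
lemma dsb_out_vecL (Z : MB Λ) (PB : Prof) (m : Mat) (r β δ' : ℝ) (κ : Λ) :
    (Z.out PB m r β δ').vecL κ = ∑ f, if Z.lab f = κ then ∑ j ∈ Z.V f,
      E1 (m.q * Z.J f + m.p * Z.n f) (j - Z.J f) (fun w =>
        Z.c f j * ee (((j - Z.J f : ℤ) : ℝ) * β) *
          ∑ j' ∈ PB.winB r δ' (Z.J f), dsbC PB m δ' (Z.J f) (Z.n f) j' * ee (j' * w)) else 0 := by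
  rw [FM.vecL]
  refine (Fintype.sum_sigma _).trans (Finset.sum_congr rfl fun f _ => ?_)
  by_cases hf : Z.lab f = κ
  · have e : ∀ j' : ↥(PB.winB r δ' (Z.J f)), (if (Z.out PB m r β δ').lab ⟨f, j'⟩ = κ then
        EE ((Z.out PB m r β δ').j ⟨f, j'⟩) ((Z.out PB m r β δ').n ⟨f, j'⟩)
          ((Z.out PB m r β δ').G ⟨f, j'⟩) else 0) =
        ∑ j ∈ Z.V f, E1 (m.q * Z.J f + m.p * Z.n f) (j - Z.J f) fun w =>
          Z.c f j * ee (((j - Z.J f : ℤ) : ℝ) * β) *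
            (dsbC PB m δ' (Z.J f) (Z.n f) j' * ee (((j' : ℤ) : ℝ) * w)) := fun j' => by
      rw [if_pos (show (Z.out PB m r β δ').lab ⟨f, j'⟩ = κ from hf), ← dsb_EE_out]
      rfl
    rw [if_pos hf, Finset.sum_congr rfl fun j' _ => e j', Finset.sum_comm]
    refine Finset.sum_congr rfl fun j _ => ?_
    simp only [Finset.mul_sum]
    rw [E1_sum _ _ _ fun j' _ => (Bd.const _).mul ((Bd.const _).mul (dsb_bd_lin _))]
    exact Finset.sum_coe_sort (PB.winB r δ' (Z.J f)) fun j' : ℤ =>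
      E1 (m.q * Z.J f + m.p * Z.n f) (j - Z.J f) fun w =>
        Z.c f j * ee (((j - Z.J f : ℤ) : ℝ) * β) *
          (dsbC PB m δ' (Z.J f) (Z.n f) j' * ee ((j' : ℝ) * w))
  · rw [if_neg hf]
    exact Finset.sum_eq_zero fun j' _ => if_neg hf

/-- `kp_hm_inv_EE` with the matrix `bm m` and `σ = m.a` sends the mode `(f, j)` to
`E1 (q J + p n) (j - J) (e((j - J) β) G_f)`, `G_f w = e((q J + p n) Afn w + (a J + b n) w)`;
apply `core` (nominal `J`, true frequency `J + p n / q`) and `amp_sum` on `[0, 1 - mu)`;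
`E1` with distinct `(q J + p n, j - J)` are orthogonal. -/
theorem bstep {Z : MB Λ} {m : Mat} (h : Z.Adm m) (PB : Prof) {r η : ℝ} (hr : 0 < r)
    (hr' : r ≤ 1 / 4) (hη : 0 < η) (hη1 : η ≤ 1 / 2)
    (hρ : ∀ f, |(m.p : ℝ) / m.q * Z.n f| ≤ Z.J f * min (PB.eps * r / 2) η) (β : ℝ) :
    ∀ᶠ δ' in 𝓝[>] (0 : ℝ), ∀ κ,
      ‖kp (hm PB (bm m) m.a β δ' 0)⁻¹ (Z.vecL m κ) - (Z.out PB m r β δ').vecL κ‖ ^ 2 ≤
        (2 * PB.sh.mu + 4 * r + 10 * η) * Z.massL κ := by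
  filter_upwards [eventually_all.2 fun f => dsb_core PB m hr hr' hη hη1 (h.1 f) (hρ f)]
    with δ' hc κ
  have hb : ∀ f, Bd fun w => dsbG PB m δ' (Z.J f) (Z.n f) w -
      ∑ j ∈ PB.winB r δ' (Z.J f), dsbC PB m δ' (Z.J f) (Z.n f) j * ee (j * w) :=
    fun f => (dsb_bd_G _ _ _ _ _).sub (dsb_bd_S _ _)
  rw [dsb_out_vecL, MB.vecL, MB.massL, dsb_sum_sigma, dsb_sum_sigma, dsb_sum_sigma, map_sum,
    ← Finset.sum_sub_distrib]
  have e : ∀ (f : Z.ι) (j : ℤ), kp (hm PB (bm m) m.a β δ' 0)⁻¹ (Z.c f j • EE (Z.J f - j)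
      (m.q * j + m.p * Z.n f) (fun w => ee (((m.a * j + m.b * Z.n f : ℤ) : ℝ) * w))) -
      E1 (m.q * Z.J f + m.p * Z.n f) (j - Z.J f) (fun w =>
        Z.c f j * ee (((j - Z.J f : ℤ) : ℝ) * β) *
          ∑ j' ∈ PB.winB r δ' (Z.J f), dsbC PB m δ' (Z.J f) (Z.n f) j' * ee (j' * w)) =
      E1 (m.q * Z.J f + m.p * Z.n f) (j - Z.J f) (fun w =>
        Z.c f j * ee (((j - Z.J f : ℤ) : ℝ) * β) * (dsbG PB m δ' (Z.J f) (Z.n f) w -
          ∑ j' ∈ PB.winB r δ' (Z.J f), dsbC PB m δ' (Z.J f) (Z.n f) j' * ee (j' * w))) := by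
    intro f j
    rw [map_smul, dsb_kp, ← E1_const_mul _ _ _ ((Bd.const _).mul (dsb_bd_G _ _ _ _ _)),
      ← E1_sub _ _ ((Bd.const _).mul ((Bd.const _).mul (dsb_bd_G _ _ _ _ _)))
        ((Bd.const _).mul (dsb_bd_S _ _))]
    congr 1
    funext w
    ring
  simp only [e]
  rw [norm_sq_sum_E1 _ _ _ (fun s _ => (Bd.const _).mul (hb s.1)), Finset.mul_sum]
  · refine Finset.sum_le_sum fun s _ => ?_
    rw [nsq_const_mul, norm_mul, norm_ee, mul_one, mul_comm]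
    exact mul_le_mul_of_nonneg_right (hc s.1) (sq_nonneg _)
  · rintro ⟨f, j⟩ _ ⟨f', j'⟩ _ h1 h2
    obtain rfl : f = f' := h.inj f f' h1
    obtain rfl : j = j' := by linarith
    rfl

theorem out_range {Z : MB Λ} {m : Mat} (h : Z.Adm m) (PB : Prof) {r β δ' : ℝ} (hr : 0 < r)
    (hr' : r ≤ 1 / 4) (hδ : 0 < δ') (s : (Z.out PB m r β δ').ι) :
    Z.J s.1 * PB.a0 ≤ (Z.out PB m r β δ').j s * δ' ∧
      (Z.out PB m r β δ').j s * δ' ≤ Z.J s.1 * PB.a0 / (1 - PB.eps) :=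
  dsb_mem_win hr hr' hδ (h.1 s.1) s.2.2

open Classical in
/-- Pointwise density bound: at most `κB t + 1` values of `J` are active at `t = j δ'`. -/
theorem out_D_le {Z : MB Λ} {m : Mat} (h : Z.Adm m) {PB : Prof} {δ κB : ℝ} {SB : Shape}
    (hP : PB.Is δ κB SB) {r β δ' : ℝ} (hr : 0 < r) (hr' : r ≤ 1 / 4) (hδ : 0 < δ') (κ : Λ)
    {Em t0 : ℝ} (hE0 : 0 ≤ Em) (ht0 : 0 < t0) (hJ : ∀ f, t0 ≤ Z.J f * δ)
    (hE : ∀ J z, (∑ f, if Z.lab f = κ ∧ Z.J f = J then ‖Z.poly f z‖ ^ 2 else 0) ≤ Em)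
    (j : ℤ) (z : ℝ) :
    (Z.out PB m r β δ').D κ j z ≤ Em * (δ' / δ) * (1 + 1 / (κB * t0)) := by
  obtain ⟨ha0, heps, -⟩ := hP
  have hδ0 : 0 < δ := ha0 ▸ PB.a0_pos
  have hκ : 0 < κB := pos_of_mul_pos_left (heps ▸ PB.eps_pos) hδ0.le
  have he1 : 0 < 1 - PB.eps := by linarith [PB.eps_le]
  have e : (Z.out PB m r β δ').D κ j z = ∑ f, if Z.lab f = κ ∧ j ∈ PB.winB r δ' (Z.J f) then
      PB.amp (Z.J f) δ' j ^ 2 * ‖Z.poly f (z + β)‖ ^ 2 else 0 := by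
    rw [FM.D]
    simp only [dsb_norm_G]
    refine (Fintype.sum_sigma _).trans (Finset.sum_congr rfl fun f _ => ?_)
    refine (Finset.sum_coe_sort (PB.winB r δ' (Z.J f)) fun j' : ℤ =>
      if Z.lab f = κ ∧ j' = j then PB.amp (Z.J f) δ' j' ^ 2 * ‖Z.poly f (z + β)‖ ^ 2 else 0).trans ?_
    by_cases hf : Z.lab f = κ
    · simp only [hf, true_and, Finset.sum_ite_eq']
    · simp only [hf, false_and, if_false, Finset.sum_const_zero]
  rw [e]
  set t : ℝ := j * δ' with ht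
  by_cases htt : t < t0
  · rw [Finset.sum_eq_zero]
    · positivity
    · intro f _
      refine if_neg fun hf => ?_
      have h1 := (dsb_mem_win hr hr' hδ (h.1 f) hf.2).1
      have h2 := hJ f
      rw [ha0] at h1
      linarith
  have htt' : t0 ≤ t := not_lt.1 htt
  have ht0' : 0 < t := ht0.trans_le htt'
  set a : ℝ := δ' / δ / (κB * t) with ha
  have ha' : 0 ≤ a := by positivity
  set S : Finset ℤ := Finset.Icc ⌈t * (1 - PB.eps) / δ⌉ ⌊t / δ⌋ with hS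
  have hcard : (S.card : ℝ) ≤ κB * t + 1 := by
    rw [hS, Int.card_Icc]
    by_cases hneg : 0 ≤ ⌊t / δ⌋ + 1 - ⌈t * (1 - PB.eps) / δ⌉
    · have h1 : (((⌊t / δ⌋ + 1 - ⌈t * (1 - PB.eps) / δ⌉).toNat : ℤ) : ℝ) =
          ((⌊t / δ⌋ + 1 - ⌈t * (1 - PB.eps) / δ⌉ : ℤ) : ℝ) := by rw [Int.toNat_of_nonneg hneg]
      rw [Int.cast_natCast] at h1
      rw [h1]
      push_cast
      have h2 := Int.floor_le (t / δ)
      have h3 := Int.le_ceil (t * (1 - PB.eps) / δ)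
      have h4 : t / δ - t * (1 - PB.eps) / δ = κB * t := by
        rw [heps]
        field_simp
        ring
      linarith
    · rw [Int.toNat_of_nonpos (not_le.1 hneg).le, Nat.cast_zero]
      positivity
  calc _ ≤ ∑ f, ∑ J ∈ S, a * if Z.lab f = κ ∧ Z.J f = J then ‖Z.poly f (z + β)‖ ^ 2 else 0 := by
        refine Finset.sum_le_sum fun f _ => ?_
        have hnn : ∀ J ∈ S,
            0 ≤ a * if Z.lab f = κ ∧ Z.J f = J then ‖Z.poly f (z + β)‖ ^ 2 else 0 := fun J _ => by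
          positivity
        split_ifs with hf
        · obtain ⟨h1, h2⟩ := dsb_mem_win hr hr' hδ (h.1 f) hf.2
          rw [ha0, ← ht] at h1 h2
          have hJ' : (0 : ℝ) < Z.J f := by exact_mod_cast (by have := h.1 f; omega : 0 < Z.J f)
          have hmem : Z.J f ∈ S := by
            rw [hS, Finset.mem_Icc, Int.ceil_le, Int.le_floor, div_le_iff₀ hδ0, le_div_iff₀ hδ0]
            exact ⟨(le_div_iff₀ he1).1 h2, h1⟩
          refine le_trans ?_ (Finset.single_le_sum hnn hmem)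
          rw [if_pos ⟨hf.1, rfl⟩]
          refine mul_le_mul_of_nonneg_right ?_ (sq_nonneg _)
          rw [Prof.amp, Real.sq_sqrt (by have := PB.a0_pos; have := PB.eps_pos; positivity), ← ht,
            ha0, heps]
          calc δ' * (Z.J f * δ) / (κB * δ * t ^ 2) ≤ δ' * t / (κB * δ * t ^ 2) := by gcongr
            _ = a := by rw [ha]; field_simp
        · exact Finset.sum_nonneg hnn
    _ = ∑ J ∈ S, a * ∑ f, if Z.lab f = κ ∧ Z.J f = J then ‖Z.poly f (z + β)‖ ^ 2 else 0 := by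
        rw [Finset.sum_comm]
        simp only [Finset.mul_sum]
    _ ≤ ∑ J ∈ S, a * Em := Finset.sum_le_sum fun J _ => mul_le_mul_of_nonneg_left (hE J _) ha'
    _ = S.card * (a * Em) := by rw [Finset.sum_const, nsmul_eq_mul]
    _ ≤ (κB * t + 1) * (a * Em) := by gcongr
    _ = Em * (δ' / δ) * (1 + 1 / (κB * t)) := by rw [ha]; field_simp
    _ ≤ _ := by gcongr

open Classical in
/-- Mass outside prescribed sets (`amp_sum` gives `∑ amp² ≤ 2`). -/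
theorem out_outside {Z : MB Λ} {m : Mat} (h : Z.Adm m) (PB : Prof) {r : ℝ} (hr : 0 < r)
    (hr' : r ≤ 1 / 4) (β : ℝ) :
    ∀ᶠ δ' in 𝓝[>] (0 : ℝ), ∀ (κ : Λ) (A : ℤ → Set ℝ) (u : Z.ι → ℝ), (∀ j, MeasurableSet (A j)) →
      (∀ f, 0 ≤ u f) →
      (∀ f, Z.lab f = κ → ∀ j ∈ PB.winB r δ' (Z.J f), ∀ z, z ∉ A j → ‖Z.poly f (z + β)‖ ^ 2 ≤ u f) →
      (∑ i, if (Z.out PB m r β δ').lab i = κ then
        ∫ z in Ico (0 : ℝ) 1 \ A ((Z.out PB m r β δ').j i), ‖(Z.out PB m r β δ').G i z‖ ^ 2 else 0) ≤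
        2 * ∑ f, if Z.lab f = κ then u f else 0 := by
  filter_upwards [eventually_all.2 fun f => dsb_amp_sum PB hr hr' one_pos (h.1 f)]
    with δ' hc κ A u _ hu hA
  rw [Finset.mul_sum]
  refine (Fintype.sum_sigma _).trans_le (Finset.sum_le_sum fun f _ => ?_)
  by_cases hf : Z.lab f = κ
  · have h1 : ∑ j ∈ PB.winB r δ' (Z.J f), PB.amp (Z.J f) δ' j ^ 2 ≤ 2 := by
      have := (abs_le.1 (hc f)).2
      linarith [PB.sh.mu_pos]
    rw [if_pos hf]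
    refine le_trans ?_ (mul_le_mul_of_nonneg_right h1 (hu f))
    rw [Finset.sum_mul, ← Finset.sum_coe_sort (PB.winB r δ' (Z.J f))]
    refine Finset.sum_le_sum fun j _ => ?_
    rw [if_pos (show (Z.out PB m r β δ').lab ⟨f, j⟩ = κ from hf)]
    have hv : volume (Ico (0 : ℝ) 1 \ A j) ≤ 1 :=
      (measure_mono sdiff_subset).trans (by simp)
    have h2 := norm_setIntegral_le_of_norm_le_const (μ := volume) (s := Ico (0 : ℝ) 1 \ A j)
      (f := fun z => ‖(Z.out PB m r β δ').G ⟨f, j⟩ z‖ ^ 2)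
      (C := PB.amp (Z.J f) δ' j ^ 2 * u f) (hv.trans_lt ENNReal.one_lt_top) (fun z hz => by
        rw [Real.norm_of_nonneg (sq_nonneg _)]
        exact (dsb_norm_G Z PB m r β δ' ⟨f, j⟩ z).trans_le
          (mul_le_mul_of_nonneg_left (hA f hf j j.2 z hz.2) (sq_nonneg _)))
    have h3 : (volume : Measure ℝ).real (Ico (0 : ℝ) 1 \ A j) ≤ 1 :=
      ENNReal.toReal_le_of_le_ofReal zero_le_one (by simpa using hv)
    refine ((le_abs_self _).trans h2).trans ?_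
    exact mul_le_of_le_one_right (mul_nonneg (sq_nonneg _) (hu f)) h3
  · rw [if_neg hf, mul_zero]
    exact (Finset.sum_eq_zero fun j' _ => if_neg hf).le

end Crest.Agent.R081
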