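import Crest.Agent.R081.Defs

/-! Kronecker's theorem for the numbers `λ log λ`, `λ = j + ρ n`. -/

set_option autoImplicit false

namespace Crest.Agent.R081

open MeasureTheory Set Filter Topology Crest.AnalysisR.Torus3 Crest.Agent.R210 Crest.Agent.R075

theorem kron_fourier (n : ℤ) (x : ℝ) : fourier n (x : UnitAddCircle) = ee (n * x) := by
  rw [fourier_coe_apply, ee]
  congr 1
  push_cast
  ring

theorem kron_half : ee (1 / 2) = -1 := by
  rw [ee, show ((2 * Real.pi * (1 / 2) : ℝ) : ℂ) = Real.pi by push_cast; ring,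
    Complex.exp_pi_mul_I]

theorem kron_coeff_shift {ι : Type} [Fintype ι] (f : UnitAddTorus ι → ℂ) (a : UnitAddTorus ι)
    (hf : ∀ x, f (x + a) = f x) (n : ι → ℤ) :
    UnitAddTorus.mFourierCoeff f n
      = UnitAddTorus.mFourier (-n) a * UnitAddTorus.mFourierCoeff f n := by
  have h := integral_add_right_eq_self
    (μ := Measure.pi fun _ : ι => (AddCircle.haarAddCircle : Measure UnitAddCircle))
    (fun t => UnitAddTorus.mFourier (-n) t • f t) a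
  refine h.symm.trans ?_
  have e : ∀ t, UnitAddTorus.mFourier (-n) (t + a) • f (t + a)
      = UnitAddTorus.mFourier (-n) a * (UnitAddTorus.mFourier (-n) t • f t) := fun t => by
    rw [hf]
    simp only [UnitAddTorus.mFourier, ContinuousMap.coe_mk, Pi.add_apply, smul_eq_mul,
      fourier_apply, smul_add, AddCircle.toCircle_add, Circle.coe_mul, Finset.prod_mul_distrib]
    ring
  simp only [e]
  exact integral_const_mul _ _

/-- Kronecker's theorem on a line.  (If the closure of the line misses a point, take a continuous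
`f ≥ 0` vanishing on the line with positive integral, approximate it uniformly by a trigonometric
polynomial, `UnitAddTorus.span_mFourier_closure_eq_top`, and average along the line.) -/
theorem kronecker {ι : Type} [Fintype ι] (v : ι → ℝ)
    (hv : ∀ r : ι → ℤ, ∑ i, (r i : ℝ) * v i = 0 → r = 0) (tg : ι → ℝ) {η : ℝ} (hη : 0 < η) :
    ∃ X : ℝ, ∀ i, ‖ee (X * v i) - ee (tg i)‖ ≤ η := by
  set l : ℝ → UnitAddTorus ι := fun X i => ((X * v i : ℝ) : UnitAddCircle) with hl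
  have hadd : ∀ X Y, l (X + Y) = l X + l Y := fun X Y => by
    funext i
    simp only [hl, Pi.add_apply, add_mul, AddCircle.coe_add]
  set f : C(UnitAddTorus ι, ℂ) := ⟨fun x => (Metric.infDist x (range l) : ℝ),
    Complex.continuous_ofReal.comp (Metric.continuous_infDist_pt _)⟩ with hf
  have hinv : ∀ Y x, f (x + l Y) = f x := fun Y x => by
    have h1 : (fun x => x + l Y) '' range l = range l := by
      ext y
      constructor
      · rintro ⟨_, ⟨X, rfl⟩, rfl⟩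
        exact ⟨X + Y, hadd X Y⟩
      · rintro ⟨X, rfl⟩
        exact ⟨l (X - Y), ⟨_, rfl⟩, (hadd _ _).symm.trans (by rw [sub_add_cancel])⟩
    have h2 := Metric.infDist_image (isometry_add_right (l Y)) (x := x) (t := range l)
    rw [h1] at h2
    exact congrArg (fun t : ℝ => (t : ℂ)) h2
  have hc : ∀ n, n ≠ 0 → UnitAddTorus.mFourierCoeff f n = 0 := fun n hn => by
    have h1 : ∑ i, (n i : ℝ) * v i ≠ 0 := fun h => hn (hv n h)
    set Y : ℝ := -(1 / 2) / ∑ i, (n i : ℝ) * v i with hY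
    have h2 := kron_coeff_shift f (l Y) (hinv Y) n
    have h3 : UnitAddTorus.mFourier (-n) (l Y) = -1 := by
      simp only [UnitAddTorus.mFourier, ContinuousMap.coe_mk, hl, kron_fourier]
      rw [← ee_sum, ← kron_half]
      congr 1
      have : ∀ i, (((-n) i : ℤ) : ℝ) * (Y * v i) = -Y * (n i * v i) := fun i => by
        simp only [Pi.neg_apply, Int.cast_neg]
        ring
      simp only [this, ← Finset.mul_sum]
      rw [hY]
      field_simp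
    rw [h3] at h2
    linear_combination (1 / 2) * h2
  have hs : Summable (UnitAddTorus.mFourierCoeff f) :=
    summable_of_ne_finset_zero (s := {0}) fun n hn => hc n (by simpa using hn)
  have hconst : ∀ x, f x = UnitAddTorus.mFourierCoeff f 0 := fun x => by
    have h1 := UnitAddTorus.hasSum_mFourier_series_apply_of_summable hs x
    have h2 : HasSum (fun n => UnitAddTorus.mFourierCoeff f n • UnitAddTorus.mFourier n x)
        (UnitAddTorus.mFourierCoeff f 0 • UnitAddTorus.mFourier 0 x) :=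
      hasSum_single 0 fun n hn => by rw [hc n hn, zero_smul]
    rw [h1.unique h2, UnitAddTorus.mFourier_zero]
    simp
  set t : UnitAddTorus ι := fun i => ((tg i : ℝ) : UnitAddCircle) with ht
  have h0 : Metric.infDist t (range l) = 0 := by
    have h1 : f t = f (l 0) := (hconst _).trans (hconst _).symm
    have h2 : Metric.infDist (l 0) (range l) = 0 := Metric.infDist_zero_of_mem ⟨0, rfl⟩
    simp only [hf, ContinuousMap.coe_mk, h2] at h1
    exact_mod_cast h1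
  have hcl : t ∈ closure (range l) :=
    (Metric.mem_closure_iff_infDist_zero (range_nonempty l)).2 h0
  have hU : {x : UnitAddTorus ι | ∀ i, ‖fourier 1 (x i) - fourier 1 (t i)‖ < η} ∈ 𝓝 t := by
    refine eventually_all.2 fun i => ?_
    have : Continuous fun x : UnitAddTorus ι => ‖fourier 1 (x i) - fourier 1 (t i)‖ := by fun_prop
    exact this.continuousAt.eventually_lt continuousAt_const (by simpa using hη)
  obtain ⟨_, hx, X, rfl⟩ := mem_closure_iff_nhds.1 hcl _ hU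
  refine ⟨X, fun i => ?_⟩
  have := hx i
  simp only [hl, ht, kron_fourier, Int.cast_one, one_mul] at this
  exact this.le

/-- Dirichlet recurrence (compactness of the torus). -/
theorem recurrence {ι : Type} [Fintype ι] (v : ι → ℝ) {η : ℝ} (hη : 0 < η) (Y0 : ℝ) :
    ∃ Y ≥ Y0, ∀ i, ‖ee (Y * v i) - 1‖ ≤ η := by
  set L : ℝ := max Y0 0 with hL
  have hmem : ∀ n : ℕ, (fun i => ee (n * L * v i)) ∈ Metric.closedBall (0 : ι → ℂ) 1 := fun n => by
    rw [mem_closedBall_zero_iff, pi_norm_le_iff_of_nonneg zero_le_one]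
    exact fun i => (norm_ee _).le
  obtain ⟨a, -, φ, hφ, hlim⟩ := (isCompact_closedBall (0 : ι → ℂ) 1).tendsto_subseq hmem
  obtain ⟨N, hN⟩ := Metric.cauchySeq_iff'.1 hlim.cauchySeq η hη
  have h1 := hN (N + 1) (Nat.le_succ N)
  have h2 : (φ N : ℝ) + 1 ≤ φ (N + 1) := by exact_mod_cast hφ (Nat.lt_succ_self N)
  refine ⟨((φ (N + 1) : ℝ) - φ N) * L, ?_, fun i => ?_⟩
  · have h3 : 0 ≤ L := le_max_right _ _
    have h4 : Y0 ≤ L := le_max_left _ _
    nlinarith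
  · have h3 := (dist_le_pi_dist _ _ i).trans h1.le
    simp only [Function.comp_apply, dist_eq_norm] at h3
    have h4 : ee (φ (N + 1) * L * v i) - ee (φ N * L * v i)
        = ee (φ N * L * v i) * (ee (((φ (N + 1) : ℝ) - φ N) * L * v i) - 1) := by
      rw [mul_sub, ← ee_add, mul_one]
      congr 2
      ring
    rwa [h4, norm_mul, norm_ee, one_mul] at h3

/-- simple fractions with distinct poles are independent -/
theorem kron_frac {ι : Type} [Fintype ι] {j n c : ι → ℝ} (hn : ∀ i, n i ≠ 0)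
    (hprop : ∀ i i', j i * n i' = j i' * n i → i = i') {U : Set ℝ} (hU : U.Infinite)
    (hpos : ∀ ρ ∈ U, ∀ i, j i + ρ * n i ≠ 0) (h : ∀ ρ ∈ U, ∑ i, c i / (j i + ρ * n i) = 0)
    (i : ι) : c i = 0 := by
  classical
  set P : Polynomial ℝ := ∑ k, Polynomial.C (c k) *
    ∏ k' ∈ Finset.univ.erase k, (Polynomial.C (j k') + Polynomial.X * Polynomial.C (n k')) with hP
  have hev : ∀ ρ : ℝ, P.eval ρ = ∑ k, c k * ∏ k' ∈ Finset.univ.erase k, (j k' + ρ * n k') :=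
    fun ρ => by simp [hP, Polynomial.eval_finsetSum, Polynomial.eval_prod, mul_comm ρ]
  have hP0 : P = 0 := by
    refine Polynomial.eq_zero_of_infinite_isRoot P (hU.mono fun ρ hρ => ?_)
    change P.eval ρ = 0
    rw [hev, ← mul_zero (∏ k, (j k + ρ * n k)), ← h ρ hρ, Finset.mul_sum]
    refine Finset.sum_congr rfl fun k _ => ?_
    rw [← Finset.mul_prod_erase _ _ (Finset.mem_univ k)]
    field_simp [hpos ρ hρ k]
  have h1 := hev (-j i / n i)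
  rw [hP0, Polynomial.eval_zero, Finset.sum_eq_single i] at h1
  · refine (mul_eq_zero.1 h1.symm).resolve_right (Finset.prod_ne_zero_iff.2 fun k hk h0 => ?_)
    refine Finset.ne_of_mem_erase hk (hprop k i ?_)
    have := hn i
    field_simp at h0
    linarith
  · intro k _ hk
    rw [Finset.prod_eq_zero (Finset.mem_erase.2 ⟨hk.symm, Finset.mem_univ i⟩), mul_zero]
    have := hn i
    field_simp
    ring
  · simp

theorem kron_deriv_zero {g g' : ℝ → ℝ} {U : Set ℝ} (hU : IsOpen U)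
    (hg : ∀ x ∈ U, HasDerivAt g (g' x) x) (h0 : ∀ x ∈ U, g x = 0) : ∀ x ∈ U, g' x = 0 :=
  fun x hx => (hg x hx).unique ((hasDerivAt_const x (0 : ℝ)).congr_of_eventuallyEq
    (mem_of_superset (hU.mem_nhds hx) h0))

/-- Generic independence.  For `r ≠ 0` the closed set of `ρ` with
`∑ r (j + ρ n) log (j + ρ n) = 0` has empty interior (differentiate twice:
`∑ r n² / (j + ρ n) = 0` on an interval, distinct poles `- j / n`); Baire. -/
theorem exists_indep (Ξ : Finset (ℤ × ℤ)) (hj : ∀ ξ ∈ Ξ, 1 ≤ ξ.1) (hn : ∀ ξ ∈ Ξ, ξ.2 ≠ 0)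
    (hprop : ∀ ξ ∈ Ξ, ∀ ξ' ∈ Ξ, ξ.1 * ξ'.2 = ξ'.1 * ξ.2 → ξ = ξ') {ρ0 : ℝ} (h0 : 0 < ρ0)
    (hρ : ∀ ξ ∈ Ξ, ρ0 * |(ξ.2 : ℝ)| ≤ 1 / 2) :
    ∃ ρ ∈ Ioo (0 : ℝ) ρ0, ∀ r : Ξ → ℤ,
      ∑ ξ : Ξ, (r ξ : ℝ) * ((ξ.1.1 + ρ * ξ.1.2) * Real.log (ξ.1.1 + ρ * ξ.1.2)) = 0 → r = 0 := by
  have hpos : ∀ ρ ∈ Ioo (0 : ℝ) ρ0, ∀ ξ : Ξ, (0 : ℝ) < ξ.1.1 + ρ * ξ.1.2 := by
    intro ρ hρ' ξ
    have h1 : (1 : ℝ) ≤ ξ.1.1 := by exact_mod_cast hj ξ ξ.2
    have h2 := hρ ξ ξ.2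
    have h3 : ρ * |(ξ.1.2 : ℝ)| ≤ ρ0 * |(ξ.1.2 : ℝ)| :=
      mul_le_mul_of_nonneg_right hρ'.2.le (abs_nonneg _)
    have h4 : ρ * -|(ξ.1.2 : ℝ)| ≤ ρ * ξ.1.2 := mul_le_mul_of_nonneg_left (neg_abs_le _) hρ'.1.le
    linarith
  have hlin : ∀ (ξ : Ξ) (ρ : ℝ), HasDerivAt (fun ρ : ℝ => (ξ.1.1 : ℝ) + ρ * ξ.1.2) ξ.1.2 ρ :=
    fun ξ ρ => by simpa using ((hasDerivAt_id ρ).mul_const (ξ.1.2 : ℝ)).const_add (ξ.1.1 : ℝ)
  have key : ∀ r : Ξ → ℤ, ∀ᵐ ρ ∂(volume.restrict (Ioo (0 : ℝ) ρ0)),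
      ∑ ξ : Ξ, (r ξ : ℝ) * ((ξ.1.1 + ρ * ξ.1.2) * Real.log (ξ.1.1 + ρ * ξ.1.2)) = 0 → r = 0 := by
    intro r
    have han : AnalyticOnNhd ℝ (fun ρ : ℝ => ∑ ξ : Ξ,
        (r ξ : ℝ) * ((ξ.1.1 + ρ * ξ.1.2) * Real.log (ξ.1.1 + ρ * ξ.1.2))) (Ioo 0 ρ0) := by
      intro ρ hρ'
      refine Finset.analyticAt_fun_sum _ fun ξ _ => ?_
      have h1 : AnalyticAt ℝ (fun ρ : ℝ => (ξ.1.1 : ℝ) + ρ * ξ.1.2) ρ := by fun_prop
      exact analyticAt_const.mul (h1.mul (h1.log (hpos ρ hρ' ξ)))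
    rcases han.eqOn_zero_or_eventually_ne_zero_of_preconnected isPreconnected_Ioo with h | h
    · have h1 : ∀ ρ ∈ Ioo (0 : ℝ) ρ0, ∑ ξ : Ξ,
          (r ξ : ℝ) * (ξ.1.2 * Real.log (ξ.1.1 + ρ * ξ.1.2) + ξ.1.2) = 0 := by
        refine kron_deriv_zero isOpen_Ioo (fun ρ hρ' => ?_) h
        refine HasDerivAt.fun_sum fun ξ _ => HasDerivAt.const_mul _ ?_
        have hne := (hpos ρ hρ' ξ).ne'
        refine ((hlin ξ ρ).fun_mul ((hlin ξ ρ).log hne)).congr_deriv ?_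
        rw [mul_div_cancel₀ _ hne]
      have h2 : ∀ ρ ∈ Ioo (0 : ℝ) ρ0, ∑ ξ : Ξ,
          (r ξ : ℝ) * (ξ.1.2 * ξ.1.2) / (ξ.1.1 + ρ * ξ.1.2) = 0 := by
        refine kron_deriv_zero isOpen_Ioo (fun ρ hρ' => ?_) h1
        refine HasDerivAt.fun_sum fun ξ _ => ?_
        have hne := (hpos ρ hρ' ξ).ne'
        refine (((((hlin ξ ρ).log hne).const_mul (ξ.1.2 : ℝ)).add_const (ξ.1.2 : ℝ)).const_mul
          (r ξ : ℝ)).congr_deriv ?_
        ring
      have hn' : ∀ ξ : Ξ, (ξ.1.2 : ℝ) ≠ 0 := fun ξ => by exact_mod_cast hn ξ ξ.2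
      have h3 := kron_frac (j := fun ξ : Ξ => (ξ.1.1 : ℝ)) (n := fun ξ : Ξ => (ξ.1.2 : ℝ)) hn'
        (fun ξ ξ' h => Subtype.ext (hprop ξ ξ.2 ξ' ξ'.2 (by exact_mod_cast h)))
        (Ioo_infinite h0) (fun ρ hρ' ξ => (hpos ρ hρ' ξ).ne') h2
      refine Eventually.of_forall fun _ _ => funext fun ξ => ?_
      have h4 := (mul_eq_zero.1 (h3 ξ)).resolve_right (mul_ne_zero (hn' ξ) (hn' ξ))
      exact_mod_cast h4
    · filter_upwards [ae_restrict_le_codiscreteWithin measurableSet_Ioo h] with ρ h1 h2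
      exact absurd h2 h1
  have hne : (ae (volume.restrict (Ioo (0 : ℝ) ρ0))).NeBot := by
    rw [ae_neBot, Ne, Measure.restrict_eq_zero, Real.volume_Ioo, ENNReal.ofReal_eq_zero]
    linarith
  exact ((ae_restrict_mem measurableSet_Ioo).and (ae_all_iff.2 key)).exists

/-- fractions with large coprime denominator near a given point -/
theorem kron_mat {ρ : ℝ} (h0 : 0 < ρ) (h1 : ρ < 1) {U : Set ℝ} (hU : U ∈ 𝓝 ρ) (Q : ℤ) :
    ∃ m : Mat, Q < m.q ∧ 0 < m.p ∧ (m.p : ℝ) / m.q ∈ U := by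
  have ht : Tendsto (fun q : ℕ => (⌈ρ * q⌉₊ : ℝ) / q) atTop (𝓝 ρ) :=
    (tendsto_nat_ceil_mul_div_atTop h0.le).comp tendsto_natCast_atTop_atTop
  obtain ⟨N, hN⟩ := eventually_atTop.1 (ht.eventually (inter_mem hU (Ioo_mem_nhds h0 h1)))
  obtain ⟨q, hq, hp⟩ := Nat.exists_infinite_primes (max N (Q.toNat + 1))
  obtain ⟨h2, h3, h4⟩ := hN q ((le_max_left _ _).trans hq)
  have hq0 : (0 : ℝ) < q := by exact_mod_cast hp.pos
  have hp0 : 0 < ⌈ρ * q⌉₊ := Nat.ceil_pos.2 (mul_pos h0 hq0)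
  have hp1 : ⌈ρ * q⌉₊ < q := by
    rw [div_lt_one hq0] at h4
    exact_mod_cast h4
  have hco : IsCoprime (q : ℤ) (⌈ρ * q⌉₊ : ℤ) :=
    Nat.isCoprime_iff_coprime.2 (Nat.coprime_of_lt_prime hp0.ne' hp1 hp)
  obtain ⟨b, a, hab⟩ := hco
  refine ⟨⟨⌈ρ * q⌉₊, q, -a, b, by linarith, by exact_mod_cast hp.pos⟩, ?_, Int.natCast_pos.2 hp0,
    by simpa using h2⟩
  have := (le_max_right _ _).trans hq
  change Q < (q : ℤ)
  omega

/-- Free phases.  Take `ρ` from `exists_indep` (with `min ρ0 1`); finitely many `X` give an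
`η/3`-net of all targets (compactness); approximate `ρ` by `p / q` with `q` a large prime; add a
large recurrence time. -/
theorem free_phases (Ξ : Finset (ℤ × ℤ)) (hj : ∀ ξ ∈ Ξ, 1 ≤ ξ.1) (hn : ∀ ξ ∈ Ξ, ξ.2 ≠ 0)
    (hprop : ∀ ξ ∈ Ξ, ∀ ξ' ∈ Ξ, ξ.1 * ξ'.2 = ξ'.1 * ξ.2 → ξ = ξ') {ρ0 : ℝ} (h0 : 0 < ρ0)
    (hρ : ∀ ξ ∈ Ξ, ρ0 * |(ξ.2 : ℝ)| ≤ 1 / 2) {η : ℝ} (hη : 0 < η) (Q : ℤ) :
    ∃ m : Mat, Q < m.q ∧ 0 < m.p ∧ (m.p : ℝ) / m.q < ρ0 ∧ ∀ (tg : ℤ × ℤ → ℝ) (X0 : ℝ), ∃ X ≥ X0,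
      ∀ ξ ∈ Ξ, ‖ee (-X * ((ξ.1 + (m.p : ℝ) / m.q * ξ.2) *
        Real.log (ξ.1 + (m.p : ℝ) / m.q * ξ.2))) - ee (tg ξ)‖ ≤ η := by
  obtain ⟨ρ, ⟨hρ0, hρ1⟩, hind⟩ := exists_indep Ξ hj hn hprop (ρ0 := min ρ0 1)
    (lt_min h0 one_pos) fun ξ hξ =>
      (mul_le_mul_of_nonneg_right (min_le_left _ _) (abs_nonneg _)).trans (hρ ξ hξ)
  set w : ℝ → Ξ → ℝ := fun s ξ => -((ξ.1.1 + s * ξ.1.2) * Real.log (ξ.1.1 + s * ξ.1.2)) with hw
  have hη3 : 0 < η / 3 := by positivity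
  have hind' : ∀ r : Ξ → ℤ, ∑ ξ, (r ξ : ℝ) * w ρ ξ = 0 → r = 0 := fun r hr => hind r (by
    simp only [hw, mul_neg, Finset.sum_neg_distrib] at hr
    exact neg_eq_zero.1 hr)
  obtain ⟨F, hF⟩ := (isCompact_Icc (a := (0 : Ξ → ℝ)) (b := 1)).elim_finite_subcover
    (fun X : ℝ => {t : Ξ → ℝ | ∀ ξ, ‖ee (X * w ρ ξ) - ee (t ξ)‖ < η / 3})
    (fun X => by
      simp only [ofPred_forall]
      exact isOpen_iInter_of_finite fun ξ => isOpen_lt (by fun_prop) continuous_const)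
    (fun t _ => by
      obtain ⟨X, hX⟩ := kronecker (w ρ) hind' t (half_pos hη3)
      exact mem_iUnion.2 ⟨X, fun ξ => (hX ξ).trans_lt (half_lt_self hη3)⟩)
  have hU : {s : ℝ | s < ρ0 ∧ ∀ X ∈ F, ∀ ξ, ‖ee (X * w s ξ) - ee (X * w ρ ξ)‖ < η / 3} ∈ 𝓝 ρ := by
    refine (gt_mem_nhds (hρ1.trans_le (min_le_left _ _))).and
      ((eventually_all_finset F).2 fun X _ => eventually_all.2 fun ξ => ?_)
    have h1 : Continuous fun s : ℝ => w s ξ :=
      (Real.continuous_mul_log.comp (by fun_prop : Continuous fun s : ℝ =>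
        (ξ.1.1 : ℝ) + s * ξ.1.2)).neg
    have : Continuous fun s : ℝ => ‖ee (X * w s ξ) - ee (X * w ρ ξ)‖ := by fun_prop
    exact this.continuousAt.eventually_lt continuousAt_const (by simpa using hη3)
  obtain ⟨m, hQ, hp, hm1, hm2⟩ := kron_mat hρ0 (hρ1.trans_le (min_le_right _ _)) hU Q
  refine ⟨m, hQ, hp, hm1, fun tg X0 => ?_⟩
  have hmem : (fun ξ : Ξ => Int.fract (tg ξ)) ∈ Icc (0 : Ξ → ℝ) 1 :=
    ⟨fun ξ => Int.fract_nonneg _, fun ξ => (Int.fract_lt_one _).le⟩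
  obtain ⟨X, hXF, hX⟩ := mem_iUnion₂.1 (hF hmem)
  obtain ⟨Y, hY, hY'⟩ := recurrence (w ((m.p : ℝ) / m.q)) hη3 (X0 - X)
  refine ⟨X + Y, by linarith, fun ξ hξ => ?_⟩
  have e1 : ee (Int.fract (tg ξ)) = ee (tg ξ) := by
    conv_rhs => rw [← Int.fract_add_floor (tg ξ), ee_add, ee_int, mul_one]
  have a1 := hX ⟨ξ, hξ⟩
  have a2 := hm2 X hXF ⟨ξ, hξ⟩
  have a3 := hY' ⟨ξ, hξ⟩
  simp only [e1] at a1
  set s := w ((m.p : ℝ) / m.q) ⟨ξ, hξ⟩ with hs
  have e2 : -(X + Y) * ((ξ.1 + (m.p : ℝ) / m.q * ξ.2) * Real.log (ξ.1 + (m.p : ℝ) / m.q * ξ.2))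
      = X * s + Y * s := by
    simp only [hs, hw]
    ring
  have e3 : ee (X * s + Y * s) - ee (tg ξ) = ee (X * s) * (ee (Y * s) - 1)
      + (ee (X * s) - ee (X * w ρ ⟨ξ, hξ⟩)) + (ee (X * w ρ ⟨ξ, hξ⟩) - ee (tg ξ)) := by
    rw [ee_add]
    ring
  rw [e2, e3]
  refine (norm_add₃_le).trans ?_
  rw [norm_mul, norm_ee, one_mul]
  linarith

end Crest.Agent.R081
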