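import Crest.Agent.R081.DSRa
import Crest.Agent.R081.Kron

/-! The step with free phases. -/

set_option autoImplicit false

namespace Crest.Agent.R081

open MeasureTheory Set Filter Topology Crest.AnalysisR.Torus3 Crest.Agent.R210 Crest.Agent.R075

variable {Λ : Type}

theorem rs_mod {P PA : Prof} {p : Pc} (hp : p.Valid P) {r δA κr δ : ℝ} {SA : Shape} (hr : 0 < r)
    (hr' : p.a + r ≤ p.b - r) (hP : PA.Is δA κr SA) (hδ : 0 < δ) (q : ℕ) (mu : ℝ) {j J : ℤ}
    (hj : j ∈ p.win P r δA) (hJ : J ∈ p.win P r δ) (h1 : j * δA ≤ J * δ)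
    (h2 : J * δ * (1 - PA.eps) ≤ j * δA) :
    (1 - PA.eps) * (‖(p.kid P q δA mu j).c‖ * PA.amp j δ J) ≤ √(p.dens P (J * δ) / (κr * J)) ∧
      √(p.dens P (J * δ) / (κr * J)) ≤ ‖(p.kid P q δA mu j).c‖ * PA.amp j δ J := by
  obtain ⟨ha0, heps, -⟩ := hP
  have hA : 0 < δA := ha0 ▸ PA.a0_pos
  have he := PA.eps_pos
  have he1 := PA.eps_le
  have hκ : 0 < κr := pos_of_mul_pos_left (heps ▸ he) hA.le
  obtain ⟨a1, -, a2⟩ := cs_win hp hr hr' hA hj
  obtain ⟨b1, -, b2⟩ := cs_win hp hr hr' hδ hJ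
  have hj0 : (0 : ℝ) < j := pos_of_mul_pos_left a1 hA.le
  have hJ0 : (0 : ℝ) < J := pos_of_mul_pos_left b1 hδ.le
  have hP1 := P.eps_pos
  set B := ‖(p.kid P q δA mu j).c‖ * PA.amp j δ J with hB
  have hB0 : 0 ≤ B := mul_nonneg (norm_nonneg _) (Real.sqrt_nonneg _)
  have e : p.dens P (J * δ) / (κr * J) = j * δA / (J * δ) * B ^ 2 := by
    rw [hB, mul_pow, Pc.norm_kid_sq hp hr hr' hA q mu hj, cs_amp_sq PA hj0.le hδ.le, Pc.dens,
      indicator_of_mem a2, indicator_of_mem b2, ha0, heps]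
    field_simp
  have y1 : 1 - PA.eps ≤ j * δA / (J * δ) := by rw [le_div_iff₀ b1]; linarith
  have y2 : j * δA / (J * δ) ≤ 1 := by rw [div_le_iff₀ b1]; linarith
  rw [e]
  constructor
  · refine Real.le_sqrt_of_sq_le ?_
    rw [mul_pow]
    exact mul_le_mul_of_nonneg_right (by nlinarith) (sq_nonneg _)
  · rw [Real.sqrt_le_left hB0]
    nlinarith [sq_nonneg B]

theorem rs_cmp {φ tg R U Ph A B ε η e : ℝ} (h1 : (1 - ε) * B ≤ A) (h2 : A ≤ B) (hB : 0 ≤ B)
    (h3 : ‖ee U - ee tg‖ ≤ η) (h4 : |Ph - (U + R)| ≤ e) :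
    ‖(A : ℂ) * ee (φ + tg + R) - B * ee (φ + Ph)‖ ≤ (ε + η + 8 * e) * B := by
  have e1 : (A : ℂ) * ee (φ + tg + R) - B * ee (φ + Ph) = ((A - B : ℝ) : ℂ) * ee (φ + tg + R) -
      B * (ee (φ + R) * (ee U - ee tg)) - B * (ee φ * (ee Ph - ee (U + R))) := by
    simp only [ee_add]; push_cast; ring
  rw [e1]
  have h5 := norm_ee_sub Ph (U + R)
  have h6 : 2 * Real.pi * |Ph - (U + R)| ≤ 8 * e :=
    mul_le_mul (by linarith [Real.pi_le_four]) h4 (abs_nonneg _) (by norm_num)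
  refine (norm_sub_le _ _).trans ((add_le_add (norm_sub_le _ _) le_rfl).trans ?_)
  simp only [norm_mul, norm_ee, Complex.norm_real, Real.norm_eq_abs, mul_one, one_mul,
    abs_of_nonneg hB]
  rw [abs_of_nonpos (by linarith)]
  nlinarith [mul_le_mul_of_nonneg_left h3 hB, mul_le_mul_of_nonneg_left (h5.trans h6) hB]

theorem rs_polar (c : ℂ) : (‖c‖ : ℂ) * ee (Complex.arg c / (2 * Real.pi)) = c := by
  rw [ee, mul_div_cancel₀ _ (by positivity)]
  exact Complex.norm_mul_exp_arg_mul_I c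

set_option maxHeartbeats 3000000 in
/-- The step with free phases.

Stage A is the child family `G`; its atoms are `(p, j)`, `j ∈ win p`, with mode `(j, n' p)`,
`n' p = (cm q).q j_p + n_p > 0`, `l p = - j_p`, `‖c‖² = δA dens_p (j δA)`.
Apply `free_phases` to the set of modes of atoms without partner (pairwise non proportional), with
target `tg = - arg c / (2π) + (l' / eps) log λ - j pos p`, `λ = j + ρ n'`, `l' = l - ρ n'`,
`ρ = m.p / m.q`, and put `δ = 1 / (X κr)`.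
With `e1 = -1/q`, `kp_hm_inv_EE` sends the atom to `c E1 n lr (e(-j w) G0)`,
`G0 = 1_{[0,1-mu)} e(λ AA w / δ + l' w)`, `n = q j + p n'`, `lr = a j + b n'`.
`V J = {j | tt j r1 ≤ J δ < tt j (1 - mu - r1)}` is an interval `Ioc (u J) (v J)` with at most
`κr J δ + 1` elements.  Keep the pairs `f = (p, J)` with `c_p ≠ 0`, `J ∈ Wi (tt j_p (a + r)) (tt j_p (b - r)) δ`
and `V J ⊆ win p`, and set `c f j = ω f * A f * e(j (sJ J - pos p))`, `A f ² = dens_p (J δ) / (κr J)`.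
`Ph λ δ (J - l') = - X λ log λ - (l' / eps) log λ + j sJ J + const (p, J) + O(|l'| eps) + o(1)`
(with `Y = λ δA / (J δ) ∈ [1 - eps, 1]`, `X λ / J = Y / eps`, `|Y - 1 - log Y| ≤ eps²`).
Apply `core` to each atom (nominal `j`, margin `r1`): interior atoms see the whole window
(`amp_sum`), atoms within `κr T + 2` of the ends of `win p` have total mass `O(δA)`, atoms with a
partner have total mass at most `Phi`; different atoms are orthogonal (`n` differs). -/
theorem rstep {F : Fam Λ} {P : Prof} (hV : F.Valid P) (hI : F.Inj) {r : ℝ} (hr : F.Small r) (q : ℕ)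
    (hq0 : ∀ i, 0 < (cm q).q * (F.pc i).j + (F.pc i).n)
    (hq1 : ∀ i i', (cm q).q * (F.pc i).j + (F.pc i).n = (cm q).q * (F.pc i').j + (F.pc i').n →
        (F.pc i).j = (F.pc i').j ∧ (F.pc i).n = (F.pc i').n)
    (SA : Shape) {κr r1 η : ℝ} (hκ : 0 < κr) (hr1 : 0 < r1) (hr1' : r1 ≤ 1 / 4) (hη : 0 < η)
    (pos : F.ι → ℝ) :
    ∀ᶠ δA in 𝓝[>] (0 : ℝ), ∀ PA : Prof, PA.Is δA κr SA → ∀ θ > (0 : ℝ), ∃ m : Mat,
      0 < m.p ∧ (m.p : ℝ) / m.q < θ ∧ ∀ δ0 > (0 : ℝ), ∃ δ ∈ Ioo (0 : ℝ) δ0,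
      ∃ (Z : MB Λ) (par : Z.ι → F.ι) (A : Z.ι → ℝ) (u v : ℤ → ℤ), Z.Adm m ∧
        (∀ f, |(m.p : ℝ) / m.q * Z.n f| ≤ θ) ∧
        (∀ κ, ‖kp (hm PA m 0 0 δ (-1 / m.q))⁻¹ ((F.child P q r δA SA.mu).vecL κ) - Z.vecL m κ‖ ^ 2 ≤
          η + 4 * r1 * (F.child P q r δA SA.mu).massL κ + 80 * (F.child P q r δA SA.mu).Phi) ∧
        (∀ f, Z.lab f = F.lab (par f)) ∧ (∀ f f', par f = par f' → Z.J f = Z.J f' → f = f') ∧
        (∀ f, (F.pc (par f)).c ≠ 0) ∧
        (∀ f, Z.V f = Finset.Ioc (u (Z.J f)) (v (Z.J f))) ∧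
        (∀ f, ((Z.V f).card : ℝ) ≤ κr * (Z.J f * δ) + 1) ∧
        (∀ f, (Z.J f : ℝ) * δ ∈
          Ico (P.tt (F.pc (par f)).j (F.pc (par f)).a) (P.tt (F.pc (par f)).j (F.pc (par f)).b)) ∧
        (∀ f, A f ^ 2 = (F.pc (par f)).dens P (Z.J f * δ) / (κr * Z.J f)) ∧
        ∀ f z, ‖Z.poly f z‖ ^ 2 =
          A f ^ 2 * ‖∑ j ∈ Z.V f, ee (j * (z + sJ κr δA δ (Z.J f) - pos (par f)))‖ ^ 2 := by
  classical
  choose C hC0 hC using fun i => rs_count (hV i) hr.1 (hr.2 i) q hκ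
  obtain ⟨Cs, hCs⟩ : ∃ Cs : ℝ, Cs = 1 + ∑ i, C i := ⟨_, rfl⟩
  have hCs1 : 1 ≤ Cs := by have := Finset.sum_nonneg fun i (_ : i ∈ Finset.univ) => hC0 i
                           linarith
  obtain ⟨Lm, hLm1, hLm⟩ : ∃ Lm : ℝ, 1 ≤ Lm ∧ ∀ i, ((F.pc i).j : ℝ) + 1 ≤ Lm := by
    have h0 : ∀ i ∈ Finset.univ, (0 : ℝ) ≤ (F.pc i).j := fun i _ => (cs_j_pos (hV i)).le
    refine ⟨∑ i, ((F.pc i).j : ℝ) + 1, by linarith [Finset.sum_nonneg h0], fun i => ?_⟩
    linarith [Finset.single_le_sum h0 (Finset.mem_univ i)]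
  obtain ⟨η3, h30, h31, h32⟩ : ∃ η3 : ℝ, 0 < η3 ∧ η3 ≤ 1 / 2 ∧ 1301 * η3 * Cs ≤ η / 2 := by
    refine ⟨min (1 / 2) (η / 2 / (1301 * Cs)), by positivity, min_le_left _ _, ?_⟩
    have := min_le_right (1 / 2) (η / 2 / (1301 * Cs))
    rw [le_div_iff₀ (by positivity)] at this
    linarith
  have hsm : ∀ c : ℝ, 0 < c → ∀ᶠ x in 𝓝[>] (0 : ℝ), x ≤ c := fun c hc =>
    Filter.mem_of_superset (Ioc_mem_nhdsGT hc) fun x hx => hx.2
  filter_upwards [self_mem_nhdsWithin, hsm 1 one_pos, hsm (η / 2 / (19 * Cs)) (by positivity),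
    hsm (η3 / (2 * Lm * κr)) (by positivity)] with δA hA hA1 hA2 hA3 PA hP θ hθ
  have hA : 0 < δA := hA
  obtain rfl : PA.sh = SA := hP.2.2
  have ha0 := hP.1
  have heps := hP.2.1
  have he := PA.eps_pos
  have he1 := PA.eps_le
  have hmu := PA.sh.mu_pos
  have hmu1 := PA.sh.mu_le
  rw [le_div_iff₀ (by positivity)] at hA2 hA3
  have he2 : 2 * Lm * PA.eps ≤ η3 := by rw [heps]; linarith
  have he3 : PA.eps ≤ η3 := by nlinarith
  set G := F.child P q r δA PA.sh.mu with hG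
  have hGV : G.Valid PA := child_valid hV hr hA q PA
  set N : F.ι → ℤ := fun i => (cm q).q * (F.pc i).j + (F.pc i).n with hN
  let mode : G.ι → ℤ × ℤ := fun s => ((G.pc s).j, (G.pc s).n)
  have hmode : Function.Injective mode := by
    rintro ⟨i, j, hj⟩ ⟨i', j', hj'⟩ h
    obtain ⟨h1, h2⟩ := Prod.ext_iff.mp h
    obtain rfl : j = j' := h1
    obtain rfl : i = i' := hI i i' (hq1 i i' h2).1 (hq1 i i' h2).2
    rfl
  let good : G.ι → Prop := fun s => ∀ s', ¬(G.pc s).Partner (G.pc s')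
  obtain ⟨Nm, hNm0, hNm⟩ : ∃ Nm : ℤ, 0 ≤ Nm ∧ ∀ i, N i ≤ Nm :=
    ⟨∑ i, N i, Finset.sum_nonneg fun i _ => (hq0 i).le, fun i =>
      Finset.single_le_sum (fun i _ => (hq0 i).le) (Finset.mem_univ i)⟩
  obtain ⟨ρ1, hρ1, hρθ, hρa, hρb, hρc⟩ : ∃ ρ1 : ℝ, 0 < ρ1 ∧ ρ1 ≤ θ ∧ ρ1 ≤ 1 / 2 ∧
      ρ1 ≤ PA.eps * r1 / 2 ∧ ρ1 ≤ η3 :=
    ⟨min θ (min (PA.eps * r1 / 2) η3), by positivity, min_le_left _ _,
      ((min_le_right _ _).trans (min_le_right _ _)).trans h31,
      (min_le_right _ _).trans (min_le_left _ _), (min_le_right _ _).trans (min_le_right _ _)⟩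
  have hNm0' : (0 : ℝ) ≤ Nm := by exact_mod_cast hNm0
  have hρN : ∀ ρ : ℝ, ρ ≤ ρ1 / (Nm + 1) → ∀ i, ρ * N i ≤ ρ1 := by
    intro ρ h i
    have h1 : (N i : ℝ) ≤ Nm + 1 := by exact_mod_cast (hNm i).trans (by omega)
    have h2 : (0 : ℝ) ≤ N i := by exact_mod_cast (hq0 i).le
    calc ρ * N i ≤ ρ1 / (Nm + 1) * (Nm + 1) := mul_le_mul h h1 h2 (by positivity)
      _ = ρ1 := by field_simp
  obtain ⟨m, hmQ, hmp, hmρ, hfree⟩ := free_phases ((Finset.univ.filter good).image mode)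
    (fun ξ hξ => by obtain ⟨s, -, rfl⟩ := Finset.mem_image.mp hξ; exact (hGV s).1)
    (fun ξ hξ => by obtain ⟨s, -, rfl⟩ := Finset.mem_image.mp hξ; exact (hq0 s.1).ne')
    (fun ξ hξ ξ' hξ' h => by
      obtain ⟨s, hs, rfl⟩ := Finset.mem_image.mp hξ
      obtain ⟨s', hs', rfl⟩ := Finset.mem_image.mp hξ'
      rcases lt_trichotomy (G.pc s).j (G.pc s').j with h1 | h1 | h1
      · exact absurd ⟨h1, h.symm⟩ ((Finset.mem_filter.mp hs').2 s)
      · refine Prod.ext h1 ?_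
        have h2 := (hGV s).1
        simp only [mode, ← h1] at h
        exact (mul_left_cancel₀ (by omega) h).symm
      · exact absurd ⟨h1, h⟩ ((Finset.mem_filter.mp hs).2 s'))
    (ρ0 := ρ1 / (Nm + 1)) (by positivity)
    (fun ξ hξ => by
      obtain ⟨s, -, rfl⟩ := Finset.mem_image.mp hξ
      have h2 : (0 : ℝ) ≤ N s.1 := by exact_mod_cast (hq0 s.1).le
      change ρ1 / (Nm + 1) * |(N s.1 : ℝ)| ≤ _
      rw [abs_of_nonneg h2]
      exact (hρN _ le_rfl s.1).trans hρa) h30 (2 * Nm)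
  set ρ : ℝ := (m.p : ℝ) / m.q with hρ
  have hρ0 : 0 < ρ := div_pos (by exact_mod_cast hmp) (by exact_mod_cast m.qpos)
  have hρN0 : ∀ i, 0 ≤ ρ * N i := fun i => mul_nonneg hρ0.le (by exact_mod_cast (hq0 i).le)
  have hρN1 : ∀ i, ρ * N i ≤ ρ1 := hρN ρ hmρ.le
  refine ⟨m, hmp, hmρ.trans_le ((div_le_self hρ1.le (by linarith)).trans hρθ), fun δ0 hδ0 => ?_⟩
  have hj1 : ∀ s : G.ι, (1 : ℝ) ≤ (G.pc s).j := fun s => by exact_mod_cast (hGV s).1
  obtain ⟨δ1, hδ1, hδ1'⟩ := (nhdsGT_basis (0 : ℝ)).eventually_iff.1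
    ((eventually_all.2 fun s : G.ι => rs_atom PA hr1 hr1' h30 h31 (hGV s).1
      (lam := (G.pc s).j + ρ * (G.pc s).n) ((G.pc s).l - ρ * (G.pc s).n) (by
        rw [add_sub_cancel_left]
        change |ρ * N s.1| ≤ _
        rw [abs_of_nonneg (hρN0 _)]
        exact ((hρN1 _).trans (le_min hρb hρc)).trans
          (le_mul_of_one_le_left (by positivity) (hj1 s)))).and
      ((hsm (δ0 / 2) (by positivity)).and ((hsm (δA / (2 * Lm)) (by positivity)).and
        (hsm (δA * PA.eps * η3 / (4 * Lm ^ 2)) (by positivity)))))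
  let φ : G.ι → ℝ := fun s => Complex.arg (G.pc s).c / (2 * Real.pi)
  let val : G.ι → ℝ := fun s => ((G.pc s).l - ρ * (G.pc s).n) / PA.eps *
    Real.log ((G.pc s).j + ρ * (G.pc s).n) - (G.pc s).j * pos s.1 - φ s
  obtain ⟨X, hX, hX'⟩ := hfree (Function.extend mode val 0) (2 / (δ1 * κr))
  have hX0 : 0 < X := lt_of_lt_of_le (by positivity) hX
  obtain ⟨δ, hδ, hδX, hδδ⟩ : ∃ δ : ℝ, 0 < δ ∧ X = 1 / (δ * κr) ∧ δ < δ1 := by
    refine ⟨1 / (X * κr), by positivity, by field_simp, ?_⟩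
    rw [ge_iff_le, div_le_iff₀ (by positivity)] at hX
    rw [div_lt_iff₀ (by positivity)]
    linarith
  obtain ⟨hat, hd0, hd1, hd2⟩ := hδ1' ⟨hδ, hδδ⟩
  rw [le_div_iff₀ (by positivity)] at hd1 hd2
  let u : ℤ → ℤ := fun J => ⌊J * δ * (1 - PA.eps * (1 - PA.sh.mu - r1)) / PA.a0⌋
  let v : ℤ → ℤ := fun J => ⌊J * δ * (1 - PA.eps * r1) / PA.a0⌋
  let kept : F.ι → Finset ℤ := fun i => ((F.pc i).win P r δ).filter fun J =>
    (F.pc i).c ≠ 0 ∧ Finset.Ioc (u J) (v J) ⊆ (F.pc i).win P r δA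
  let A : F.ι → ℤ → ℝ := fun i J => √((F.pc i).dens P (J * δ) / (κr * J))
  let Θ : F.ι → ℤ → ℝ := fun i J => ρ * N i * sJ κr δA δ J - J / PA.eps +
    (((-(F.pc i).j : ℤ) : ℝ) - ρ * N i) / PA.eps * Real.log (J * δ / δA)
  let d : F.ι → ℤ → ℤ → ℂ := fun i J j =>
    fres * ee (Θ i J) * A i J * ee (j * (sJ κr δA δ J - pos i))
  have hw : ∀ i, ∀ J ∈ kept i, 0 < (J : ℝ) * δ ∧
      (J : ℝ) * δ ∈ Ico (P.tt (F.pc i).j (F.pc i).a) (P.tt (F.pc i).j (F.pc i).b) := fun i J hJ =>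
    ⟨(cs_win (hV i) hr.1 (hr.2 i) hδ (Finset.mem_filter.mp hJ).1).1,
      (cs_win (hV i) hr.1 (hr.2 i) hδ (Finset.mem_filter.mp hJ).1).2.2⟩
  refine ⟨δ, ⟨hδ, by linarith⟩, ⟨Σ i : F.ι, ↥(kept i), inferInstance, fun f => f.2, fun f => N f.1,
    fun f => Finset.Ioc (u f.2) (v f.2), fun f j => d f.1 f.2 j, fun f => F.lab f.1⟩,
    fun f => f.1, fun f => A f.1 f.2, u, v, ⟨fun f => ?_, ?_, fun f => ?_⟩, fun f => ?_, fun κ => ?_,
    fun f => rfl, ?_, fun f => (Finset.mem_filter.mp f.2.2).2.1, fun f => rfl,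
    fun f => rs_card_V hP hr1 hr1' (hw _ _ f.2.2).1.le, fun f => (hw _ _ f.2.2).2, fun f => ?_,
    fun f z => ?_⟩
  · have h1 : (0 : ℝ) < ((f.2 : ℤ) : ℝ) := pos_of_mul_pos_left (hw _ _ f.2.2).1 hδ.le
    have h2 : (0 : ℤ) < (f.2 : ℤ) := by exact_mod_cast h1
    exact h2
  · rintro ⟨i, J, hJ⟩ ⟨i', J', hJ'⟩ h1 h2
    obtain rfl : J = J' := h1
    obtain rfl : i = i' := hI i i' (hq1 i i' h2).1 (hq1 i i' h2).2
    rfl
  · change 2 * |N f.1| < m.q
    rw [abs_of_pos (hq0 f.1)]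
    linarith [hNm f.1]
  · change |ρ * N f.1| ≤ θ
    rw [abs_of_nonneg (hρN0 _)]
    exact (hρN1 _).trans hρθ
  · -- the main estimate
    let W : G.ι → Finset ℤ := fun s => (kept s.1).filter fun J => (G.pc s).j ∈ Finset.Ioc (u J) (v J)
    let g : F.ι → ℤ → ℤ → H3 := fun i J j => d i J j • EE (J - j) (m.q * j + m.p * N i)
      (fun w => ee (((m.a * j + m.b * N i : ℤ) : ℝ) * w))
    have e1 : MB.vecL ⟨Σ i : F.ι, ↥(kept i), inferInstance, fun f => f.2, fun f => N f.1,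
        fun f => Finset.Ioc (u f.2) (v f.2), fun f j => d f.1 f.2 j, fun f => F.lab f.1⟩ m κ =
        ∑ s : G.ι, if G.lab s = κ then ∑ J ∈ W s, g s.1 J (G.pc s).j else 0 := by
      refine (Fintype.sum_sigma (fun f : Σ i : F.ι, ↥(kept i) => if F.lab f.1 = κ then
        ∑ j ∈ Finset.Ioc (u f.2) (v f.2), g f.1 f.2 j else 0)).trans
        (Eq.trans ?_ (Fintype.sum_sigma (fun s : Σ i : F.ι, ↥((F.pc i).win P r δA) =>
          if F.lab s.1 = κ then ∑ J ∈ (kept s.1).filter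
            (fun J => (s.2 : ℤ) ∈ Finset.Ioc (u J) (v J)), g s.1 J s.2 else 0)).symm)
      refine Finset.sum_congr rfl fun i _ => ?_
      by_cases h : F.lab i = κ
      · simp only [h, if_true]
        rw [Finset.sum_coe_sort (kept i) fun J => ∑ j ∈ Finset.Ioc (u J) (v J), g i J j,
          Finset.sum_coe_sort ((F.pc i).win P r δA) fun j => ∑ J ∈ (kept i).filter
            (fun J => j ∈ Finset.Ioc (u J) (v J)), g i J j]
        refine Finset.sum_comm' fun J j => ?_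
        exact ⟨fun h => ⟨Finset.mem_filter.mpr h, (Finset.mem_filter.mp h.1).2.2 h.2⟩,
          fun h => Finset.mem_filter.mp h.1⟩
      · simp [h]
    have hWB : ∀ s, W s ⊆ PA.winB r1 δ (G.pc s).j := fun s J hJ =>
      (rs_mem_V hr1 hr1' hδ _ _).mp (Finset.mem_filter.mp hJ).2
    have hrange : ∀ s : G.ι, ∀ J ∈ PA.winB r1 δ (G.pc s).j,
        (G.pc s).j * δA ≤ J * δ ∧ J * δ * (1 - PA.eps) ≤ (G.pc s).j * δA := fun s J hJ => by
      obtain ⟨h1, h2⟩ := dsb_mem_win hr1 hr1' hδ (hGV s).1 hJ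
      rw [ha0] at h1 h2
      rw [le_div_iff₀ (by linarith)] at h2
      exact ⟨h1, h2⟩
    have hmod : ∀ s : G.ι, ∀ J ∈ W s,
        (1 - PA.eps) * (‖(G.pc s).c‖ * PA.amp (G.pc s).j δ J) ≤ A s.1 J ∧
          A s.1 J ≤ ‖(G.pc s).c‖ * PA.amp (G.pc s).j δ J := fun s J hJ =>
      rs_mod (hV s.1) hr.1 (hr.2 s.1) hP hδ q PA.sh.mu s.2.2
        (Finset.mem_filter.mp (Finset.mem_filter.mp hJ).1).1 (hrange s J (hWB s hJ)).1
        (hrange s J (hWB s hJ)).2
    let int : G.ι → Prop := fun s =>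
      P.tt (F.pc s.1).j ((F.pc s.1).a + r) ≤ (G.pc s).j * δA * (1 - PA.eps) ∧
        (G.pc s).j * δA / (1 - PA.eps) < P.tt (F.pc s.1).j ((F.pc s.1).b - r)
    have hmass : ∀ s : G.ι, (G.pc s).mass = ‖(G.pc s).c‖ ^ 2 * (1 - PA.sh.mu) := fun s => by
      rw [Pc.mass]; congr 1; exact sub_zero _
    have hbound : ∀ s : G.ι, nsq (fun w => (G.pc s).c * rsG PA ((G.pc s).j + ρ * (G.pc s).n) δ
        ((G.pc s).l - ρ * (G.pc s).n) w - ∑ J ∈ W s, d s.1 J (G.pc s).j * ee (J * w)) ≤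
        4 * r1 * (G.pc s).mass + 1301 * η3 * ‖(G.pc s).c‖ ^ 2 +
          19 * ((G.pc s).mass * ((Finset.univ.filter fun s' => (G.pc s).Partner (G.pc s')).card : ℝ)) +
          19 * if int s then 0 else ‖(G.pc s).c‖ ^ 2 := by
      intro s
      obtain ⟨b1, b2⟩ := hat s (W s) (hWB s) (G.pc s).c (fun J => d s.1 J (G.pc s).j) (fun J hJ => by
        simp only [d, norm_mul, norm_fres, norm_ee, one_mul, mul_one, Complex.norm_real]
        rw [Real.norm_of_nonneg (Real.sqrt_nonneg _)]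
        exact (hmod s J hJ).2)
      have c0 : 0 ≤ ‖(G.pc s).c‖ ^ 2 := sq_nonneg _
      have c1 : 0 ≤ (G.pc s).mass := by rw [hmass]; exact mul_nonneg c0 (by linarith)
      have c2 : 0 ≤ (G.pc s).mass *
        ((Finset.univ.filter fun s' => (G.pc s).Partner (G.pc s')).card : ℝ) := by positivity
      have c3 : 0 ≤ 4 * r1 * (G.pc s).mass + 1301 * η3 * ‖(G.pc s).c‖ ^ 2 := by positivity
      by_cases hint : int s
      swap
      · rw [if_neg hint]
        linarith [mul_nonneg c0 hmu.le]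
      rw [if_pos hint]
      by_cases hgood : good s
      swap
      · have h1 : (1 : ℝ) ≤ ((Finset.univ.filter fun s' => (G.pc s).Partner (G.pc s')).card : ℝ) := by
          simp only [good, not_forall, not_not] at hgood
          obtain ⟨s', hs'⟩ := hgood
          exact_mod_cast Finset.card_pos.mpr ⟨s', Finset.mem_filter.mpr ⟨Finset.mem_univ _, hs'⟩⟩
        have h2 := mul_le_mul_of_nonneg_left h1 c1
        rw [hmass] at h2 c3 ⊢
        linarith
      refine (b2 (18 * η3) fun hc0 => ⟨?_, fun J hJ => ?_⟩).trans ?_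
      · refine Finset.Subset.antisymm (hWB s) fun J hJ => ?_
        obtain ⟨r1', r2'⟩ := hrange s J hJ
        obtain ⟨i1, i2⟩ := hint
        have hjA : 0 < ((G.pc s).j : ℝ) * δA := mul_pos (by linarith [hj1 s]) hA
        rw [div_lt_iff₀ (by linarith)] at i2
        have hJ0 : 0 < (J : ℝ) * δ := hjA.trans_le r1'
        have hJhi : (J : ℝ) * δ < P.tt (F.pc s.1).j ((F.pc s.1).b - r) :=
          lt_of_mul_lt_mul_right (r2'.trans_lt i2) (by linarith)
        refine Finset.mem_filter.mpr ⟨Finset.mem_filter.mpr ⟨(mem_Wi hδ).mpr ⟨?_, hJhi⟩, ?_,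
          fun j' hj' => (mem_Wi hA).mpr ?_⟩, (rs_mem_V hr1 hr1' hδ _ _).mpr hJ⟩
        · nlinarith
        · intro h
          apply hc0
          change (F.pc s.1).c * _ * _ * _ = 0
          simp [h]
        · obtain ⟨k1, k2⟩ := Finset.mem_Ioc.mp hj'
          rw [Int.floor_lt, div_lt_iff₀ PA.a0_pos, ha0] at k1
          rw [Int.le_floor, le_div_iff₀ PA.a0_pos, ha0] at k2
          have k3 : (J : ℝ) * δ * (1 - PA.eps) ≤ J * δ * (1 - PA.eps * (1 - PA.sh.mu - r1)) :=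
            mul_le_mul_of_nonneg_left (by nlinarith) hJ0.le
          have k4 : (J : ℝ) * δ * (1 - PA.eps * r1) ≤ J * δ :=
            mul_le_of_le_one_right hJ0.le (by nlinarith)
          have k5 := mul_le_mul_of_nonneg_right r1' (show 0 ≤ 1 - PA.eps by linarith)
          exact ⟨by linarith, by linarith⟩
      · obtain ⟨r1', r2'⟩ := hrange s J (hWB s hJ)
        have hl : |((G.pc s).l : ℝ) - ρ * (G.pc s).n| ≤ Lm := by
          change |((-(F.pc s.1).j : ℤ) : ℝ) - ρ * N s.1| ≤ Lm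
          have := cs_j_pos (hV s.1)
          push_cast
          rw [abs_le]
          constructor <;> linarith [hLm s.1, hρN0 s.1, hρN1 s.1]
        have hJA : δA ≤ J * δ := le_trans (le_mul_of_one_le_left hA.le (hj1 s)) r1'
        have hJ0 : (0 : ℝ) < J := pos_of_mul_pos_left (hA.trans_le hJA) hδ.le
        have hJ1 : 2 * Lm ≤ J := le_of_mul_le_mul_right (by linarith) hδ
        have hph := rs_ph hP hδ (j := (G.pc s).j) (lam := (G.pc s).j + ρ * (G.pc s).n)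
          (l := (G.pc s).l - ρ * (G.pc s).n) (J := J) (by linarith [hj1 s])
          (le_add_of_nonneg_right (hρN0 s.1)) (by
            have : ρ * (G.pc s).n ≤ ρ1 := hρN1 s.1
            nlinarith [hj1 s, mul_le_mul_of_nonneg_left hr1' he.le]) r1' r2' (by linarith)
        have herr : 2 * |((G.pc s).l : ℝ) - ρ * (G.pc s).n| * PA.eps +
            4 * (((G.pc s).l : ℝ) - ρ * (G.pc s).n) ^ 2 / (PA.eps * J) ≤ 2 * η3 := by
          have h1 : 2 * |((G.pc s).l : ℝ) - ρ * (G.pc s).n| * PA.eps ≤ 2 * Lm * PA.eps := by gcongr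
          have h2 : (((G.pc s).l : ℝ) - ρ * (G.pc s).n) ^ 2 ≤ Lm ^ 2 := by
            rw [← sq_abs]; gcongr
          have h3 : 4 * (((G.pc s).l : ℝ) - ρ * (G.pc s).n) ^ 2 / (PA.eps * J) ≤ η3 := by
            rw [div_le_iff₀ (by positivity)]
            refine le_of_mul_le_mul_right ?_ hδ
            have h4 := mul_le_mul_of_nonneg_right hJA (show 0 ≤ PA.eps * η3 by positivity)
            nlinarith [mul_le_mul_of_nonneg_right h2 hδ.le]
          linarith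
        have hfr := hX' (mode s) (Finset.mem_image_of_mem _
          (Finset.mem_filter.mpr ⟨Finset.mem_univ _, hgood⟩))
        rw [hmode.extend_apply] at hfr
        have hB : 0 ≤ ‖(G.pc s).c‖ * PA.amp (G.pc s).j δ J :=
          mul_nonneg (norm_nonneg _) (Real.sqrt_nonneg _)
        have key := rs_cmp (φ := φ s) (e := 2 * η3)
          (Ph := PA.Ph ((G.pc s).j + ρ * (G.pc s).n) δ (J - ((G.pc s).l - ρ * (G.pc s).n)))
          (R := -(((G.pc s).l - ρ * (G.pc s).n) / PA.eps * Real.log ((G.pc s).j + ρ * (G.pc s).n)) +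
            ((G.pc s).j + ρ * (G.pc s).n) * sJ κr δA δ J - J / PA.eps +
            ((G.pc s).l - ρ * (G.pc s).n) / PA.eps * Real.log (J * δ / δA))
          (hmod s J hJ).1 (hmod s J hJ).2 hB hfr (by
            refine le_trans (le_of_eq ?_) (hph.trans herr)
            rw [hδX]
            congr 1
            simp only [mode]
            ring)
        refine le_trans (le_of_eq ?_) (key.trans (mul_le_mul_of_nonneg_right (by linarith) hB))
        have e5 : ∀ x y : ℂ, x = fres * y → ‖x‖ = ‖y‖ := fun x y h => by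
          rw [h, norm_mul, norm_fres, one_mul]
        refine e5 _ _ ?_
        have e2 : φ s + val s + (-(((G.pc s).l - ρ * (G.pc s).n) / PA.eps *
            Real.log ((G.pc s).j + ρ * (G.pc s).n)) +
            ((G.pc s).j + ρ * (G.pc s).n) * sJ κr δA δ J - J / PA.eps +
            ((G.pc s).l - ρ * (G.pc s).n) / PA.eps * Real.log (J * δ / δA)) =
            Θ s.1 J + (G.pc s).j * (sJ κr δA δ J - pos s.1) := by
          have h1 : (G.pc s).n = N s.1 := rfl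
          have h2 : (G.pc s).l = -(F.pc s.1).j := rfl
          simp only [val, Θ, h1, h2]
          ring
        have e3 : (‖(G.pc s).c‖ : ℂ) * ee (φ s) = (G.pc s).c := rs_polar (G.pc s).c
        have e4 : d s.1 J (G.pc s).j = fres * ee (Θ s.1 J) * A s.1 J *
          ee ((G.pc s).j * (sJ κr δA δ J - pos s.1)) := rfl
        rw [e2, e4, ee_add (Θ s.1 J), ee_add (φ s), Complex.ofReal_mul]
        linear_combination (fres * PA.amp (G.pc s).j δ J *
          ee (PA.Ph ((G.pc s).j + ρ * (G.pc s).n) δ (J - ((G.pc s).l - ρ * (G.pc s).n)))) * e3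
      · rw [hmass]
        have h1 : 4 * (18 * η3) ^ 2 ≤ 1296 * η3 := by nlinarith
        have h2 : 2 * r1 ≤ 4 * r1 * (1 - PA.sh.mu) := by nlinarith
        rw [hmass] at c2
        linarith [mul_le_mul_of_nonneg_left h1 c0, mul_le_mul_of_nonneg_left h2 c0]
    rw [e1, Fam.vecL, map_sum, ← Finset.sum_sub_distrib]
    have e2 : ∀ s : G.ι, kp (hm PA m 0 0 δ (-1 / m.q))⁻¹ (if G.lab s = κ then (G.pc s).vec else 0) -
        (if G.lab s = κ then ∑ J ∈ W s, g s.1 J (G.pc s).j else 0) =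
        if G.lab s = κ then E1 (m.q * (G.pc s).j + m.p * (G.pc s).n)
          (m.a * (G.pc s).j + m.b * (G.pc s).n) fun w => ee (((-(G.pc s).j : ℤ) : ℝ) * w) *
          ((G.pc s).c * rsG PA ((G.pc s).j + ρ * (G.pc s).n) δ ((G.pc s).l - ρ * (G.pc s).n) w -
            ∑ J ∈ W s, d s.1 J (G.pc s).j * ee (J * w)) else 0 := by
      intro s
      split_ifs
      · exact rs_kp PA m hδ (G.pc s) rfl rfl (W s) fun J => d s.1 J (G.pc s).j
      · rw [map_zero, sub_zero]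
    rw [Finset.sum_congr rfl fun s _ => e2 s, ← Finset.sum_filter,
      norm_sq_sum_E1 _ _ _ (fun s _ => rs_bd _ _ _ _ _ _ _ _) (fun s _ s' _ h1 h2 => hmode ?_),
      Finset.sum_filter]
    swap
    · have hd := m.det
      refine Prod.ext ?_ ?_
      · change (G.pc s).j = (G.pc s').j
        linear_combination m.b * h1 - m.p * h2 - ((G.pc s).j - (G.pc s').j) * hd
      · change (G.pc s).n = (G.pc s').n
        linear_combination m.q * h2 - m.a * h1 - ((G.pc s).n - (G.pc s').n) * hd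
    have s1 : ∑ s : G.ι, ‖(G.pc s).c‖ ^ 2 ≤ Cs := by
      refine (Fintype.sum_sigma (fun s : Σ i : F.ι, ↥((F.pc i).win P r δA) =>
        ‖((F.pc s.1).kid P q δA PA.sh.mu s.2).c‖ ^ 2)).trans_le ?_
      rw [hCs]
      refine le_trans (Finset.sum_le_sum fun i _ => ?_) (le_add_of_nonneg_left zero_le_one)
      rw [Finset.sum_coe_sort ((F.pc i).win P r δA) fun j => ‖((F.pc i).kid P q δA PA.sh.mu j).c‖ ^ 2]
      exact (hC i δA PA.eps PA.sh.mu hA hA1 heps he1).1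
    have s2 : (∑ s : G.ι, if int s then 0 else ‖(G.pc s).c‖ ^ 2) ≤ Cs * δA := by
      refine (Fintype.sum_sigma (fun s : Σ i : F.ι, ↥((F.pc i).win P r δA) =>
        if P.tt (F.pc s.1).j ((F.pc s.1).a + r) ≤ (s.2 : ℤ) * δA * (1 - PA.eps) ∧
          (s.2 : ℤ) * δA / (1 - PA.eps) < P.tt (F.pc s.1).j ((F.pc s.1).b - r) then 0 else
          ‖((F.pc s.1).kid P q δA PA.sh.mu s.2).c‖ ^ 2)).trans_le ?_
      rw [hCs, add_mul, Finset.sum_mul]
      refine le_trans (Finset.sum_le_sum fun i _ => ?_) (le_add_of_nonneg_left (by positivity))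
      rw [Finset.sum_coe_sort ((F.pc i).win P r δA) fun j : ℤ =>
        if P.tt (F.pc i).j ((F.pc i).a + r) ≤ j * δA * (1 - PA.eps) ∧
          j * δA / (1 - PA.eps) < P.tt (F.pc i).j ((F.pc i).b - r) then 0 else
          ‖((F.pc i).kid P q δA PA.sh.mu j).c‖ ^ 2]
      exact (hC i δA PA.eps PA.sh.mu hA hA1 heps he1).2
    have s3 : 0 ≤ G.Phi := Finset.sum_nonneg fun s _ => by
      rw [hmass]; have : 0 ≤ 1 - PA.sh.mu := by linarith
      positivity
    calc _ ≤ ∑ s : G.ι, (4 * r1 * (if G.lab s = κ then (G.pc s).mass else 0) +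
          1301 * η3 * ‖(G.pc s).c‖ ^ 2 +
          19 * ((G.pc s).mass * ((Finset.univ.filter fun s' => (G.pc s).Partner (G.pc s')).card : ℝ)) +
          19 * if int s then 0 else ‖(G.pc s).c‖ ^ 2) := by
          refine Finset.sum_le_sum fun s _ => ?_
          by_cases h : G.lab s = κ
          · rw [if_pos h, if_pos h]
            refine le_trans (le_of_eq (nsq_congr fun w _ => ?_)) (hbound s)
            rw [norm_mul, norm_ee, one_mul]
          · rw [if_neg h, if_neg h, hmass]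
            have : 0 ≤ 1 - PA.sh.mu := by linarith
            positivity
      _ = 4 * r1 * G.massL κ + 1301 * η3 * ∑ s : G.ι, ‖(G.pc s).c‖ ^ 2 + 19 * G.Phi +
          19 * ∑ s : G.ι, if int s then 0 else ‖(G.pc s).c‖ ^ 2 := by
          simp only [Finset.sum_add_distrib, ← Finset.mul_sum]
          rfl
      _ ≤ _ := by
          have := mul_le_mul_of_nonneg_left s1 (show 0 ≤ 1301 * η3 by positivity)
          linarith
  · rintro ⟨i, J, hJ⟩ ⟨i', J', hJ'⟩ h1 h2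
    obtain rfl : i = i' := h1
    obtain rfl : J = J' := h2
    rfl
  · have h1 : (0 : ℝ) < ((f.2 : ℤ) : ℝ) := pos_of_mul_pos_left (hw _ _ f.2.2).1 hδ.le
    exact Real.sq_sqrt (div_nonneg (Pc.dens_nonneg (hV _) _) (by positivity))
  · have e : MB.poly ⟨Σ i : F.ι, ↥(kept i), inferInstance, fun f => f.2, fun f => N f.1,
        fun f => Finset.Ioc (u f.2) (v f.2), fun f j => d f.1 f.2 j, fun f => F.lab f.1⟩ f z =
        fres * ee (Θ f.1 f.2) * A f.1 f.2 * ∑ j ∈ Finset.Ioc (u f.2) (v f.2),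
          ee (j * (z + sJ κr δA δ f.2 - pos f.1)) := by
      rw [Finset.mul_sum]
      refine Finset.sum_congr rfl fun j _ => ?_
      simp only [d]
      rw [mul_assoc _ (ee _) (ee _), ← ee_add]
      congr 2
      ring
    rw [e]
    simp only [norm_mul, norm_fres, norm_ee, one_mul, Complex.norm_real, mul_pow, Real.norm_eq_abs,
      sq_abs]

end Crest.Agent.R081
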