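import Crest.Agent.R081.DSB
import Crest.Agent.R081.CS

/-! Auxiliary estimates for the step with free phases. -/

set_option autoImplicit false

namespace Crest.Agent.R081

open MeasureTheory Set Filter Topology Crest.AnalysisR.Torus3 Crest.Agent.R210 Crest.Agent.R075

variable {Λ : Type}

/-- The common rotation of the arcs. -/
noncomputable def sJ (κr δA δ : ℝ) (J : ℤ) : ℝ := (Real.log (J * δ / δA) + 1) / (δ * κr)

/-- The oscillating function of an atom. -/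
noncomputable def rsG (PA : Prof) (lam δ l : ℝ) : ℝ → ℂ :=
  (Ico 0 (1 - PA.sh.mu)).indicator fun w => ee (lam * PA.AA w / δ + l * w)

theorem rs_bd_G (PA : Prof) (lam δ l : ℝ) : Bd (rsG PA lam δ l) := by
  have := PA.AA_contDiff.continuous
  exact (Bd.ee (by fun_prop)).indicator measurableSet_Ico

theorem rs_bd (PA : Prof) (lam δ l : ℝ) (j : ℤ) (c : ℂ) (W : Finset ℤ) (d : ℤ → ℂ) :
    Bd fun w => ee (((-j : ℤ) : ℝ) * w) * (c * rsG PA lam δ l w - ∑ J ∈ W, d J * ee (J * w)) :=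
  (dsb_bd_lin _).mul (((Bd.const _).mul (rs_bd_G _ _ _ _)).sub (dsb_bd_S _ _))

theorem rs_kp (PA : Prof) (m : Mat) {δ : ℝ} (hδ : 0 < δ) (k : Pc) (ha : k.a = 0)
    (hb : k.b = 1 - PA.sh.mu) (W : Finset ℤ) (d : ℤ → ℂ) :
    kp (hm PA m 0 0 δ (-1 / m.q))⁻¹ k.vec - ∑ J ∈ W, d J • EE (J - k.j) (m.q * k.j + m.p * k.n)
      (fun w => ee (((m.a * k.j + m.b * k.n : ℤ) : ℝ) * w)) =
      E1 (m.q * k.j + m.p * k.n) (m.a * k.j + m.b * k.n) fun w => ee (((-k.j : ℤ) : ℝ) * w) *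
        (k.c * rsG PA (k.j + (m.p : ℝ) / m.q * k.n) δ (k.l - (m.p : ℝ) / m.q * k.n) w -
          ∑ J ∈ W, d J * ee (J * w)) := by
  have hq : (m.q : ℝ) ≠ 0 := by exact_mod_cast m.qpos.ne'
  have e1 : kp (hm PA m 0 0 δ (-1 / m.q))⁻¹ k.vec =
      E1 (m.q * k.j + m.p * k.n) (m.a * k.j + m.b * k.n) fun w => ee (((-k.j : ℤ) : ℝ) * w) *
        (k.c * rsG PA (k.j + (m.p : ℝ) / m.q * k.n) δ (k.l - (m.p : ℝ) / m.q * k.n) w) := by
    rw [Pc.vec, kp_hm_inv_EE _ _ _ _ _ _ _ _ k.bd]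
    congr 1
    funext w
    by_cases hw : w ∈ Ico 0 (1 - PA.sh.mu)
    · rw [Pc.fn, ha, hb, rsG, indicator_of_mem hw, indicator_of_mem hw,
        PA.Afn_eq _ _ _ ⟨hw.1, hw.2.le⟩, mul_zero, ee_zero, one_mul, mul_assoc, ← ee_add,
        mul_left_comm, ← ee_add]
      congr 2
      push_cast
      field_simp
      ring
    · rw [Pc.fn, ha, hb, rsG, indicator_of_notMem hw, indicator_of_notMem hw]
      simp
  have e2 : ∑ J ∈ W, d J • EE (J - k.j) (m.q * k.j + m.p * k.n)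
      (fun w => ee (((m.a * k.j + m.b * k.n : ℤ) : ℝ) * w)) =
      E1 (m.q * k.j + m.p * k.n) (m.a * k.j + m.b * k.n) fun w => ee (((-k.j : ℤ) : ℝ) * w) *
        ∑ J ∈ W, d J * ee (J * w) := by
    simp only [Finset.mul_sum]
    rw [E1_sum _ _ _ fun J _ => (dsb_bd_lin _).mul ((Bd.const _).mul (dsb_bd_lin _))]
    refine Finset.sum_congr rfl fun J _ => ?_
    rw [← E1_ee, ← E1_const_mul _ _ _ (dsb_bd_lin _)]
    congr 1
    funext w
    rw [mul_left_comm, ← ee_add]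
    congr 2
    push_cast
    ring
  rw [e1, e2, ← E1_sub _ _ ((dsb_bd_lin _).mul ((Bd.const _).mul (rs_bd_G _ _ _ _)))
    ((dsb_bd_lin _).mul (dsb_bd_S _ _))]
  congr 1
  funext w
  ring

theorem rs_log {x : ℝ} (hx : |x| ≤ 1 / 2) : |x + Real.log (1 - x)| ≤ 2 * x ^ 2 := by
  have h := Real.abs_log_sub_add_sum_range_le (x := x) (by linarith) 1
  simp only [Finset.range_one, Finset.sum_singleton, zero_add, pow_one, Nat.cast_zero, div_one,
    Nat.reduceAdd, sq_abs] at h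
  refine h.trans ?_
  rw [div_le_iff₀ (by linarith)]
  nlinarith [sq_nonneg x]

theorem rs_ph {PA : Prof} {δA κr δ : ℝ} {SA : Shape} (hP : PA.Is δA κr SA) (hδ : 0 < δ)
    {j lam l : ℝ} {J : ℤ} (hj : 0 < j) (h1 : j ≤ lam) (h2 : lam ≤ j * (1 + PA.eps))
    (hJ1 : j * δA ≤ J * δ) (hJ2 : J * δ * (1 - PA.eps) ≤ j * δA) (hl : 2 * |l| ≤ J) :
    |PA.Ph lam δ (J - l) - (-(1 / (δ * κr)) * (lam * Real.log lam) - l / PA.eps * Real.log lam +
      lam * sJ κr δA δ J - J / PA.eps + l / PA.eps * Real.log (J * δ / δA))| ≤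
      2 * |l| * PA.eps + 4 * l ^ 2 / (PA.eps * J) := by
  obtain ⟨ha0, heps, -⟩ := hP
  have hA : 0 < δA := ha0 ▸ PA.a0_pos
  have he := PA.eps_pos
  have he1 := PA.eps_le
  have hκ : 0 < κr := pos_of_mul_pos_left (heps ▸ he) hA.le
  have hJδ : 0 < (J : ℝ) * δ := (mul_pos hj hA).trans_le hJ1
  have hJ : (0 : ℝ) < J := pos_of_mul_pos_left hJδ hδ.le
  have hlam : 0 < lam := hj.trans_le h1
  set Y : ℝ := lam * δA / (J * δ) with hY
  have hY1 : 1 - PA.eps ≤ Y := by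
    rw [hY, le_div_iff₀ hJδ]; nlinarith [mul_le_mul_of_nonneg_right h1 hA.le]
  have hY2 : Y ≤ 1 + PA.eps := by
    rw [hY, div_le_iff₀ hJδ]
    nlinarith [mul_le_mul_of_nonneg_right h2 hA.le, mul_le_mul_of_nonneg_right hJ1 he.le]
  have hx : |l / J| ≤ 1 / 2 := by
    rw [abs_div, abs_of_pos hJ, div_le_iff₀ hJ]; linarith
  have hx' : 0 < 1 - l / J := by linarith [(abs_le.mp hx).2]
  have e1 : Real.log Y = Real.log lam - Real.log (J * δ / δA) := by
    rw [← Real.log_div hlam.ne' (by positivity), hY]; congr 1; field_simp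
  have e2 : Real.log (lam * PA.a0 / ((J - l) * δ)) =
      Real.log lam - Real.log (J * δ / δA) - Real.log (1 - l / J) := by
    rw [← e1, ← Real.log_div (by positivity) hx'.ne', hY, ha0]
    congr 1
    have : (J : ℝ) - l ≠ 0 := by
      have : (J : ℝ) - l = J * (1 - l / J) := by field_simp
      rw [this]; positivity
    field_simp
  have e3 : PA.Ph lam δ (J - l) - (-(1 / (δ * κr)) * (lam * Real.log lam) -
      l / PA.eps * Real.log lam + lam * sJ κr δA δ J - J / PA.eps +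
      l / PA.eps * Real.log (J * δ / δA)) =
      l / PA.eps * ((1 - Y) + Real.log (1 - (1 - Y))) +
        Y * J / PA.eps * (l / J + Real.log (1 - l / J)) := by
    rw [sub_sub_cancel, e1, Prof.Ph, e2, sJ, hY, ha0, heps]
    field_simp
    ring
  rw [e3]
  have b1 := rs_log (x := 1 - Y) (abs_le.mpr ⟨by linarith, by linarith⟩)
  have b2 := rs_log hx
  have b3 : (1 - Y) ^ 2 ≤ PA.eps ^ 2 := sq_le_sq' (by linarith) (by linarith)
  have hY0 : 0 ≤ Y := by linarith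
  refine (abs_add_le _ _).trans (add_le_add ?_ ?_)
  · rw [abs_mul, abs_div, abs_of_pos he]
    calc |l| / PA.eps * |1 - Y + Real.log (1 - (1 - Y))| ≤ |l| / PA.eps * (2 * PA.eps ^ 2) := by
          gcongr; linarith
      _ = _ := by field_simp
  · rw [abs_mul, abs_of_nonneg (by positivity : 0 ≤ Y * J / PA.eps)]
    calc Y * J / PA.eps * |l / J + Real.log (1 - l / J)| ≤ 2 * J / PA.eps * (2 * (l / J) ^ 2) := by
          gcongr; linarith
      _ = _ := by field_simp; ring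

theorem rs_atom (PA : Prof) {r1 η : ℝ} (hr : 0 < r1) (hr' : r1 ≤ 1 / 4) (hη : 0 < η)
    (hη1 : η ≤ 1 / 2) {j : ℤ} (hj : 1 ≤ j) {lam : ℝ} (l : ℝ)
    (hlam : |lam - j| ≤ j * min (PA.eps * r1 / 2) η) :
    ∀ᶠ δ in 𝓝[>] (0 : ℝ), ∀ W ⊆ PA.winB r1 δ j, ∀ (c : ℂ) (d : ℤ → ℂ),
      (∀ J ∈ W, ‖d J‖ ≤ ‖c‖ * PA.amp j δ J) →
      nsq (fun w => c * rsG PA lam δ l w - ∑ J ∈ W, d J * ee (J * w)) ≤
        ‖c‖ ^ 2 * (19 * (1 - PA.sh.mu)) ∧
      ∀ ξ : ℝ, (c ≠ 0 → W = PA.winB r1 δ j ∧ ∀ J ∈ W, ‖d J - c * (fres * PA.amp j δ J *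
        ee (PA.Ph lam δ (J - l)))‖ ≤ ξ * (‖c‖ * PA.amp j δ J)) →
        nsq (fun w => c * rsG PA lam δ l w - ∑ J ∈ W, d J * ee (J * w)) ≤
          ‖c‖ ^ 2 * (2 * r1 + 5 * η + 4 * ξ ^ 2) := by
  have hj' : (0 : ℝ) < j := by exact_mod_cast (by omega : 0 < j)
  have h1 := PA.sh.mu_pos
  have h2 := PA.sh.mu_le
  filter_upwards [core PA (a := 0) (b := 1 - PA.sh.mu) (ν := j) (lam := lam) (l := l) le_rfl
    (by linarith) le_rfl hj' hr hη hη1 hlam, dsb_amp_sum PA hr hr' hη hj] with δ hc ha W hW c d hd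
  by_cases hc0 : c = 0
  · have : (fun w => c * rsG PA lam δ l w - ∑ J ∈ W, d J * ee (J * w)) = fun w => 0 * 0 := by
      funext w
      rw [Finset.sum_eq_zero fun J hJ => ?_]
      · simp [hc0]
      · have := hd J hJ
        rw [hc0, norm_zero, zero_mul, norm_le_zero_iff] at this
        simp [this]
    rw [this, nsq_const_mul]
    simp [hc0]
  have hcn : 0 < ‖c‖ := norm_pos_iff.mpr hc0
  have e : (fun w => c * rsG PA lam δ l w - ∑ J ∈ W, d J * ee (J * w)) =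
      fun w => c * (rsG PA lam δ l w - ∑ J ∈ W, d J / c * ee (J * w)) := by
    funext w
    rw [mul_sub, Finset.mul_sum]
    congr 1
    refine Finset.sum_congr rfl fun J _ => ?_
    field_simp
  rw [e, nsq_const_mul]
  have h3 := hc W (by rw [zero_add]; exact hW) fun J => d J / c
  obtain ⟨h4, h5⟩ := abs_le.mp ha
  have h6 : ∑ J ∈ W, PA.amp j δ J ^ 2 ≤ ∑ J ∈ PA.winB r1 δ j, PA.amp j δ J ^ 2 :=
    Finset.sum_le_sum_of_subset_of_nonneg hW fun _ _ _ => sq_nonneg _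
  have hgen : ∀ ξ : ℝ, (∀ J ∈ W, ‖d J - c * (fres * PA.amp j δ J *
      ee (PA.Ph lam δ (J - l)))‖ ≤ ξ * (‖c‖ * PA.amp j δ J)) →
      ∑ J ∈ W, ‖d J / c - fres * PA.amp j δ J * ee (PA.Ph lam δ (J - l))‖ ^ 2 ≤
        ξ ^ 2 * ∑ J ∈ W, PA.amp j δ J ^ 2 := by
    intro ξ h
    rw [Finset.mul_sum]
    refine Finset.sum_le_sum fun J hJ => ?_
    rw [← mul_pow]
    refine pow_le_pow_left₀ (norm_nonneg _) ?_ 2
    have : d J / c - fres * PA.amp j δ J * ee (PA.Ph lam δ (J - l)) =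
        (d J - c * (fres * PA.amp j δ J * ee (PA.Ph lam δ (J - l)))) / c := by field_simp
    rw [this, norm_div, div_le_iff₀ hcn]
    linarith [h J hJ]
  have h7 : 0 ≤ ∑ J ∈ W, PA.amp j δ J ^ 2 := Finset.sum_nonneg fun _ _ => sq_nonneg _
  refine ⟨mul_le_mul_of_nonneg_left (h3.trans ?_) (sq_nonneg _), fun ξ hξ =>
    mul_le_mul_of_nonneg_left (h3.trans ?_) (sq_nonneg _)⟩
  · have := hgen 2 fun J hJ => by
      refine (norm_sub_le _ _).trans ?_
      have h8 : 0 ≤ PA.amp j δ J := Real.sqrt_nonneg _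
      rw [norm_mul, norm_mul, norm_mul, norm_fres, norm_ee, Complex.norm_real, Real.norm_of_nonneg h8]
      linarith [hd J hJ]
    nlinarith
  · obtain ⟨h8, h9⟩ := hξ hc0
    have := hgen ξ h9
    rw [← h8] at h4 h5
    have h10 : ξ ^ 2 * ∑ J ∈ W, PA.amp j δ J ^ 2 ≤ ξ ^ 2 * 2 :=
      mul_le_mul_of_nonneg_left (by linarith) (sq_nonneg _)
    linarith

/-- The set of stage A modes merged into `J`. -/
theorem rs_mem_V {PA : Prof} {r1 δ : ℝ} (hr : 0 < r1) (hr' : r1 ≤ 1 / 4) (hδ : 0 < δ) (j J : ℤ) :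
    j ∈ Finset.Ioc ⌊J * δ * (1 - PA.eps * (1 - PA.sh.mu - r1)) / PA.a0⌋
      ⌊J * δ * (1 - PA.eps * r1) / PA.a0⌋ ↔ J ∈ PA.winB r1 δ j := by
  have h1 := PA.sh.mu_pos
  have h2 := PA.sh.mu_le
  have ha := PA.a0_pos
  rw [Prof.winB, mem_Wi hδ, Finset.mem_Ioc, Int.floor_lt, Int.le_floor, Prof.tt, Prof.tt,
    div_lt_iff₀ ha, le_div_iff₀ ha, div_le_iff₀ (PA.prof_den (by linarith)),
    lt_div_iff₀ (PA.prof_den (by linarith)), and_comm]

theorem rs_card_V {PA : Prof} {δA κr : ℝ} {SA : Shape} (hP : PA.Is δA κr SA) {r1 δ : ℝ}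
    (hr : 0 < r1) (hr' : r1 ≤ 1 / 4) {J : ℤ} (hJ : 0 ≤ (J : ℝ) * δ) :
    ((Finset.Ioc ⌊J * δ * (1 - PA.eps * (1 - PA.sh.mu - r1)) / PA.a0⌋
      ⌊J * δ * (1 - PA.eps * r1) / PA.a0⌋).card : ℝ) ≤ κr * (J * δ) + 1 := by
  obtain ⟨ha0, heps, -⟩ := hP
  have h1 := PA.sh.mu_pos
  have h2 := PA.sh.mu_le
  have ha := PA.a0_pos
  have he := PA.eps_pos
  have hκ : 0 < κr := pos_of_mul_pos_left (heps ▸ he) (ha0 ▸ ha).le
  set x := J * δ * (1 - PA.eps * (1 - PA.sh.mu - r1)) / PA.a0 with hx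
  set y := J * δ * (1 - PA.eps * r1) / PA.a0 with hy
  have e : y - x = κr * (J * δ) * (1 - PA.sh.mu - 2 * r1) := by
    rw [hx, hy, heps, ← ha0]; field_simp; ring
  have h3 : 0 ≤ κr * (J * δ) := by positivity
  have hxy : x ≤ y := by nlinarith
  have h4 : ((Finset.Ioc ⌊x⌋ ⌊y⌋).card : ℝ) = ⌊y⌋ - ⌊x⌋ := by
    exact_mod_cast Int.card_Ioc_of_le _ _ (Int.floor_mono hxy)
  rw [h4]
  nlinarith [Int.floor_le y, Int.lt_floor_add_one x]

theorem rs_dens_le {P : Prof} {p : Pc} (hp : p.Valid P) (t : ℝ) :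
    p.dens P t ≤ ‖p.c‖ ^ 2 / (P.eps * P.a0) := by
  have ha := P.a0_pos
  have he := P.eps_pos
  have hj : (1 : ℝ) ≤ p.j := by exact_mod_cast hp.1
  unfold Pc.dens
  by_cases h : t ∈ Ico (P.tt p.j p.a) (P.tt p.j p.b)
  · rw [indicator_of_mem h]
    have h1 : p.j * P.a0 ≤ t :=
      (P.tt_ge (by linarith) hp.2.1 (by linarith [hp.2.2.1, cs_b_le hp])).1.trans h.1
    have h2 : P.a0 ≤ p.j * P.a0 := by nlinarith
    have h3 : 0 < t := by linarith
    rw [div_le_div_iff₀ (by positivity) (by positivity)]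
    have : p.j * P.a0 * P.a0 ≤ t * t := mul_le_mul h1 (h2.trans h1) ha.le h3.le
    nlinarith [mul_le_mul_of_nonneg_left this (show 0 ≤ ‖p.c‖ ^ 2 * P.eps by positivity)]
  · rw [indicator_of_notMem h]; positivity

open Classical in
/-- Total mass of the atoms and of the atoms near the ends of the windows. -/
theorem rs_count {P : Prof} {p : Pc} (hp : p.Valid P) {r : ℝ} (hr : 0 < r) (hr' : p.a + r ≤ p.b - r)
    (q : ℕ) {κr : ℝ} (hκ : 0 < κr) : ∃ C : ℝ, 0 ≤ C ∧ ∀ δA ε mu : ℝ, 0 < δA → δA ≤ 1 → ε = κr * δA →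
      ε ≤ 1 / 2 → ∑ j ∈ p.win P r δA, ‖(p.kid P q δA mu j).c‖ ^ 2 ≤ C ∧
      ∑ j ∈ p.win P r δA, (if P.tt p.j (p.a + r) ≤ j * δA * (1 - ε) ∧
        j * δA / (1 - ε) < P.tt p.j (p.b - r) then 0 else ‖(p.kid P q δA mu j).c‖ ^ 2) ≤ C * δA := by
  have ha := P.a0_pos
  have he := P.eps_pos
  have hν := cs_j_pos hp
  have hb := cs_b_le hp
  set lo := P.tt p.j (p.a + r) with hlo
  set hi := P.tt p.j (p.b - r) with hhi
  have hlo0 : 0 < lo := P.tt_pos hν (by linarith)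
  have hlh : lo ≤ hi := P.tt_le_tt hν hr' (by linarith)
  set D := ‖p.c‖ ^ 2 / (P.eps * P.a0) with hD
  have hD0 : 0 ≤ D := by positivity
  refine ⟨D * (hi + 1) + D * (3 * κr * hi + 2), by have := hlo0.le.trans hlh; positivity,
    fun δA ε mu h0 h1 hε hε1 => ?_⟩
  have hε0 : 0 < ε := by rw [hε]; positivity
  have hk : ∀ j ∈ p.win P r δA, ‖(p.kid P q δA mu j).c‖ ^ 2 ≤ δA * D := fun j hj => by
    rw [Pc.norm_kid_sq hp hr hr' h0 q mu hj]
    exact mul_le_mul_of_nonneg_left (rs_dens_le hp _) h0.le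
  have n1 : 0 ≤ D * (hi + 1) := by have := hlo0.le.trans hlh; positivity
  have n2 : 0 ≤ D * (3 * κr * hi + 2) := by have := hlo0.le.trans hlh; positivity
  constructor
  · refine (Finset.sum_le_card_nsmul _ _ _ hk).trans ?_
    rw [nsmul_eq_mul]
    have h2 : ((p.win P r δA).card : ℝ) ≤ (hi - lo) / δA + 1 := card_Wi_le h0 hlh
    calc ((p.win P r δA).card : ℝ) * (δA * D) ≤ ((hi - lo) / δA + 1) * (δA * D) := by gcongr
      _ = D * (hi - lo + δA) := by field_simp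
      _ ≤ D * (hi + 1) := mul_le_mul_of_nonneg_left (by linarith) hD0
      _ ≤ _ := by linarith
  · rw [Finset.sum_ite, Finset.sum_const_zero, zero_add]
    refine (Finset.sum_le_card_nsmul _ _ _ fun j hj => hk j (Finset.mem_filter.mp hj).1).trans ?_
    rw [nsmul_eq_mul]
    have hsub : (p.win P r δA).filter (fun j : ℤ => ¬(lo ≤ j * δA * (1 - ε) ∧
        j * δA / (1 - ε) < hi)) ⊆ Wi lo (lo * (1 + 2 * ε)) δA ∪ Wi (hi * (1 - ε)) hi δA := by
      intro j hj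
      obtain ⟨h2, h3⟩ := Finset.mem_filter.mp hj
      obtain ⟨h4, h5⟩ := (mem_Wi h0).mp h2
      rw [Finset.mem_union, mem_Wi h0, mem_Wi h0]
      rw [not_and_or, not_le, not_lt, le_div_iff₀ (by linarith)] at h3
      rcases h3 with h3 | h3
      · refine Or.inl ⟨h4, ?_⟩
        have h6 : 0 < (j : ℝ) * δA := hlo0.trans_le h4
        have h7 : 1 ≤ (1 - ε) * (1 + 2 * ε) := by nlinarith
        nlinarith [mul_lt_mul_of_pos_right h3 (show 0 < 1 + 2 * ε by linarith),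
          mul_le_mul_of_nonneg_left h7 h6.le]
      · exact Or.inr ⟨h3, h5⟩
    have h2 := card_Wi_le h0 (show lo ≤ lo * (1 + 2 * ε) by nlinarith)
    have h3 := card_Wi_le h0 (show hi * (1 - ε) ≤ hi by nlinarith)
    have h4 : (lo * (1 + 2 * ε) - lo) / δA = 2 * κr * lo := by rw [hε]; field_simp; ring
    have h5 : (hi - hi * (1 - ε)) / δA = κr * hi := by rw [hε]; field_simp; ring
    have h6 : (((p.win P r δA).filter (fun j : ℤ => ¬(lo ≤ j * δA * (1 - ε) ∧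
        j * δA / (1 - ε) < hi))).card : ℝ) ≤ 3 * κr * hi + 2 := by
      have h7 := (Finset.card_le_card hsub).trans (Finset.card_union_le _ _)
      have h8 : (((p.win P r δA).filter (fun j : ℤ => ¬(lo ≤ j * δA * (1 - ε) ∧
        j * δA / (1 - ε) < hi))).card : ℝ) ≤ (Wi lo (lo * (1 + 2 * ε)) δA).card +
          (Wi (hi * (1 - ε)) hi δA).card := by exact_mod_cast h7
      nlinarith [mul_le_mul_of_nonneg_left hlh hκ.le]
    calc _ ≤ (3 * κr * hi + 2) * (δA * D) := by gcongr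
      _ = D * (3 * κr * hi + 2) * δA := by ring
      _ ≤ _ := mul_le_mul_of_nonneg_right (by linarith) h0.le

end Crest.Agent.R081
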