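import Crest.Agent.R081.Hilb

/-! Decomposition of base vectors into base pieces. -/

set_option autoImplicit false

namespace Crest.Agent.R081

open MeasureTheory Set Filter Topology Crest.AnalysisR.Torus3 Crest.Agent.R210 Crest.Agent.R075
open scoped InnerProductSpace ComplexConjugate

theorem mem_KS {P : Prof} {Ξ : Finset (ℤ × ℤ)} {N : ℕ} (hN : 1 ≤ N) {κ : (ℤ × ℤ) × ℤ} :
    κ ∈ KS P Ξ N ↔ κ.1 ∈ Ξ ∧ P.tt κ.1.1 0 ≤ κ.2 / (2 * N) ∧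
      (κ.2 + 1 : ℝ) / (2 * N) ≤ P.tt κ.1.1 (1 - P.sh.mu) := by
  have hN' : (0 : ℝ) < 2 * N := by
    have : (1 : ℝ) ≤ N := by exact_mod_cast hN
    linarith
  obtain ⟨ξ, ν⟩ := κ
  simp only [KS, Finset.mem_biUnion, Finset.mem_image, Finset.mem_Icc, Prod.mk.injEq]
  rw [le_div_iff₀ hN', div_le_iff₀ hN']
  constructor
  · rintro ⟨ξ', h1, ν', ⟨h2, h3⟩, rfl, rfl⟩
    refine ⟨h1, ?_, ?_⟩
    · rw [Int.ceil_le] at h2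
      linarith
    · have h4 : ν' + 1 ≤ ⌊2 * N * P.tt ξ'.1 (1 - P.sh.mu)⌋ := by omega
      rw [Int.le_floor] at h4
      push_cast at h4
      linarith
  · rintro ⟨h1, h2, h3⟩
    refine ⟨ξ, h1, ν, ⟨?_, ?_⟩, rfl, rfl⟩
    · rw [Int.ceil_le]
      linarith
    · have h4 : ν + 1 ≤ ⌊2 * N * P.tt ξ.1 (1 - P.sh.mu)⌋ := by
        rw [Int.le_floor]
        push_cast
        linarith
      omega

theorem dec_tt_zero (P : Prof) (lam : ℝ) : P.tt lam 0 = lam * P.a0 := by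
  simp [Prof.tt]

theorem dec_tt_le (P : Prof) {lam : ℝ} (hl : 0 < lam) :
    P.tt lam (1 - P.sh.mu) ≤ 2 * lam * P.a0 := by
  have h1 := P.sh.mu_pos
  have h2 := P.sh.mu_le
  have h3 := (P.tt_ge hl (w := 1 - P.sh.mu) (by linarith) (by linarith)).2
  have h4 := P.eps_le
  have h5 := mul_pos hl P.a0_pos
  refine h3.trans ?_
  rw [div_le_iff₀ (by linarith)]
  nlinarith

theorem KS_bounds {P : Prof} {Ξ : Finset (ℤ × ℤ)} (hΞ : ∀ ξ ∈ Ξ, 1 ≤ ξ.1) {N : ℕ} (hN : 1 ≤ N)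
    {κ : (ℤ × ℤ) × ℤ} (hκ : κ ∈ KS P Ξ N) :
    P.a0 ≤ κ.2 / (2 * N) ∧ (κ.2 + 1 : ℝ) / (2 * N) ≤ 2 * κ.1.1 * P.a0 := by
  obtain ⟨h1, h2, h3⟩ := (mem_KS hN).1 hκ
  have hl : (1 : ℝ) ≤ κ.1.1 := by exact_mod_cast hΞ _ h1
  rw [dec_tt_zero] at h2
  have h4 := P.a0_pos
  exact ⟨by nlinarith, h3.trans (dec_tt_le P (by linarith))⟩

/-- The difference of two values of `ws`. -/
theorem dec_ws_sub (P : Prof) (lam : ℝ) {t t' : ℝ} (ht : 0 < t) (ht' : 0 < t') :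
    P.ws lam t' - P.ws lam t = lam * P.a0 * (t' - t) / (P.eps * t * t') := by
  have := P.eps_pos
  unfold Prof.ws
  field_simp
  ring

theorem dec_ws_le (P : Prof) {lam t t' : ℝ} (hl : 0 < lam) (ht : 0 < t) (h : t ≤ t') :
    P.ws lam t ≤ P.ws lam t' := by
  have h1 := P.eps_pos
  have h2 := P.a0_pos
  have h3 : 0 < t' := by linarith
  have h4 : 0 ≤ t' - t := by linarith
  rw [← sub_nonneg, dec_ws_sub P lam ht h3]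
  positivity

theorem dec_ws_lt (P : Prof) {lam t t' : ℝ} (hl : 0 < lam) (ht : 0 < t) (h : t < t') :
    P.ws lam t < P.ws lam t' := by
  have h1 := P.eps_pos
  have h2 := P.a0_pos
  have h3 : 0 < t' := by linarith
  have h4 : 0 < t' - t := by linarith
  rw [← sub_pos, dec_ws_sub P lam ht h3]
  positivity

/-- `ws` is Lipschitz on the frequency range. -/
theorem dec_ws_lip (P : Prof) {lam t t' : ℝ} (hl : 1 ≤ lam) (ht : lam * P.a0 ≤ t) (h : t ≤ t') :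
    P.ws lam t' - P.ws lam t ≤ (t' - t) / (P.eps * P.a0) := by
  have h1 := P.eps_pos
  have h2 := P.a0_pos
  have h5 : P.a0 ≤ t := by nlinarith
  have h0 : 0 < t := by linarith
  have h3 : 0 < t' := by linarith
  have h4 : 0 ≤ t' - t := by linarith
  rw [dec_ws_sub P lam h0 h3, div_le_div_iff₀ (by positivity) (by positivity)]
  have h6 : lam * P.a0 * P.a0 ≤ t * t' := mul_le_mul ht (by linarith) h2.le h0.le
  have h7 : 0 ≤ (t' - t) * P.eps := by positivity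
  nlinarith [mul_le_mul_of_nonneg_left h6 h7]

/-- The basic facts on a base interval. -/
theorem dec_basic {P : Prof} {Ξ : Finset (ℤ × ℤ)} (hΞ : ∀ ξ ∈ Ξ, 1 ≤ ξ.1) {N : ℕ} (hN : 1 ≤ N)
    {μ0 : ℝ} (h0 : 0 < μ0) (h1 : μ0 ≤ 1 / 4) {κ : (ℤ × ℤ) × ℤ} (hκ : κ ∈ KS P Ξ N) :
    (1 : ℝ) ≤ κ.1.1 ∧ κ.1.1 * P.a0 ≤ (κ.2 : ℝ) / (2 * N) ∧
      (κ.2 : ℝ) / (2 * N) < (κ.2 + μ0) / (2 * N) ∧
      ((κ.2 : ℝ) + μ0) / (2 * N) < (κ.2 + 1 - μ0) / (2 * N) ∧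
      ((κ.2 : ℝ) + 1 - μ0) / (2 * N) < (κ.2 + 1) / (2 * N) ∧
      0 ≤ ua P N μ0 κ ∧ ua P N μ0 κ < ub P N μ0 κ ∧ ub P N μ0 κ ≤ 1 - P.sh.mu := by
  obtain ⟨g1, g2, g3⟩ := (mem_KS hN).1 hκ
  have hl : (1 : ℝ) ≤ κ.1.1 := by exact_mod_cast hΞ _ g1
  have hN' : (0 : ℝ) < 2 * N := by
    have : (1 : ℝ) ≤ N := by exact_mod_cast hN
    linarith
  have a1 : (κ.2 : ℝ) / (2 * N) < (κ.2 + μ0) / (2 * N) :=
    div_lt_div_of_pos_right (by linarith) hN'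
  have a2 : ((κ.2 : ℝ) + μ0) / (2 * N) < (κ.2 + 1 - μ0) / (2 * N) :=
    div_lt_div_of_pos_right (by linarith) hN'
  have a3 : ((κ.2 : ℝ) + 1 - μ0) / (2 * N) < (κ.2 + 1) / (2 * N) :=
    div_lt_div_of_pos_right (by linarith) hN'
  have g2' := g2
  rw [dec_tt_zero] at g2'
  have hp : 0 < (κ.1.1 : ℝ) * P.a0 := mul_pos (by linarith) P.a0_pos
  have hmu := P.sh.mu_pos
  refine ⟨hl, g2', a1, a2, a3, ?_, ?_, ?_⟩
  · exact (P.tt_le_iff (by linarith) zero_le_one (by linarith)).1 (g2.trans a1.le)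
  · exact dec_ws_lt P (by linarith) (by linarith) a2
  · exact ((P.lt_tt_iff (by linarith) (by linarith) (by linarith)).1 (a3.trans_le g3)).le

/-- Base intervals of the same mode are ordered. -/
theorem dec_ub_le_ua {P : Prof} {Ξ : Finset (ℤ × ℤ)} (hΞ : ∀ ξ ∈ Ξ, 1 ≤ ξ.1) {N : ℕ} (hN : 1 ≤ N)
    {μ0 : ℝ} (h0 : 0 < μ0) (h1 : μ0 ≤ 1 / 4) {κ κ' : (ℤ × ℤ) × ℤ} (hκ : κ ∈ KS P Ξ N)
    (h : κ.1.1 = κ'.1.1) (hlt : κ.2 < κ'.2) : ub P N μ0 κ ≤ ua P N μ0 κ' := by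
  obtain ⟨hl, a0, a1, a2, a3, -⟩ := dec_basic hΞ hN h0 h1 hκ
  have hN' : (0 : ℝ) < 2 * N := by
    have : (1 : ℝ) ≤ N := by exact_mod_cast hN
    linarith
  have hp : 0 < (κ.1.1 : ℝ) * P.a0 := mul_pos (by linarith) P.a0_pos
  have h2 : (κ.2 : ℝ) + 1 ≤ κ'.2 := by exact_mod_cast hlt
  unfold ua ub
  rw [← h]
  exact dec_ws_le P (by linarith) (by linarith)
    (div_le_div_of_nonneg_right (by linarith) hN'.le)

theorem dec_disjoint {P : Prof} {Ξ : Finset (ℤ × ℤ)} (hΞ : ∀ ξ ∈ Ξ, 1 ≤ ξ.1) {N : ℕ} (hN : 1 ≤ N)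
    {μ0 : ℝ} (h0 : 0 < μ0) (h1 : μ0 ≤ 1 / 4) {κ κ' : (ℤ × ℤ) × ℤ} (hκ : κ ∈ KS P Ξ N)
    (hκ' : κ' ∈ KS P Ξ N) (hne : κ ≠ κ') (h : κ.1 = κ'.1) :
    Disjoint (Ico (ua P N μ0 κ) (ub P N μ0 κ)) (Ico (ua P N μ0 κ') (ub P N μ0 κ')) := by
  have h2 : κ.2 ≠ κ'.2 := fun h2 => hne (Prod.ext h h2)
  rw [Set.disjoint_left]
  rintro w ⟨b1, b2⟩ ⟨b3, b4⟩
  rcases lt_or_gt_of_ne h2 with h3 | h3
  · have := dec_ub_le_ua hΞ hN h0 h1 hκ (by rw [h]) h3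
    linarith
  · have := dec_ub_le_ua hΞ hN h0 h1 hκ' (by rw [h]) h3
    linarith

theorem dec_upc_valid {P : Prof} {Ξ : Finset (ℤ × ℤ)} (hΞ : ∀ ξ ∈ Ξ, 1 ≤ ξ.1) {N : ℕ} (hN : 1 ≤ N)
    {μ0 : ℝ} (h0 : 0 < μ0) (h1 : μ0 ≤ 1 / 4) {κ : (ℤ × ℤ) × ℤ} (hκ : κ ∈ KS P Ξ N) :
    (upc P N μ0 κ).Valid P := by
  obtain ⟨hl, -, -, -, -, a4, a5, a6⟩ := dec_basic hΞ hN h0 h1 hκ
  exact ⟨by exact_mod_cast hl, a4, a5, a6⟩

theorem UF_valid {P : Prof} {Ξ : Finset (ℤ × ℤ)} (hΞ : ∀ ξ ∈ Ξ, 1 ≤ ξ.1) {N : ℕ} (hN : 1 ≤ N)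
    {μ0 : ℝ} (h0 : 0 < μ0) (h1 : μ0 ≤ 1 / 4) : (UF P Ξ N μ0).Valid P ∧ (UF P Ξ N μ0).Sep := by
  refine ⟨fun κ => dec_upc_valid hΞ hN h0 h1 κ.2, fun κ κ' hne hj hn => ?_⟩
  exact dec_disjoint hΞ hN h0 h1 κ.2 κ'.2 (fun h => hne (Subtype.ext h)) (Prod.ext hj hn)

open Classical in
theorem dec_sum_ite {M α : Type*} [AddCommMonoid M] (s : Finset α) (f : α → M) (κ : α)
    [inst : Fintype ↥s] :
    (∑ i : ↥s, if (i : α) = κ then f i else 0) = if κ ∈ s then f κ else 0 := by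
  have : inst = Finset.Subtype.fintype s := Subsingleton.elim _ _
  subst this
  rw [Finset.sum_coe_sort s (fun i => if i = κ then f i else 0), Finset.sum_ite_eq']

theorem UF_vecL {P : Prof} {Ξ : Finset (ℤ × ℤ)} {N : ℕ} {μ0 : ℝ} {κ : (ℤ × ℤ) × ℤ}
    (hκ : κ ∈ KS P Ξ N) : (UF P Ξ N μ0).vecL κ = (upc P N μ0 κ).vec := by
  classical
  have := dec_sum_ite (KS P Ξ N) (fun κ => (upc P N μ0 κ).vec) κ
  rw [if_pos hκ] at this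
  rw [← this]
  unfold Fam.vecL
  rfl

theorem upc_mass {P : Prof} {Ξ : Finset (ℤ × ℤ)} (hΞ : ∀ ξ ∈ Ξ, 1 ≤ ξ.1) {N : ℕ} (hN : 1 ≤ N)
    {μ0 : ℝ} (h0 : 0 < μ0) (h1 : μ0 ≤ 1 / 4) {κ : (ℤ × ℤ) × ℤ} (hκ : κ ∈ KS P Ξ N) :
    (upc P N μ0 κ).mass = 1 := by
  obtain ⟨-, -, -, -, -, -, a5, -⟩ := dec_basic hΞ hN h0 h1 hκ
  have hd : 0 < ub P N μ0 κ - ua P N μ0 κ := by linarith
  simp only [Pc.mass, upc, Complex.norm_real, Real.norm_eq_abs, sq_abs, inv_pow,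
    Real.sq_sqrt hd.le]
  exact inv_mul_cancel₀ hd.ne'

theorem UF_massL {P : Prof} {Ξ : Finset (ℤ × ℤ)} (hΞ : ∀ ξ ∈ Ξ, 1 ≤ ξ.1) {N : ℕ} (hN : 1 ≤ N)
    {μ0 : ℝ} (h0 : 0 < μ0) (h1 : μ0 ≤ 1 / 4) (κ : (ℤ × ℤ) × ℤ) : (UF P Ξ N μ0).massL κ ≤ 1 := by
  have := dec_sum_ite (KS P Ξ N) (fun κ => (upc P N μ0 κ).mass) κ
  refine le_trans (le_of_eq this) ?_
  split_ifs with h
  · exact (upc_mass hΞ hN h0 h1 h).le
  · exact zero_le_one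

/-- The density is `ta tb / (t² (tb - ta)) ≤ (tb / ta) / (tb - ta)`. -/
theorem UF_densL {P : Prof} {Ξ : Finset (ℤ × ℤ)} (hΞ : ∀ ξ ∈ Ξ, 1 ≤ ξ.1) {N : ℕ} (hN : 1 ≤ N)
    {μ0 : ℝ} (h0 : 0 < μ0) (h1 : μ0 ≤ 1 / 4) (κ : (ℤ × ℤ) × ℤ) (t : ℝ) :
    (UF P Ξ N μ0).densL P κ t ≤ (Icc ((κ.2 + μ0) / (2 * N) : ℝ) ((κ.2 + 1 - μ0) / (2 * N))).indicator
      (fun _ => (1 + 1 / (2 * N * P.a0)) * (1 + 4 * μ0) * (2 * N)) t := by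
  have hN' : (0 : ℝ) < 2 * N := by
    have : (1 : ℝ) ≤ N := by exact_mod_cast hN
    linarith
  have ha := P.a0_pos
  have he := P.eps_pos
  have hnn : 0 ≤ (Icc ((κ.2 + μ0) / (2 * N) : ℝ) ((κ.2 + 1 - μ0) / (2 * N))).indicator
      (fun _ => (1 + 1 / (2 * N * P.a0)) * (1 + 4 * μ0) * (2 * N)) t :=
    Set.indicator_nonneg (fun _ _ => by positivity) t
  have := dec_sum_ite (KS P Ξ N) (fun κ => (upc P N μ0 κ).dens P t) κ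
  refine le_trans (le_of_eq this) ?_
  split_ifs with h
  swap
  · exact hnn
  obtain ⟨hl, a0, a1, a2, a3, a4, a5, a6⟩ := dec_basic hΞ hN h0 h1 h
  have hp : 0 < (κ.1.1 : ℝ) * P.a0 := mul_pos (by linarith) P.a0_pos
  have hd : 0 < ub P N μ0 κ - ua P N μ0 κ := by linarith
  have hta : 0 < ((κ.2 : ℝ) + μ0) / (2 * N) := by linarith
  have htb : 0 < ((κ.2 : ℝ) + 1 - μ0) / (2 * N) := by linarith
  have e1 : P.tt κ.1.1 (ua P N μ0 κ) = (κ.2 + μ0) / (2 * N) := P.tt_ws (by linarith) hta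
  have e2 : P.tt κ.1.1 (ub P N μ0 κ) = (κ.2 + 1 - μ0) / (2 * N) := P.tt_ws (by linarith) htb
  have e3 : ub P N μ0 κ - ua P N μ0 κ = _ := dec_ws_sub P κ.1.1 hta htb
  simp only [Pc.dens, upc, Complex.norm_real, Real.norm_eq_abs, sq_abs, inv_pow,
    Real.sq_sqrt hd.le, e1, e2]
  by_cases ht : t ∈ Ico (((κ.2 : ℝ) + μ0) / (2 * N)) ((κ.2 + 1 - μ0) / (2 * N))
  swap
  · rw [Set.indicator_of_notMem ht]
    exact hnn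
  rw [Set.indicator_of_mem ht, Set.indicator_of_mem (Ico_subset_Icc_self ht), e3]
  have e4 : ((κ.2 : ℝ) + 1 - μ0) / (2 * N) - (κ.2 + μ0) / (2 * N) = (1 - 2 * μ0) / (2 * N) := by
    field_simp
    ring
  have e5 : ((κ.2 : ℝ) + 1 - μ0) / (2 * N) = (κ.2 + μ0) / (2 * N) + (1 - 2 * μ0) / (2 * N) := by
    linarith
  rw [e4, e5]
  obtain ⟨ht1, -⟩ := ht
  have hta' : P.a0 ≤ ((κ.2 : ℝ) + μ0) / (2 * N) := by nlinarith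
  generalize ((κ.2 : ℝ) + μ0) / (2 * N) = x at *
  have hm : 0 < 1 - 2 * μ0 := by linarith
  have ht0 : 0 < t := by linarith
  have hl0 : (0 : ℝ) < κ.1.1 := by linarith
  have e6 : ((κ.1.1 : ℝ) * P.a0 * ((1 - 2 * μ0) / (2 * N)) /
      (P.eps * x * (x + (1 - 2 * μ0) / (2 * N))))⁻¹ * (κ.1.1 * P.a0) / (P.eps * t ^ 2) =
      (x / t) * ((x + (1 - 2 * μ0) / (2 * N)) / t) * (1 / (1 - 2 * μ0)) * (2 * N) := by
    field_simp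
  rw [e6]
  refine mul_le_mul_of_nonneg_right ?_ hN'.le
  have b1 : x / t ≤ 1 := (div_le_one ht0).2 ht1
  have b2 : (x + (1 - 2 * μ0) / (2 * N)) / t ≤ 1 + 1 / (2 * N * P.a0) := by
    rw [add_div]
    refine add_le_add b1 ?_
    rw [div_div]
    exact div_le_div₀ zero_le_one (by linarith) (by positivity)
      (mul_le_mul_of_nonneg_left (by linarith) hN'.le)
  have b3 : 1 / (1 - 2 * μ0) ≤ 1 + 4 * μ0 := by
    rw [div_le_iff₀ hm]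
    nlinarith
  refine mul_le_mul ?_ b3 (by positivity) (by positivity)
  calc x / t * ((x + (1 - 2 * μ0) / (2 * N)) / t)
      ≤ 1 * (1 + 1 / (2 * N * P.a0)) := mul_le_mul b1 b2 (by positivity) zero_le_one
    _ = _ := one_mul _

theorem dec_inner_vec {p p' : Pc} (h : p.j = p'.j → p.n = p'.n →
    Disjoint (Ico p.a p.b) (Ico p'.a p'.b)) : ⟪p.vec, p'.vec⟫_ℂ = 0 := by
  unfold Pc.vec
  rw [inner_EE _ _ _ _ p.bd p'.bd]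
  split_ifs with h1
  swap
  · rfl
  have h2 := h h1.1 h1.2
  have : (fun w => conj (p.fn w) * p'.fn w) = fun _ => 0 := by
    funext w
    by_cases hw : w ∈ Ico p.a p.b
    · have hw' : w ∉ Ico p'.a p'.b := Set.disjoint_left.1 h2 hw
      simp [Pc.fn, Set.indicator_of_notMem hw']
    · simp [Pc.fn, Set.indicator_of_notMem hw]
  rw [this]
  simp

/-- The base pieces are orthonormal. -/
theorem norm_sq_sum_upc {P : Prof} {Ξ : Finset (ℤ × ℤ)} (hΞ : ∀ ξ ∈ Ξ, 1 ≤ ξ.1) {N : ℕ}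
    (hN : 1 ≤ N) {μ0 : ℝ} (h0 : 0 < μ0) (h1 : μ0 ≤ 1 / 4) (c : (ℤ × ℤ) × ℤ → ℂ) :
    ‖∑ κ ∈ KS P Ξ N, c κ • (upc P N μ0 κ).vec‖ ^ 2 = ∑ κ ∈ KS P Ξ N, ‖c κ‖ ^ 2 := by
  rw [norm_sq_sum_of_orth]
  · refine Finset.sum_congr rfl fun κ hκ => ?_
    obtain ⟨-, a4, a5, a6⟩ := dec_upc_valid hΞ hN h0 h1 hκ
    have hmu := P.sh.mu_pos
    rw [norm_smul, mul_pow, Pc.vec, norm_sq_EE _ _ (Pc.bd _), Pc.nsq_fn a4 a5.le (by linarith),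
      upc_mass hΞ hN h0 h1 hκ, mul_one]
  · intro κ hκ κ' hκ' hne
    rw [inner_smul_left, inner_smul_right, dec_inner_vec, mul_zero, mul_zero]
    exact fun hj hn => dec_disjoint hΞ hN h0 h1 hκ hκ' hne (Prod.ext hj hn)

theorem dec_norm_uco_sq {P : Prof} {Ξ : Finset (ℤ × ℤ)} (hΞ : ∀ ξ ∈ Ξ, 1 ≤ ξ.1) {N : ℕ}
    (hN : 1 ≤ N) {μ0 : ℝ} (h0 : 0 < μ0) (h1 : μ0 ≤ 1 / 4) (c : ℤ × ℤ → ℂ) (l : ℤ × ℤ → ℤ)
    {κ : (ℤ × ℤ) × ℤ} (hκ : κ ∈ KS P Ξ N) :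
    ‖uco P N μ0 c l κ‖ ^ 2 = ‖c κ.1‖ ^ 2 * (ub P N μ0 κ - ua P N μ0 κ) := by
  obtain ⟨-, -, -, -, -, -, a5, -⟩ := dec_basic hΞ hN h0 h1 hκ
  have hd : 0 < ub P N μ0 κ - ua P N μ0 κ := by linarith
  simp only [uco, norm_mul, norm_ee, mul_one, mul_pow, Complex.norm_real, Real.norm_eq_abs, sq_abs,
    Real.sq_sqrt hd.le]

theorem dec_len_le {P : Prof} {Ξ : Finset (ℤ × ℤ)} (hΞ : ∀ ξ ∈ Ξ, 1 ≤ ξ.1) {N : ℕ}
    (hN : 1 ≤ N) {μ0 : ℝ} (h0 : 0 < μ0) (h1 : μ0 ≤ 1 / 4)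
    {κ : (ℤ × ℤ) × ℤ} (hκ : κ ∈ KS P Ξ N) :
    ub P N μ0 κ - ua P N μ0 κ ≤ 1 / (P.eps * P.a0) / (2 * N) := by
  obtain ⟨hl, a0, a1, a2, a3, a4, a5, a6⟩ := dec_basic hΞ hN h0 h1 hκ
  have hN' : (0 : ℝ) < 2 * N := by
    have : (1 : ℝ) ≤ N := by exact_mod_cast hN
    linarith
  have ha := P.a0_pos
  have he := P.eps_pos
  refine (dec_ws_lip P hl (a0.trans a1.le) a2.le).trans ?_
  have e : ((κ.2 : ℝ) + 1) / (2 * N) = κ.2 / (2 * N) + 1 / (2 * N) := add_div _ _ _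
  rw [div_right_comm]
  exact div_le_div_of_nonneg_right (by linarith) (by positivity)

theorem norm_uco_sq_le {P : Prof} {Ξ : Finset (ℤ × ℤ)} (hΞ : ∀ ξ ∈ Ξ, 1 ≤ ξ.1) {N : ℕ}
    (hN : 1 ≤ N) {μ0 : ℝ} (h0 : 0 < μ0) (h1 : μ0 ≤ 1 / 4) (c : ℤ × ℤ → ℂ) (l : ℤ × ℤ → ℤ)
    {κ : (ℤ × ℤ) × ℤ} (hκ : κ ∈ KS P Ξ N) :
    ‖uco P N μ0 c l κ‖ ^ 2 ≤ ‖c κ.1‖ ^ 2 / (P.eps * P.a0) / (2 * N) := by
  rw [dec_norm_uco_sq hΞ hN h0 h1 c l hκ]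
  refine (mul_le_mul_of_nonneg_left (dec_len_le hΞ hN h0 h1 hκ) (by positivity)).trans
    (le_of_eq ?_)
  ring

/-- The frequency on a base interval. -/
theorem dec_mem_iff {P : Prof} {Ξ : Finset (ℤ × ℤ)} (hΞ : ∀ ξ ∈ Ξ, 1 ≤ ξ.1) {N : ℕ}
    (hN : 1 ≤ N) {μ0 : ℝ} (h0 : 0 < μ0) (h1 : μ0 ≤ 1 / 4)
    {κ : (ℤ × ℤ) × ℤ} (hκ : κ ∈ KS P Ξ N) {w : ℝ} (hw : w ∈ Ico (ua P N μ0 κ) (ub P N μ0 κ)) :
    w ∈ Ico 0 (1 - P.sh.mu) ∧ (κ.1.1 : ℝ) * P.al w ∈ cell N κ.2 := by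
  obtain ⟨hl, a0, a1, a2, a3, a4, a5, a6⟩ := dec_basic hΞ hN h0 h1 hκ
  have hp : 0 < (κ.1.1 : ℝ) * P.a0 := mul_pos (by linarith) P.a0_pos
  have hta : 0 < ((κ.2 : ℝ) + μ0) / (2 * N) := by linarith
  have htb : 0 < ((κ.2 : ℝ) + 1 - μ0) / (2 * N) := by linarith
  have e1 : P.tt κ.1.1 (ua P N μ0 κ) = (κ.2 + μ0) / (2 * N) := P.tt_ws (by linarith) hta
  have e2 : P.tt κ.1.1 (ub P N μ0 κ) = (κ.2 + 1 - μ0) / (2 * N) := P.tt_ws (by linarith) htb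
  have hmu := P.sh.mu_pos
  obtain ⟨w1, w2⟩ := hw
  refine ⟨⟨by linarith, by linarith⟩, ?_⟩
  rw [P.mul_al_eq _ ⟨by linarith, by linarith⟩]
  have b1 := P.tt_le_tt (lam := κ.1.1) (by linarith) w1 (by linarith)
  have b2 := P.tt_lt_tt (lam := κ.1.1) (by linarith) w2 (by linarith)
  exact ⟨by linarith, by linarith⟩

open Classical in
/-- The mass of the base coefficients in a set of cells is at most the spectral mass. -/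
theorem sum_uco_sq_le {P : Prof} {Ξ : Finset (ℤ × ℤ)} (hΞ : ∀ ξ ∈ Ξ, 1 ≤ ξ.1) {N : ℕ}
    (hN : 1 ≤ N) {μ0 : ℝ} (h0 : 0 < μ0) (h1 : μ0 ≤ 1 / 4) (c : ℤ × ℤ → ℂ) (l : ℤ × ℤ → ℤ)
    (s : Finset ℤ) :
    ∑ κ ∈ (KS P Ξ N).filter (fun κ => κ.2 ∈ s), ‖uco P N μ0 c l κ‖ ^ 2 ≤
      ∑ ξ ∈ Ξ, ‖c ξ‖ ^ 2 * (volume (Ico (0 : ℝ) (1 - P.sh.mu) ∩
        {w | (ξ.1 : ℝ) * P.al w ∈ ⋃ ν ∈ s, cell N ν})).toReal := by
  rw [← Finset.sum_fiberwise_of_maps_to (s := (KS P Ξ N).filter (fun κ => κ.2 ∈ s)) (t := Ξ)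
    (g := fun κ => κ.1) (fun κ hκ => ((mem_KS hN).1 (Finset.mem_filter.1 hκ).1).1)]
  refine Finset.sum_le_sum fun ξ _ => ?_
  set R := ((KS P Ξ N).filter (fun κ => κ.2 ∈ s)).filter (fun κ => κ.1 = ξ) with hR
  have hm : ∀ κ ∈ R, κ ∈ KS P Ξ N ∧ κ.2 ∈ s ∧ κ.1 = ξ := fun κ hκ => by
    simp only [hR, Finset.mem_filter] at hκ
    tauto
  have e1 : ∑ κ ∈ R, ‖uco P N μ0 c l κ‖ ^ 2 =
      ‖c ξ‖ ^ 2 * ∑ κ ∈ R, volume.real (Ico (ua P N μ0 κ) (ub P N μ0 κ)) := by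
    rw [Finset.mul_sum]
    refine Finset.sum_congr rfl fun κ hκ => ?_
    obtain ⟨b1, -, b3⟩ := hm κ hκ
    rw [dec_norm_uco_sq hΞ hN h0 h1 c l b1, b3,
      Real.volume_real_Ico_of_le (dec_basic hΞ hN h0 h1 b1).2.2.2.2.2.2.1.le]
  rw [e1]
  refine mul_le_mul_of_nonneg_left ?_ (by positivity)
  rw [← measureReal_biUnion_finset ?_ ?_ ?_]
  · refine measureReal_mono ?_ ?_
    · intro w hw
      simp only [Set.mem_iUnion] at hw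
      obtain ⟨κ, hκ, hw⟩ := hw
      obtain ⟨b1, b2, b3⟩ := hm κ hκ
      obtain ⟨b4, b5⟩ := dec_mem_iff hΞ hN h0 h1 b1 hw
      refine ⟨b4, ?_⟩
      simp only [Set.mem_ofPred_eq, Set.mem_iUnion]
      exact ⟨κ.2, b2, b3 ▸ b5⟩
    · exact ((measure_mono inter_subset_left).trans_lt measure_Ico_lt_top).ne
  · intro κ hκ κ' hκ' hne
    exact dec_disjoint hΞ hN h0 h1 (hm κ hκ).1 (hm κ' hκ').1 hne
      ((hm κ hκ).2.2.trans (hm κ' hκ').2.2.symm)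
  · exact fun _ _ => measurableSet_Ico
  · exact fun _ _ => measure_Ico_lt_top.ne

/-- The exceptional set of a mode. -/
def decBad (P : Prof) (Ξ : Finset (ℤ × ℤ)) (N : ℕ) (μ0 : ℝ) (ξ : ℤ × ℤ) : Set ℝ :=
  (Icc 0 (1 / (2 * N) / (P.eps * P.a0)) ∪
    Icc (1 - P.sh.mu - 1 / (2 * N) / (P.eps * P.a0)) (1 - P.sh.mu)) ∪
  ⋃ κ ∈ (KS P Ξ N).filter (fun κ => κ.1 = ξ),
    (Icc (ua P N μ0 κ - μ0 / (2 * N) / (P.eps * P.a0)) (ua P N μ0 κ) ∪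
      Icc (ub P N μ0 κ) (ub P N μ0 κ + μ0 / (2 * N) / (P.eps * P.a0)))

theorem dec_measurableSet_bad (P : Prof) (Ξ : Finset (ℤ × ℤ)) (N : ℕ) (μ0 : ℝ) (ξ : ℤ × ℤ) :
    MeasurableSet (decBad P Ξ N μ0 ξ) :=
  (measurableSet_Icc.union measurableSet_Icc).union
    (Finset.measurableSet_biUnion _ fun _ _ => measurableSet_Icc.union measurableSet_Icc)

theorem dec_bad_ne_top (P : Prof) (Ξ : Finset (ℤ × ℤ)) (N : ℕ) (μ0 : ℝ) (ξ : ℤ × ℤ) :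
    volume (decBad P Ξ N μ0 ξ) ≠ ⊤ := by
  refine IsCompact.measure_ne_top ?_
  exact (isCompact_Icc.union isCompact_Icc).union
    (Finset.isCompact_biUnion _ fun _ _ => isCompact_Icc.union isCompact_Icc)

theorem dec_card_le {P : Prof} {Ξ : Finset (ℤ × ℤ)} (hΞ : ∀ ξ ∈ Ξ, 1 ≤ ξ.1) {N : ℕ}
    (hN : 1 ≤ N) {ξ : ℤ × ℤ} (hξ : ξ ∈ Ξ) :
    (((KS P Ξ N).filter (fun κ => κ.1 = ξ)).card : ℝ) ≤ 2 * ξ.1 * P.a0 * (2 * N) := by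
  have hN' : (0 : ℝ) < 2 * N := by
    have : (1 : ℝ) ≤ N := by exact_mod_cast hN
    linarith
  have hl : (1 : ℝ) ≤ ξ.1 := by exact_mod_cast hΞ _ hξ
  have ha := P.a0_pos
  have hx : 0 ≤ 2 * ξ.1 * P.a0 * (2 * N) := by positivity
  have h1 : ((KS P Ξ N).filter (fun κ => κ.1 = ξ)).card ≤
      (Finset.Ico (0 : ℤ) ⌊2 * ξ.1 * P.a0 * (2 * N)⌋).card := by
    refine Finset.card_le_card_of_injOn (fun κ => κ.2) ?_ ?_
    · intro κ hκ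
      obtain ⟨b1, b2⟩ := Finset.mem_filter.1 (Finset.mem_coe.1 hκ)
      obtain ⟨b3, b4⟩ := KS_bounds hΞ hN b1
      rw [b2, div_le_iff₀ hN'] at b4
      rw [le_div_iff₀ hN'] at b3
      have b5 : (0 : ℝ) ≤ κ.2 := le_trans (by positivity) b3
      have b6 : κ.2 + 1 ≤ ⌊2 * ξ.1 * P.a0 * (2 * N)⌋ := by
        rw [Int.le_floor]
        push_cast
        exact b4
      have b7 : 0 ≤ κ.2 := by exact_mod_cast b5
      simp only [Finset.coe_Ico, Set.mem_Ico]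
      omega
    · intro κ hκ κ' hκ' h
      exact Prod.ext ((Finset.mem_filter.1 (Finset.mem_coe.1 hκ)).2.trans
        (Finset.mem_filter.1 (Finset.mem_coe.1 hκ')).2.symm) h
  rw [Int.card_Ico, sub_zero] at h1
  have h2 : ((⌊2 * ξ.1 * P.a0 * (2 * N)⌋.toNat : ℤ) : ℝ) ≤ 2 * ξ.1 * P.a0 * (2 * N) := by
    rw [Int.toNat_of_nonneg (Int.floor_nonneg.2 hx)]
    exact Int.floor_le _
  have h3 : (((KS P Ξ N).filter (fun κ => κ.1 = ξ)).card : ℝ) ≤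
      (⌊2 * ξ.1 * P.a0 * (2 * N)⌋.toNat : ℝ) := by exact_mod_cast h1
  exact h3.trans (by exact_mod_cast h2)

theorem dec_bad_vol {P : Prof} {Ξ : Finset (ℤ × ℤ)} (hΞ : ∀ ξ ∈ Ξ, 1 ≤ ξ.1) {N : ℕ}
    (hN : 1 ≤ N) {μ0 : ℝ} (h0 : 0 < μ0) {ξ : ℤ × ℤ} (hξ : ξ ∈ Ξ) :
    volume.real (decBad P Ξ N μ0 ξ) ≤ 1 / (P.eps * P.a0) / N + 4 * ξ.1 / P.eps * μ0 := by
  have hN1 : (0 : ℝ) < N := by exact_mod_cast hN
  have ha := P.a0_pos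
  have he := P.eps_pos
  have p1 : 0 ≤ 1 / (2 * (N : ℝ)) / (P.eps * P.a0) := by positivity
  have p2 : 0 ≤ μ0 / (2 * (N : ℝ)) / (P.eps * P.a0) := by positivity
  unfold decBad
  refine (measureReal_union_le _ _).trans (add_le_add ?_ ?_)
  · refine (measureReal_union_le _ _).trans (le_of_eq ?_)
    rw [Real.volume_real_Icc_of_le p1, Real.volume_real_Icc_of_le (by linarith)]
    field_simp
    ring
  · refine (measureReal_biUnion_finset_le _ _).trans ?_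
    refine (Finset.sum_le_card_nsmul _ _ (2 * (μ0 / (2 * N) / (P.eps * P.a0))) ?_).trans ?_
    · intro κ _
      refine (measureReal_union_le _ _).trans (le_of_eq ?_)
      rw [Real.volume_real_Icc_of_le (by linarith), Real.volume_real_Icc_of_le (by linarith)]
      ring
    · rw [nsmul_eq_mul]
      refine (mul_le_mul_of_nonneg_right (dec_card_le hΞ hN hξ) (by positivity)).trans
        (le_of_eq ?_)
      field_simp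
      ring

theorem dec_cover {P : Prof} {Ξ : Finset (ℤ × ℤ)} (hΞ : ∀ ξ ∈ Ξ, 1 ≤ ξ.1) {N : ℕ}
    (hN : 1 ≤ N) {μ0 : ℝ} (h0 : 0 < μ0) (h1 : μ0 ≤ 1 / 4) {ξ : ℤ × ℤ} (hξ : ξ ∈ Ξ) {w : ℝ}
    (hw : w ∈ Ico 0 (1 - P.sh.mu))
    (h : ∀ κ ∈ (KS P Ξ N).filter (fun κ => κ.1 = ξ), w ∉ Ico (ua P N μ0 κ) (ub P N μ0 κ)) :
    w ∈ decBad P Ξ N μ0 ξ := by
  have hN' : (0 : ℝ) < 2 * N := by
    have : (1 : ℝ) ≤ N := by exact_mod_cast hN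
    linarith
  have hl : (1 : ℝ) ≤ ξ.1 := by exact_mod_cast hΞ _ hξ
  have hl0 : (0 : ℝ) < ξ.1 := by linarith
  have ha := P.a0_pos
  have he := P.eps_pos
  have hea : 0 < P.eps * P.a0 := by positivity
  have hmu := P.sh.mu_pos
  obtain ⟨w0, w1⟩ := hw
  have t0 : ξ.1 * P.a0 ≤ P.tt ξ.1 w := (P.tt_ge hl0 w0 (by linarith)).1
  have t1 : P.tt ξ.1 w ≤ P.tt ξ.1 (1 - P.sh.mu) := P.tt_le_tt hl0 w1.le (by linarith)
  have ew : P.ws ξ.1 (P.tt ξ.1 w) = w := P.ws_tt hl0 (by linarith)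
  have e0 : P.ws ξ.1 (ξ.1 * P.a0) = 0 := by
    rw [← dec_tt_zero]
    exact P.ws_tt hl0 zero_le_one
  have e1 : P.ws ξ.1 (P.tt ξ.1 (1 - P.sh.mu)) = 1 - P.sh.mu := P.ws_tt hl0 (by linarith)
  generalize P.tt ξ.1 w = t at t0 t1 ew
  set ν := ⌊t * (2 * N)⌋ with hν
  have n1 : (ν : ℝ) / (2 * N) ≤ t := by
    rw [div_le_iff₀ hN']
    exact Int.floor_le _
  have n2 : t < (ν + 1 : ℝ) / (2 * N) := by
    rw [lt_div_iff₀ hN']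
    exact Int.lt_floor_add_one _
  have n3 : ((ν : ℝ) + 1) / (2 * N) = ν / (2 * N) + 1 / (2 * N) := add_div _ _ _
  by_cases c1 : P.tt ξ.1 0 ≤ ν / (2 * N)
  swap
  · rw [dec_tt_zero, not_le] at c1
    refine Or.inl (Or.inl ⟨w0, ?_⟩)
    have := dec_ws_lip P hl le_rfl t0
    rw [ew, e0, sub_zero] at this
    exact this.trans (div_le_div_of_nonneg_right (by linarith) hea.le)
  by_cases c2 : (ν + 1 : ℝ) / (2 * N) ≤ P.tt ξ.1 (1 - P.sh.mu)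
  swap
  · rw [not_le] at c2
    refine Or.inl (Or.inr ⟨?_, w1.le⟩)
    have := dec_ws_lip P hl t0 t1
    rw [ew, e1] at this
    have h2 : (P.tt ξ.1 (1 - P.sh.mu) - t) / (P.eps * P.a0) ≤ 1 / (2 * N) / (P.eps * P.a0) :=
      div_le_div_of_nonneg_right (by linarith) hea.le
    linarith
  have hκ : (ξ, ν) ∈ KS P Ξ N := (mem_KS hN).2 ⟨hξ, c1, c2⟩
  have hκ' : (ξ, ν) ∈ (KS P Ξ N).filter (fun κ => κ.1 = ξ) := Finset.mem_filter.2 ⟨hκ, rfl⟩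
  obtain ⟨-, a0, a1, a2, a3, a4, a5, a6⟩ := dec_basic hΞ hN h0 h1 hκ
  dsimp only at a0 a1 a2 a3
  have hp : 0 < (ξ.1 : ℝ) * P.a0 := by positivity
  refine Or.inr ?_
  simp only [Set.mem_iUnion]
  refine ⟨(ξ, ν), hκ', ?_⟩
  have h3 := h _ hκ'
  rw [Set.mem_Ico, not_and_or, not_le, not_lt] at h3
  rcases h3 with h3 | h3
  · refine Or.inl ⟨?_, h3.le⟩
    have c3 : t ≤ (ν + μ0) / (2 * N) := by
      by_contra c3
      have := dec_ws_lt P hl0 (by linarith) (not_le.1 c3)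
      rw [ew] at this
      exact absurd (this.trans h3) (lt_irrefl _)
    have := dec_ws_lip P hl t0 c3
    rw [ew] at this
    have n4 : ((ν : ℝ) + μ0) / (2 * N) = ν / (2 * N) + μ0 / (2 * N) := add_div _ _ _
    have h2 : ((ν + μ0) / (2 * N) - t) / (P.eps * P.a0) ≤ μ0 / (2 * N) / (P.eps * P.a0) :=
      div_le_div_of_nonneg_right (by linarith) hea.le
    have e : ua P N μ0 (ξ, ν) = P.ws ξ.1 ((ν + μ0) / (2 * N)) := rfl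
    linarith
  · refine Or.inr ⟨h3, ?_⟩
    have c3 : (ν + 1 - μ0) / (2 * N) ≤ t := by
      by_contra c3
      have := dec_ws_lt P hl0 (by linarith) (not_le.1 c3)
      rw [ew] at this
      exact absurd (this.trans_le h3) (lt_irrefl _)
    have := dec_ws_lip P hl (by linarith) c3
    rw [ew] at this
    have n4 : ((ν : ℝ) + 1 - μ0) / (2 * N) = (ν + 1) / (2 * N) - μ0 / (2 * N) := sub_div _ _ _
    have h2 : (t - (ν + 1 - μ0) / (2 * N)) / (P.eps * P.a0) ≤ μ0 / (2 * N) / (P.eps * P.a0) :=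
      div_le_div_of_nonneg_right (by linarith) hea.le
    have e : ub P N μ0 (ξ, ν) = P.ws ξ.1 ((ν + 1 - μ0) / (2 * N)) := rfl
    linarith

theorem dec_uco_mul_fn {P : Prof} {Ξ : Finset (ℤ × ℤ)} (hΞ : ∀ ξ ∈ Ξ, 1 ≤ ξ.1) {N : ℕ}
    (hN : 1 ≤ N) {μ0 : ℝ} (h0 : 0 < μ0) (h1 : μ0 ≤ 1 / 4) (c : ℤ × ℤ → ℂ) (l : ℤ × ℤ → ℤ)
    {κ : (ℤ × ℤ) × ℤ} (hκ : κ ∈ KS P Ξ N) {w : ℝ} (hw : w ∈ Ico (ua P N μ0 κ) (ub P N μ0 κ)) :
    uco P N μ0 c l κ * (upc P N μ0 κ).fn w = c κ.1 * ee (l κ.1 * ua P N μ0 κ) := by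
  obtain ⟨-, -, -, -, -, -, a5, -⟩ := dec_basic hΞ hN h0 h1 hκ
  have hd : 0 < √(ub P N μ0 κ - ua P N μ0 κ) := Real.sqrt_pos.2 (by linarith)
  have hd' : ((√(ub P N μ0 κ - ua P N μ0 κ) : ℝ) : ℂ) ≠ 0 := by exact_mod_cast hd.ne'
  simp only [Pc.fn, upc, uco, Set.indicator_of_mem hw, Int.cast_zero, zero_mul, ee_zero, mul_one,
    Complex.ofReal_inv]
  field_simp

/-- The pointwise error of one mode. -/
theorem dec_pointwise {P : Prof} {Ξ : Finset (ℤ × ℤ)} (hΞ : ∀ ξ ∈ Ξ, 1 ≤ ξ.1) {N : ℕ}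
    (hN : 1 ≤ N) {μ0 : ℝ} (h0 : 0 < μ0) (h1 : μ0 ≤ 1 / 4) (c : ℤ × ℤ → ℂ) (l : ℤ × ℤ → ℤ)
    {ξ : ℤ × ℤ} (hξ : ξ ∈ Ξ) (w : ℝ) :
    ‖(⟨ξ.1, ξ.2, l ξ, c ξ, 0, 1 - P.sh.mu⟩ : Pc).fn w -
      ∑ κ ∈ (KS P Ξ N).filter (fun κ => κ.1 = ξ), uco P N μ0 c l κ * (upc P N μ0 κ).fn w‖ ^ 2 ≤
      ‖c ξ‖ ^ 2 * (Real.pi * |(l ξ : ℝ)| / (P.eps * P.a0) / N) ^ 2 +
        (decBad P Ξ N μ0 ξ).indicator (fun _ => ‖c ξ‖ ^ 2) w := by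
  have hN1 : (0 : ℝ) < N := by exact_mod_cast hN
  have ha := P.a0_pos
  have he := P.eps_pos
  have p1 : 0 ≤ (decBad P Ξ N μ0 ξ).indicator (fun _ => ‖c ξ‖ ^ 2) w :=
    Set.indicator_nonneg (fun _ _ => by positivity) w
  have p2 : 0 ≤ ‖c ξ‖ ^ 2 * (Real.pi * |(l ξ : ℝ)| / (P.eps * P.a0) / N) ^ 2 := by positivity
  by_cases h : ∀ κ ∈ (KS P Ξ N).filter (fun κ => κ.1 = ξ), w ∉ Ico (ua P N μ0 κ) (ub P N μ0 κ)
  · rw [Finset.sum_eq_zero fun κ hκ => ?_]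
    swap
    · have := h κ hκ
      simp only [Pc.fn, upc, Set.indicator_of_notMem this, mul_zero]
    by_cases hw : w ∈ Ico 0 (1 - P.sh.mu)
    · rw [Set.indicator_of_mem (dec_cover hΞ hN h0 h1 hξ hw h)]
      simp only [Pc.fn, Set.indicator_of_mem hw, sub_zero, norm_mul, norm_ee, mul_one]
      linarith
    · simp only [Pc.fn, Set.indicator_of_notMem hw, sub_zero, norm_zero]
      linarith
  · push Not at h
    obtain ⟨κ, hκ, hw⟩ := h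
    obtain ⟨b1, b2⟩ := Finset.mem_filter.1 hκ
    rw [Finset.sum_eq_single_of_mem κ hκ fun κ' hκ' hne => ?_]
    swap
    · obtain ⟨b3, b4⟩ := Finset.mem_filter.1 hκ'
      have := Set.disjoint_right.1 (dec_disjoint hΞ hN h0 h1 b3 b1 hne (b4.trans b2.symm)) hw
      simp only [Pc.fn, upc, Set.indicator_of_notMem this, mul_zero]
    rw [dec_uco_mul_fn hΞ hN h0 h1 c l b1 hw, b2]
    have hw' := (dec_mem_iff hΞ hN h0 h1 b1 hw).1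
    simp only [Pc.fn, Set.indicator_of_mem hw']
    rw [← mul_sub, norm_mul, mul_pow]
    refine le_trans ?_ (le_add_of_nonneg_right p1)
    refine mul_le_mul_of_nonneg_left (pow_le_pow_left₀ (norm_nonneg _) ?_ 2) (by positivity)
    refine (norm_ee_sub _ _).trans ?_
    have b5 := dec_len_le hΞ hN h0 h1 b1
    rw [← mul_sub, abs_mul, abs_of_nonneg (sub_nonneg.2 hw.1)]
    have b6 : w - ua P N μ0 κ ≤ 1 / (P.eps * P.a0) / (2 * N) := by linarith [hw.2]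
    have b7 := Real.pi_pos
    calc 2 * Real.pi * (|(l ξ : ℝ)| * (w - ua P N μ0 κ))
        ≤ 2 * Real.pi * (|(l ξ : ℝ)| * (1 / (P.eps * P.a0) / (2 * N))) := by gcongr
      _ = _ := by field_simp

/-- The error of one mode. -/
theorem dec_mode {P : Prof} {Ξ : Finset (ℤ × ℤ)} (hΞ : ∀ ξ ∈ Ξ, 1 ≤ ξ.1) {N : ℕ}
    (hN : 1 ≤ N) {μ0 : ℝ} (h0 : 0 < μ0) (h1 : μ0 ≤ 1 / 4) (c : ℤ × ℤ → ℂ) (l : ℤ × ℤ → ℤ)
    {ξ : ℤ × ℤ} (hξ : ξ ∈ Ξ) :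
    ‖(⟨ξ.1, ξ.2, l ξ, c ξ, 0, 1 - P.sh.mu⟩ : Pc).vec -
      ∑ κ ∈ (KS P Ξ N).filter (fun κ => κ.1 = ξ), uco P N μ0 c l κ • (upc P N μ0 κ).vec‖ ^ 2 ≤
      ‖c ξ‖ ^ 2 * ((Real.pi * |(l ξ : ℝ)| / (P.eps * P.a0) / N) ^ 2 + 1 / (P.eps * P.a0) / N) +
        ‖c ξ‖ ^ 2 * (4 * ξ.1 / P.eps * μ0) := by
  have hb : ∀ κ ∈ (KS P Ξ N).filter (fun κ => κ.1 = ξ),
      Bd fun w => uco P N μ0 c l κ * (upc P N μ0 κ).fn w :=
    fun κ _ => (Bd.const _).mul (Pc.bd _)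
  have e1 : ∑ κ ∈ (KS P Ξ N).filter (fun κ => κ.1 = ξ), uco P N μ0 c l κ • (upc P N μ0 κ).vec =
      EE ξ.1 ξ.2 fun w => ∑ κ ∈ (KS P Ξ N).filter (fun κ => κ.1 = ξ),
        uco P N μ0 c l κ * (upc P N μ0 κ).fn w := by
    rw [EE_sum _ _ _ hb]
    refine Finset.sum_congr rfl fun κ hκ => ?_
    rw [EE_const_mul _ _ _ (Pc.bd _), ← (Finset.mem_filter.1 hκ).2]
    rfl
  have hb2 := (Pc.bd ⟨ξ.1, ξ.2, l ξ, c ξ, 0, 1 - P.sh.mu⟩).sub (Bd.sum _ hb)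
  rw [e1, Pc.vec, ← EE_sub _ _ (Pc.bd _) (Bd.sum _ hb), norm_sq_EE _ _ hb2, nsq_eq_setIntegral]
  have i1 : IntegrableOn (fun _ : ℝ =>
      ‖c ξ‖ ^ 2 * (Real.pi * |(l ξ : ℝ)| / (P.eps * P.a0) / N) ^ 2) (Ico 0 1) :=
    integrableOn_const measure_Ico_lt_top.ne
  have i2 : Integrable ((decBad P Ξ N μ0 ξ).indicator (fun _ => ‖c ξ‖ ^ 2)) :=
    (integrable_indicator_iff (dec_measurableSet_bad P Ξ N μ0 ξ)).2
      (integrableOn_const (dec_bad_ne_top P Ξ N μ0 ξ))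
  refine (integral_mono (hb2.integrableOn_sq subset_rfl) (i1.add i2.integrableOn)
    (dec_pointwise hΞ hN h0 h1 c l hξ)).trans ?_
  simp only [Pi.add_apply]
  rw [integral_add i1 i2.integrableOn]
  have i3 : ∫ w in Ico (0 : ℝ) 1, (decBad P Ξ N μ0 ξ).indicator (fun _ => ‖c ξ‖ ^ 2) w ≤
      ‖c ξ‖ ^ 2 * (1 / (P.eps * P.a0) / N + 4 * ξ.1 / P.eps * μ0) := by
    refine (setIntegral_le_integral i2 (Eventually.of_forall fun w =>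
      Set.indicator_nonneg (fun _ _ => by positivity) w)).trans ?_
    rw [integral_indicator_const _ (dec_measurableSet_bad P Ξ N μ0 ξ), smul_eq_mul, mul_comm]
    exact mul_le_mul_of_nonneg_left (dec_bad_vol hΞ hN h0 hξ) (by positivity)
  have i4 : ∫ _ in Ico (0 : ℝ) 1, ‖c ξ‖ ^ 2 * (Real.pi * |(l ξ : ℝ)| / (P.eps * P.a0) / N) ^ 2 =
      ‖c ξ‖ ^ 2 * (Real.pi * |(l ξ : ℝ)| / (P.eps * P.a0) / N) ^ 2 := by
    rw [setIntegral_const]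
    simp
  rw [i4]
  linarith

/-- Mode by mode: on the base intervals replace `e(l w)` by its value at the left end; the rest of
`[0, 1 - mu)` has length `O(μ0) + O(1 / N)`. -/
theorem dec_approx {P : Prof} {Ξ : Finset (ℤ × ℤ)} (hΞ : ∀ ξ ∈ Ξ, 1 ≤ ξ.1) (c : ℤ × ℤ → ℂ)
    (l : ℤ × ℤ → ℤ) {ζ : ℝ} (hζ : 0 < ζ) :
    ∀ᶠ μ0 in 𝓝[>] (0 : ℝ), ∀ᶠ N : ℕ in atTop,
      ‖bv P Ξ c l - ∑ κ ∈ KS P Ξ N, uco P N μ0 c l κ • (upc P N μ0 κ).vec‖ ≤ ζ := by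
  set η : ℝ := ζ / (Ξ.card + 1) with hη
  have hη0 : 0 < η := by positivity
  have hη2 : 0 < η ^ 2 / 2 := by positivity
  have A1 : ∀ᶠ μ0 in 𝓝[>] (0 : ℝ), ∀ ξ ∈ Ξ, ‖c ξ‖ ^ 2 * (4 * ξ.1 / P.eps * μ0) ≤ η ^ 2 / 2 := by
    refine (eventually_all_finset _).2 fun ξ _ => nhdsWithin_le_nhds ?_
    have : Tendsto (fun μ0 : ℝ => ‖c ξ‖ ^ 2 * (4 * ξ.1 / P.eps * μ0)) (𝓝 0) (𝓝 0) :=
      Continuous.tendsto' (by fun_prop) _ _ (by simp)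
    exact this.eventually (ge_mem_nhds hη2)
  have A2 : ∀ᶠ N : ℕ in atTop, ∀ ξ ∈ Ξ,
      ‖c ξ‖ ^ 2 * ((Real.pi * |(l ξ : ℝ)| / (P.eps * P.a0) / N) ^ 2 + 1 / (P.eps * P.a0) / N) ≤
        η ^ 2 / 2 := by
    refine (eventually_all_finset _).2 fun ξ _ => ?_
    have := (((tendsto_const_div_atTop_nhds_zero_nat
      (Real.pi * |(l ξ : ℝ)| / (P.eps * P.a0))).pow 2).add
      (tendsto_const_div_atTop_nhds_zero_nat (1 / (P.eps * P.a0)))).const_mul (‖c ξ‖ ^ 2)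
    simp only [ne_eq, OfNat.ofNat_ne_zero, not_false_eq_true, zero_pow, add_zero, mul_zero] at this
    exact this.eventually (ge_mem_nhds hη2)
  filter_upwards [A1, Ioc_mem_nhdsGT (show (0 : ℝ) < 1 / 4 by norm_num)] with μ0 B1 ⟨h0, h1⟩
  filter_upwards [A2, eventually_ge_atTop 1] with N B2 hN
  rw [← Finset.sum_fiberwise_of_maps_to (s := KS P Ξ N) (t := Ξ)
    (g := fun κ => κ.1) (fun κ hκ => ((mem_KS hN).1 hκ).1), bv, ← Finset.sum_sub_distrib]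
  refine (norm_sum_le _ _).trans ((Finset.sum_le_card_nsmul _ _ η fun ξ hξ => ?_).trans ?_)
  · refine (pow_le_pow_iff_left₀ (norm_nonneg _) hη0.le two_ne_zero).1 ?_
    refine (dec_mode hΞ hN h0 h1 c l hξ).trans ?_
    linarith [B1 ξ hξ, B2 ξ hξ]
  · rw [nsmul_eq_mul, hη, mul_div_assoc', div_le_iff₀ (by positivity)]
    nlinarith

/-- Adding modes with zero coefficient. -/
theorem bv_subset (P : Prof) {Ξ Ξ' : Finset (ℤ × ℤ)} (h : Ξ ⊆ Ξ') {c : ℤ × ℤ → ℂ}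
    (hc : ∀ ξ, ξ ∉ Ξ → c ξ = 0) (l : ℤ × ℤ → ℤ) : bv P Ξ' c l = bv P Ξ c l := by
  unfold bv
  refine (Finset.sum_subset h fun ξ _ hξ => ?_).symm
  rw [← EE_zero ξ.1 ξ.2]
  refine EE_congr _ _ fun w _ => ?_
  simp [Pc.fn, hc ξ hξ]

end Crest.Agent.R081
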