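import Crest.Prelude.Def_Torus3
import Crest.Agent.R075.Stat

/-!
# Row 81 (S0108): a smooth diffeomorphism of `T³` with simple Lebesgue spectrum — definitions

Approximants are conjugates `H⁻¹ R H` of twist maps
`R (x,c,w) = (x + α w, c + ρ α w, w)`, `α w = a0 / (1 - eps (w - B w))`
(`α w = a0 / (1 - eps w)` on the monotone region `[0, 1 - mu]`).
The vector `e(j x + n c) F(w)` has spectral parameter `t = j α(w)`.
-/

set_option autoImplicit false

namespace Crest.Agent.R081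

open MeasureTheory Set Filter Topology Crest.AnalysisR.Torus3 Crest.Agent.R210 Crest.Agent.R075

/-- The complex Hilbert space `L²(T³)`. -/
abbrev H3 : Type := Lp ℂ 2 (volume : Measure T3)

/-- Representative in `[0,1)` of a point of the circle. -/
noncomputable def rep (x : UnitAddCircle) : ℝ := (AddCircle.equivIco 1 0 x : ℝ)

/-- Bounded measurable functions on the line. -/
def Bd (F : ℝ → ℂ) : Prop := Measurable F ∧ ∃ C : ℝ, ∀ x, ‖F x‖ ≤ C

open Classical in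
/-- The class in `L²` of a function (junk value `0`). -/
noncomputable def L3 (f : T3 → ℂ) : H3 := if h : MemLp f 2 volume then h.toLp f else 0

/-- The vector `e(j x + n c) F(w)`. -/
noncomputable def EE (j n : ℤ) (F : ℝ → ℂ) : H3 :=
  L3 fun x => fourier j (x 0) * fourier n (x 1) * F (rep (x 2))

/-- The vector `G(x) e(n c + l w)`. -/
noncomputable def E1 (n l : ℤ) (G : ℝ → ℂ) : H3 :=
  L3 fun x => G (rep (x 0)) * fourier n (x 1) * fourier l (x 2)

/-- Squared `L²(0,1)` norm. -/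
noncomputable def nsq (F : ℝ → ℂ) : ℝ := ∫ w in (0 : ℝ)..1, ‖F w‖ ^ 2

/-- Smooth volume preserving diffeomorphisms. -/
def Good (H : Equiv.Perm T3) : Prop :=
  IsSmoothDiffeo H ∧ MeasurePreserving H volume volume ∧ MeasurePreserving H.symm volume volume

/-- The group of smooth volume preserving diffeomorphisms of `T³`. -/
def VD : Subgroup (Equiv.Perm T3) where
  carrier := {H | Good H}
  mul_mem' := by
    rintro A B ⟨⟨⟨F, hF⟩, G, hG⟩, h1, h2⟩ ⟨⟨⟨F', hF'⟩, G', hG'⟩, h1', h2'⟩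
    refine ⟨⟨⟨F ∘ F', hF.1.comp hF'.1, fun x => ?_⟩, G' ∘ G, hG'.1.comp hG.1, fun x => ?_⟩,
      h1.comp h1', h2'.comp h2⟩
    · simp [hF'.2, hF.2]
    · change B.symm (A.symm (proj x)) = _
      simp [hG.2, hG'.2]
  one_mem' := ⟨⟨⟨id, contDiff_id, fun _ => rfl⟩, id, contDiff_id, fun _ => rfl⟩,
    MeasurePreserving.id _, MeasurePreserving.id _⟩
  inv_mem' := by
    rintro A ⟨⟨h1, h2⟩, h3, h4⟩
    exact ⟨⟨h2, h1⟩, h4, h3⟩

/-- The Koopman isometry `f ↦ f ∘ T`. -/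
noncomputable def kp (T : VD) : H3 →ₗᵢ[ℂ] H3 :=
  Lp.compMeasurePreservingₗᵢ ℂ (T : Equiv.Perm T3) T.2.2.1

/-- The trigonometric polynomial with coefficients `b`. -/
noncomputable def tp (b : ℤ →₀ ℂ) (θ : ℝ) : ℂ := b.sum fun l c => c * ee (l * θ)

/-- The trigonometric polynomial `b` applied to the Koopman operator of `T`. -/
noncomputable def app (b : ℤ →₀ ℂ) (T : VD) (f : H3) : H3 := b.sum fun l c => c • kp (T ^ l) f

/-- `T'` is `T` plus a smooth vector field whose derivatives of order `≤ k` are at most `τ`. -/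
def Close (k : ℕ) (τ : ℝ) (T T' : Equiv.Perm T3) : Prop :=
  ∃ V : (Fin 3 → ℝ) → (Fin 3 → ℝ), ContDiff ℝ (⊤ : ℕ∞) V ∧
    (∀ x, T' (proj x) = T (proj x) + proj (V x)) ∧ ∀ i ≤ k, ∀ x, ‖iteratedFDeriv ℝ i V x‖ ≤ τ

/-- `C^k`-closeness of the maps and of their inverses. -/
def Close2 (k : ℕ) (τ : ℝ) (T T' : VD) : Prop :=
  Close k τ (T : Equiv.Perm T3) T' ∧ Close k τ (T⁻¹ : VD) (T'⁻¹ : VD)

/-- Uniform closeness of the maps and of their inverses. -/
def Near (τ : ℝ) (T T' : VD) : Prop :=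
  ∀ x, dist ((T : Equiv.Perm T3) x) ((T' : Equiv.Perm T3) x) ≤ τ ∧
    dist ((T : Equiv.Perm T3).symm x) ((T' : Equiv.Perm T3).symm x) ≤ τ

/-- A smooth step of degree one vanishing on `[0, 1 - mu]`. -/
structure Shape where
  mu : ℝ
  B : ℝ → ℝ
  mu_pos : 0 < mu
  mu_le : mu ≤ 1 / 2
  smooth : ContDiff ℝ (⊤ : ℕ∞) B
  per : ∀ w, B (w + 1) = B w + 1
  zero : ∀ w ∈ Icc (0 : ℝ) (1 - mu), B w = 0
  bd : ∀ w ∈ Icc (0 : ℝ) 1, 0 ≤ B w ∧ B w ≤ 1

/-- A twist profile. -/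
structure Prof where
  a0 : ℝ
  eps : ℝ
  sh : Shape
  a0_pos : 0 < a0
  eps_pos : 0 < eps
  eps_le : eps ≤ 1 / 2

/-- The profile function `α`. -/
noncomputable def Prof.al (P : Prof) (w : ℝ) : ℝ := P.a0 / (1 - P.eps * (w - P.sh.B w))

/-- The primitive of `α`. -/
noncomputable def Prof.AA (P : Prof) (w : ℝ) : ℝ := ∫ u in (0 : ℝ)..w, P.al u

/-- Frequency `lam α(w)` on the monotone region. -/
noncomputable def Prof.tt (P : Prof) (lam w : ℝ) : ℝ := lam * P.a0 / (1 - P.eps * w)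

/-- The inverse of `tt`. -/
noncomputable def Prof.ws (P : Prof) (lam t : ℝ) : ℝ := (1 - lam * P.a0 / t) / P.eps

/-- `P` is the profile with `a0 = δ`, `eps = κ δ` and shape `S`. -/
def Prof.Is (P : Prof) (δ κ : ℝ) (S : Shape) : Prop := P.a0 = δ ∧ P.eps = κ * δ ∧ P.sh = S

/-- The twist map as a bijection. -/
noncomputable def RE (P : Prof) (ρ : ℝ) : Equiv.Perm T3 where
  toFun x := ![x 0 + ((P.al (rep (x 2)) : ℝ) : UnitAddCircle),
    x 1 + ((ρ * P.al (rep (x 2)) : ℝ) : UnitAddCircle), x 2]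
  invFun x := ![x 0 - ((P.al (rep (x 2)) : ℝ) : UnitAddCircle),
    x 1 - ((ρ * P.al (rep (x 2)) : ℝ) : UnitAddCircle), x 2]
  left_inv x := by ext i; fin_cases i <;> simp
  right_inv x := by ext i; fin_cases i <;> simp

/-- An integer matrix of determinant one. -/
structure Mat where
  p : ℤ
  q : ℤ
  a : ℤ
  b : ℤ
  det : q * b - p * a = 1
  qpos : 0 < q

/-- The matrix of a C-step (`ρ = 1/(q+1)`). -/
def cm (q : ℕ) : Mat := ⟨1, q + 1, -1, 0, by ring, by positivity⟩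

/-- The matrix of the B-step following a step with matrix `m` (`ρ = 1/m.q`). -/
def bm (m : Mat) : Mat := ⟨1, m.q, -1, 0, by ring, m.qpos⟩

/-- The conjugating function `A w = AA w / (q δ) + e1 w + e2 B w`, of integer degree. -/
noncomputable def Prof.Afn (P : Prof) (q : ℤ) (δ e1 : ℝ) (w : ℝ) : ℝ :=
  P.AA w / (q * δ) + e1 * w + Int.fract (-(P.AA 1 / (q * δ) + e1)) * P.sh.B w

/-- The step map `(x,c,w) ↦ (w, b x - a c - A w, q c - p x + σ w - β)` as a bijection. -/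
noncomputable def hmE (P : Prof) (m : Mat) (σ : ℤ) (β δ e1 : ℝ) : Equiv.Perm T3 where
  toFun x := ![x 2, m.b • x 0 - m.a • x 1 - ((P.Afn m.q δ e1 (rep (x 2)) : ℝ) : UnitAddCircle),
    m.q • x 1 - m.p • x 0 + σ • x 2 - ((β : ℝ) : UnitAddCircle)]
  invFun y := ![m.q • (y 1 + ((P.Afn m.q δ e1 (rep (y 0)) : ℝ) : UnitAddCircle)) +
      m.a • (y 2 + ((β : ℝ) : UnitAddCircle) - σ • y 0),
    m.p • (y 1 + ((P.Afn m.q δ e1 (rep (y 0)) : ℝ) : UnitAddCircle)) +
      m.b • (y 2 + ((β : ℝ) : UnitAddCircle) - σ • y 0), y 0]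
  left_inv x := by
    have h := m.det
    ext i; fin_cases i
    · simp only [Fin.zero_eta, Fin.isValue, Matrix.cons_val_zero, Matrix.cons_val_one,
        Matrix.cons_val]
      have : x 0 = (m.q * m.b - m.p * m.a) • x 0 := by rw [h, one_smul]
      conv_rhs => rw [this]
      module
    · simp only [Fin.mk_one, Fin.isValue, Matrix.cons_val_zero, Matrix.cons_val_one,
        Matrix.cons_val]
      have : x 1 = (m.q * m.b - m.p * m.a) • x 1 := by rw [h, one_smul]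
      conv_rhs => rw [this]
      module
    · simp
  right_inv y := by
    have h := m.det
    ext i; fin_cases i
    · simp
    · simp only [Fin.mk_one, Fin.isValue, Matrix.cons_val_zero, Matrix.cons_val_one,
        Matrix.cons_val]
      generalize ((P.Afn m.q δ e1 (rep (y 0)) : ℝ) : UnitAddCircle) = u
      have : y 1 = (m.q * m.b - m.p * m.a) • (y 1 + u) - u := by rw [h, one_smul]; abel
      conv_rhs => rw [this]
      module
    · simp only [Fin.reduceFinMk, Fin.isValue, Matrix.cons_val_zero, Matrix.cons_val_one,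
        Matrix.cons_val]
      have : y 2 = (m.q * m.b - m.p * m.a) • (y 2 + ((β : ℝ) : UnitAddCircle) - σ • y 0)
          + σ • y 0 - ((β : ℝ) : UnitAddCircle) := by rw [h, one_smul]; abel
      conv_rhs => rw [this]
      module

/-! ### Pieces and families -/

/-- A piece `c e(j x + n c + l w) 1_{[a,b)}(w)`. -/
structure Pc where
  j : ℤ
  n : ℤ
  l : ℤ
  c : ℂ
  a : ℝ
  b : ℝ

noncomputable def Pc.fn (p : Pc) : ℝ → ℂ := (Ico p.a p.b).indicator fun w => p.c * ee (p.l * w)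

noncomputable def Pc.vec (p : Pc) : H3 := EE p.j p.n p.fn

noncomputable def Pc.mass (p : Pc) : ℝ := ‖p.c‖ ^ 2 * (p.b - p.a)

def Pc.Valid (P : Prof) (p : Pc) : Prop := 1 ≤ p.j ∧ 0 ≤ p.a ∧ p.a < p.b ∧ p.b ≤ 1 - P.sh.mu

/-- Spectral density of a piece. -/
noncomputable def Pc.dens (P : Prof) (p : Pc) : ℝ → ℝ :=
  (Ico (P.tt p.j p.a) (P.tt p.j p.b)).indicator fun t => ‖p.c‖ ^ 2 * (p.j * P.a0) / (P.eps * t ^ 2)

/-- `p'` is a smaller proportional mode. -/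
def Pc.Partner (p p' : Pc) : Prop := p'.j < p.j ∧ p.j * p'.n = p'.j * p.n

/-- A finite labelled family of pieces. -/
structure Fam (Λ : Type) where
  ι : Type
  fin : Fintype ι
  pc : ι → Pc
  lab : ι → Λ

attribute [instance] Fam.fin

variable {Λ : Type}

def Fam.Valid (F : Fam Λ) (P : Prof) : Prop := ∀ i, (F.pc i).Valid P

/-- Distinct pieces have distinct modes or disjoint intervals. -/
def Fam.Sep (F : Fam Λ) : Prop := ∀ i i', i ≠ i' → (F.pc i).j = (F.pc i').j →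
  (F.pc i).n = (F.pc i').n → Disjoint (Ico (F.pc i).a (F.pc i).b) (Ico (F.pc i').a (F.pc i').b)

/-- Distinct pieces have distinct modes. -/
def Fam.Inj (F : Fam Λ) : Prop := ∀ i i', (F.pc i).j = (F.pc i').j → (F.pc i).n = (F.pc i').n → i = i'

open Classical in
noncomputable def Fam.vecL (F : Fam Λ) (κ : Λ) : H3 := ∑ i, if F.lab i = κ then (F.pc i).vec else 0

open Classical in
noncomputable def Fam.massL (F : Fam Λ) (κ : Λ) : ℝ := ∑ i, if F.lab i = κ then (F.pc i).mass else 0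

open Classical in
noncomputable def Fam.densL (F : Fam Λ) (P : Prof) (κ : Λ) (t : ℝ) : ℝ :=
  ∑ i, if F.lab i = κ then (F.pc i).dens P t else 0

open Classical in
/-- The potential: mass times number of smaller proportional modes. -/
noncomputable def Fam.Phi (F : Fam Λ) : ℝ :=
  ∑ i, (F.pc i).mass * ((Finset.univ.filter fun i' => (F.pc i).Partner (F.pc i')).card : ℝ)

/-- Refine the labels by the residue of `j` modulo `M`. -/
def Fam.refine (F : Fam Λ) (M : ℕ) : Fam (Λ × ℤ) :=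
  ⟨F.ι, F.fin, F.pc, fun i => (F.lab i, (F.pc i).j % (M : ℤ))⟩

/-- The integers `j` with `x ≤ j δ < y`. -/
noncomputable def Wi (x y δ : ℝ) : Finset ℤ := Finset.Ico ⌈x / δ⌉ ⌈y / δ⌉

/-- The Fresnel constant (norm one). -/
noncomputable def fres : ℂ := Classical.choose fresnel

/-- The stationary value of the phase `lam AA w / δ - y w`. -/
noncomputable def Prof.Ph (P : Prof) (lam δ y : ℝ) : ℝ :=
  -(P.a0 / (δ * P.eps)) * lam * Real.log (lam * P.a0 / (y * δ)) + P.a0 / (δ * P.eps) * lam - y / P.eps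

/-- The stationary phase amplitude. -/
noncomputable def Prof.amp (P : Prof) (ν δ : ℝ) (j : ℤ) : ℝ :=
  √(δ * (ν * P.a0) / (P.eps * (j * δ) ^ 2))

/-- The window of children of a piece. -/
noncomputable def Pc.win (P : Prof) (p : Pc) (r δ : ℝ) : Finset ℤ :=
  Wi (P.tt p.j (p.a + r)) (P.tt p.j (p.b - r)) δ

/-- The child of a piece under a C-step. -/
noncomputable def Pc.kid (P : Prof) (p : Pc) (q : ℕ) (δ mu' : ℝ) (j : ℤ) : Pc :=
  ⟨j, (cm q).q * p.j + p.n, -p.j,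
    p.c * fres * P.amp p.j δ j * ee (P.Ph (p.j + p.n / ((cm q).q : ℝ)) δ (j - p.l)), 0, 1 - mu'⟩

/-- The family of children under a C-step. -/
noncomputable def Fam.child (F : Fam Λ) (P : Prof) (q : ℕ) (r δ mu' : ℝ) : Fam Λ :=
  ⟨Σ i : F.ι, ↥((F.pc i).win P r δ), inferInstance,
    fun s => (F.pc s.1).kid P q δ mu' s.2, fun s => F.lab s.1⟩

/-! ### Finite mode vectors -/

/-- A finite labelled family of vectors `e(j x + n c) G(w)`. -/
structure FM (Λ : Type) where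
  ι : Type
  fin : Fintype ι
  j : ι → ℤ
  n : ι → ℤ
  G : ι → ℝ → ℂ
  lab : ι → Λ

attribute [instance] FM.fin

def FM.Ok (Y : FM Λ) : Prop :=
  (∀ i, Bd (Y.G i)) ∧ ∀ i i', Y.j i = Y.j i' → Y.n i = Y.n i' → i = i'

noncomputable def FM.vec (Y : FM Λ) : H3 := ∑ i, EE (Y.j i) (Y.n i) (Y.G i)

open Classical in
noncomputable def FM.vecL (Y : FM Λ) (κ : Λ) : H3 :=
  ∑ i, if Y.lab i = κ then EE (Y.j i) (Y.n i) (Y.G i) else 0

/-- Spectral mass of the set `A`. -/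
noncomputable def FM.mass (Y : FM Λ) (P : Prof) (A : Set ℝ) : ℝ :=
  ∑ i, ∫ w in Ico (0 : ℝ) 1 ∩ {w | (Y.j i : ℝ) * P.al w ∈ A}, ‖Y.G i w‖ ^ 2

open Classical in
/-- The density of the mode `j` of the label `κ`. -/
noncomputable def FM.D (Y : FM Λ) (κ : Λ) (j : ℤ) (z : ℝ) : ℝ :=
  ∑ i, if Y.lab i = κ ∧ Y.j i = j then ‖Y.G i z‖ ^ 2 else 0

/-- Distance to the nearest integer. -/
noncomputable def fold (t : ℝ) : ℝ := |t - round t|

/-- The open grid cell `(ν, ν+1)/(2N)`. -/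
def cell (N : ℕ) (ν : ℤ) : Set ℝ := Ioo ((ν : ℝ) / (2 * N)) (((ν : ℝ) + 1) / (2 * N))

/-- The class of a cell modulo `t ↦ ± t + ℤ`, an integer in `[0, N)`. -/
def cls (N : ℕ) (ν : ℤ) : ℤ :=
  if ν % (2 * N) < N then ν % (2 * N) else 2 * N - 1 - ν % (2 * N)

/-- An arc of the circle, seen in `ℝ`. -/
def Arc (x y : ℝ) : Set ℝ := {z | ∃ m : ℤ, z + m ∈ Icc x y}

/-! ### The base family -/

/-- `∑ ξ ∈ Ξ, c ξ e(j x + n c + l ξ w) 1_{[0, 1 - mu)}(w)`. -/
noncomputable def bv (P : Prof) (Ξ : Finset (ℤ × ℤ)) (c : ℤ × ℤ → ℂ) (l : ℤ × ℤ → ℤ) : H3 :=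
  ∑ ξ ∈ Ξ, (⟨ξ.1, ξ.2, l ξ, c ξ, 0, 1 - P.sh.mu⟩ : Pc).vec

open Classical in
/-- The pairs (mode, cell) such that the cell lies in the frequency range of the mode. -/
noncomputable def KS (P : Prof) (Ξ : Finset (ℤ × ℤ)) (N : ℕ) : Finset ((ℤ × ℤ) × ℤ) :=
  Ξ.biUnion fun ξ => (Finset.Icc ⌈2 * N * P.tt ξ.1 0⌉ (⌊2 * N * P.tt ξ.1 (1 - P.sh.mu)⌋ - 1)).image
    fun ν => (ξ, ν)

/-- Left end of the base piece. -/
noncomputable def ua (P : Prof) (N : ℕ) (μ0 : ℝ) (κ : (ℤ × ℤ) × ℤ) : ℝ :=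
  P.ws κ.1.1 ((κ.2 + μ0) / (2 * N))

/-- Right end of the base piece. -/
noncomputable def ub (P : Prof) (N : ℕ) (μ0 : ℝ) (κ : (ℤ × ℤ) × ℤ) : ℝ :=
  P.ws κ.1.1 ((κ.2 + 1 - μ0) / (2 * N))

/-- The normalised base piece. -/
noncomputable def upc (P : Prof) (N : ℕ) (μ0 : ℝ) (κ : (ℤ × ℤ) × ℤ) : Pc :=
  ⟨κ.1.1, κ.1.2, 0, ((√(ub P N μ0 κ - ua P N μ0 κ))⁻¹ : ℝ), ua P N μ0 κ, ub P N μ0 κ⟩

/-- The coefficient of the base piece in `bv P Ξ c l`. -/
noncomputable def uco (P : Prof) (N : ℕ) (μ0 : ℝ) (c : ℤ × ℤ → ℂ) (l : ℤ × ℤ → ℤ)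
    (κ : (ℤ × ℤ) × ℤ) : ℂ :=
  c κ.1 * ee (l κ.1 * ua P N μ0 κ) * (√(ub P N μ0 κ - ua P N μ0 κ) : ℝ)

/-- The base family. -/
noncomputable def UF (P : Prof) (Ξ : Finset (ℤ × ℤ)) (N : ℕ) (μ0 : ℝ) : Fam ((ℤ × ℤ) × ℤ) :=
  ⟨↥(KS P Ξ N), inferInstance, fun κ => upc P N μ0 κ, fun κ => κ⟩

end Crest.Agent.R081
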