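import Crest.Agent.R081.Fold

/-! The design of the arcs. -/

set_option autoImplicit false

namespace Crest.Agent.R081

open MeasureTheory Set Filter Topology

theorem des_cell {α : Type} (I : Finset α) (w : α → ℝ) {h a : ℝ} (hh : 0 ≤ h) (ha : 0 ≤ a)
    (hI : I.Nonempty) (hw : ∀ κ, 0 ≤ w κ) (hIa : I.card * a ≤ 1) :
    ∃ L : α → ℝ, (∀ κ ∈ I, a ≤ L κ) ∧ ∑ κ ∈ I, L κ = 1 ∧
      ∑ κ ∈ I, |L κ * h - w κ| ≤ |h - ∑ κ ∈ I, w κ| + 2 * I.card * a * h := by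
  obtain ⟨p, hp0, hp1, hp⟩ : ∃ p : α → ℝ, (∀ κ, 0 ≤ p κ) ∧ ∑ κ ∈ I, p κ = 1 ∧
      ∀ κ ∈ I, w κ = (∑ κ ∈ I, w κ) * p κ := by
    have hc : (0 : ℝ) < I.card := by exact_mod_cast hI.card_pos
    rcases (Finset.sum_nonneg fun κ (_ : κ ∈ I) => hw κ).eq_or_lt with h0 | h0
    · refine ⟨fun _ => (I.card : ℝ)⁻¹, fun _ => by positivity, by simp [hc.ne'], fun κ hκ => ?_⟩
      rw [← h0, zero_mul]
      exact (Finset.sum_eq_zero_iff_of_nonneg fun κ _ => hw κ).1 h0.symm κ hκ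
    · exact ⟨fun κ => w κ / ∑ κ ∈ I, w κ, fun κ => div_nonneg (hw κ) h0.le,
        by rw [← Finset.sum_div, div_self h0.ne'], fun κ _ => by field_simp⟩
  refine ⟨fun κ => (1 - I.card * a) * p κ + a, fun κ _ => ?_, ?_, ?_⟩
  · have := mul_nonneg (sub_nonneg.2 hIa) (hp0 κ); linarith
  · rw [Finset.sum_add_distrib, ← Finset.mul_sum, hp1]; simp
  · set m := ∑ κ ∈ I, w κ
    calc _ ≤ ∑ κ ∈ I, (|h - m| * p κ + (a * h + I.card * a * h * p κ)) := by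
          refine Finset.sum_le_sum fun κ hκ => ?_
          have e : ((1 - I.card * a) * p κ + a) * h - w κ =
              (h - m) * p κ + (a * h - I.card * a * h * p κ) := by rw [hp κ hκ]; ring
          have := hp0 κ
          rw [e]
          refine (abs_add_le _ _).trans (add_le_add (by rw [abs_mul, abs_of_nonneg this]) ?_)
          refine (abs_sub _ _).trans ?_
          rw [abs_of_nonneg (by positivity), abs_of_nonneg (by positivity)]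
      _ = _ := by
          rw [Finset.sum_add_distrib, Finset.sum_add_distrib, Finset.sum_const, ← Finset.mul_sum,
            ← Finset.mul_sum, hp1, nsmul_eq_mul]
          ring

theorem des_coef {x : ℝ} (hx : 0 ≤ x) (g : ℂ) :
    ∃ c : ℂ, ‖c‖ ^ 2 = x ∧ ‖c - g‖ ^ 2 ≤ |x - ‖g‖ ^ 2| := by
  obtain ⟨u, hu, hg⟩ : ∃ u : ℂ, ‖u‖ = 1 ∧ g = (‖g‖ : ℂ) * u :=
    ⟨Complex.exp (Complex.arg g * Complex.I), Complex.norm_exp_ofReal_mul_I _,
      (Complex.norm_mul_exp_arg_mul_I g).symm⟩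
  have hs := Real.sqrt_nonneg x
  have hs2 := Real.sq_sqrt hx
  refine ⟨(√x : ℝ) * u, by rw [norm_mul, hu, mul_one, Complex.norm_real, Real.norm_eq_abs, sq_abs, hs2], ?_⟩
  have : (√x : ℝ) * u - g = ((√x - ‖g‖ : ℝ) : ℂ) * u := by
    conv_lhs => rw [hg]
    push_cast; ring
  rw [this, norm_mul, hu, mul_one, Complex.norm_real, Real.norm_eq_abs, sq_abs]
  have hg0 := norm_nonneg g
  rcases le_total ‖g‖ √x with h | h
  · exact le_trans (by nlinarith) (le_abs_self _)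
  · exact le_trans (by nlinarith) (neg_le_abs _)

theorem des_geom {α : Type} (S : Finset α) (rk : α → ℕ) (hinj : InjOn rk S) {ζ : ℝ} (hζ : 0 < ζ)
    (hζ1 : ζ ≤ 1) {ρ : ℕ} (h : ∀ κ ∈ S, ρ < rk κ) :
    ∑ κ ∈ S, (ζ / 2) ^ rk κ ≤ ζ * (ζ / 2) ^ ρ := by
  classical
  rw [← Finset.sum_image (f := fun j => (ζ / 2) ^ j) hinj]
  obtain ⟨M, hM⟩ := (S.image rk).bddAbove
  calc _ ≤ ∑ j ∈ Finset.Ico (ρ + 1) (M + 1), (ζ / 2) ^ j := by
        refine Finset.sum_le_sum_of_subset_of_nonneg (fun j hj => ?_) fun _ _ _ => by positivity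
        obtain ⟨κ, hκ, rfl⟩ := Finset.mem_image.1 hj
        exact Finset.mem_Ico.2 ⟨h κ hκ, Nat.lt_succ_of_le (hM (Finset.mem_coe.2 hj))⟩
    _ ≤ (ζ / 2) ^ (ρ + 1) / (1 - ζ / 2) := geom_sum_Ico_le_of_lt_one (by positivity) (by linarith)
    _ ≤ _ := by
        rw [div_le_iff₀ (by linarith), pow_succ]
        have : 0 ≤ (ζ / 2) ^ ρ * (ζ * (1 - ζ)) := by
          have := sub_nonneg.2 hζ1; positivity
        nlinarith

theorem des_abs_sum (s : Finset ℤ) (f : ℤ → ℝ) :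
    ∑ r ∈ s, |f r| = ∑ r ∈ s, f r + 2 * ∑ r ∈ s.filter (fun r => f r < 0), -f r := by
  rw [Finset.sum_filter, Finset.mul_sum, ← Finset.sum_add_distrib]
  refine Finset.sum_congr rfl fun r _ => ?_
  split_ifs with h
  · rw [abs_of_neg h]; ring
  · rw [abs_of_nonneg (not_lt.1 h)]; ring

open Classical in
/-- In each class choose a cell: the one more than half filled by `E` and carrying a label if there
is one (`eq_of_half`), else the filler cell.  On the chosen cell `ν` with label set `I` put rank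
`0`, `L κ = (1 - |I| a) p κ + a`, `p κ = ‖g κ‖² / m ν` (uniform if `m ν = 0`), `Pos` the partial
sums.  Elsewhere put `rk κ = 1 + idx (κ.1) (B + 1) + κ.2 / N`, `L κ = a b ^ rk κ`, `Pos = 0`.
`c κ` has modulus `√(L κ / (2 N))` and the argument of `g κ`; use
`(√x - √y)² ≤ |x - y|`. -/
theorem design {Ξ : Type} (X : Finset Ξ) (B : ℕ) {ζ : ℝ} (hζ : 0 < ζ) (hζ1 : ζ ≤ 1 / 2) :
    ∃ Lmin > (0 : ℝ), ∀ (N : ℕ), 1 ≤ N → ∀ (K : Finset (Ξ × ℤ)) (g : Ξ × ℤ → ℂ) (E : Set ℝ)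
      (η0 : ℝ), 0 ≤ η0 → η0 ≤ 1 → (∀ κ ∈ K, κ.1 ∈ X ∧ 0 ≤ κ.2 ∧ κ.2 / N ≤ B) →
      (∀ r : ℤ, 0 ≤ r → r < N → ∃ κ ∈ K, cls N κ.2 = r) →
      MeasurableSet E → InjOn fold E →
      (∀ s : Finset ℤ, (∀ ν ∈ s, (volume (cell N ν ∩ E)).toReal ≤ 1 / (4 * N : ℝ)) →
        ∑ ν ∈ s, (volume (cell N ν ∩ E)).toReal ≤ ζ) →
      (∀ s : Finset ℤ, ∑ κ ∈ K.filter (fun κ => κ.2 ∈ s), ‖g κ‖ ^ 2 ≤
        (1 + η0) * ∑ ν ∈ s, (volume (cell N ν ∩ E)).toReal + ζ) →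
      1 / 2 - η0 ≤ ∑ κ ∈ K, ‖g κ‖ ^ 2 →
      ∃ (rk : Ξ × ℤ → ℕ) (L Pos : Ξ × ℤ → ℝ) (c : Ξ × ℤ → ℂ),
        (∀ κ ∈ K, Lmin ≤ L κ ∧ 0 ≤ Pos κ ∧ Pos κ + L κ ≤ 1 ∧ ‖c κ‖ ^ 2 = L κ / (2 * N)) ∧
        (∀ κ ∈ K, ∀ κ' ∈ K, κ ≠ κ' → rk κ = rk κ' → cls N κ.2 = cls N κ'.2 →
          κ.2 = κ'.2 ∧ Disjoint (Ioo (Pos κ) (Pos κ + L κ)) (Ioo (Pos κ') (Pos κ' + L κ'))) ∧
        (∀ κ ∈ K, ∑ κ' ∈ K.filter (fun κ' => cls N κ'.2 = cls N κ.2 ∧ rk κ < rk κ'), L κ' ≤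
          ζ * L κ) ∧
        (∀ r : ℤ, 0 ≤ r → r < N → ∑ κ ∈ K.filter (fun κ => cls N κ.2 = r ∧ rk κ = 0), L κ = 1) ∧
        ∑ κ ∈ K, L κ / (2 * N) ≤ 1 ∧
        ∑ κ ∈ K, ‖c κ - g κ‖ ^ 2 ≤ 4 * η0 + 16 * ζ := by
  obtain ⟨idx, hidx, hlt⟩ : ∃ idx : Ξ → ℕ, InjOn idx X ∧ ∀ ξ ∈ X, idx ξ < X.card := by
    refine ⟨fun ξ => if h : ξ ∈ X then X.equivFin ⟨ξ, h⟩ else 0, fun ξ h ξ' h' e => ?_,
      fun ξ h => ?_⟩
    · have h1 : ξ ∈ X := h
      have h2 : ξ' ∈ X := h'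
      simp only [dif_pos h1, dif_pos h2] at e
      exact congrArg Subtype.val (X.equivFin.injective (Fin.ext e))
    · simp only [dif_pos h]; exact (X.equivFin ⟨ξ, h⟩).2
  set n := X.card
  set a : ℝ := ζ / (n + 1) with ha
  have ha0 : 0 < a := by positivity
  have hna : n * a ≤ ζ := by
    rw [ha, mul_div_assoc', div_le_iff₀ (by positivity)]; nlinarith
  have ha1 : a ≤ ζ := div_le_self hζ.le (by linarith [(Nat.cast_nonneg n : (0 : ℝ) ≤ n)])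
  have hb1 : ζ / 2 ≤ 1 := by linarith
  refine ⟨a * (ζ / 2) ^ (n * (B + 1)), by positivity, ?_⟩
  intro N hN K g E η0 hη0 hη1 hK hfill hE hinj hsmall hmass htot
  have hN0 : (0 : ℝ) < N := by exact_mod_cast hN
  have hNz : (0 : ℤ) < N := by exact_mod_cast hN
  set h : ℝ := 1 / (2 * N) with hh
  have hh0 : 0 < h := by positivity
  have hNh : N * h = 1 / 2 := by rw [hh]; field_simp
  set e : ℤ → ℝ := fun ν => (volume (cell N ν ∩ E)).toReal with he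
  have heh : ∀ ν, e ν ≤ h := fun ν => ENNReal.toReal_le_of_le_ofReal hh0.le
    ((measure_mono inter_subset_left).trans (volume_cell hN ν).le)
  -- the chosen cells
  have hch : ∀ r : ℤ, ∃ ν : ℤ, (0 ≤ r → r < N → (∃ κ ∈ K, κ.2 = ν) ∧ cls N ν = r) ∧
      ∀ κ ∈ K, cls N κ.2 = r → 1 / (4 * N : ℝ) < e κ.2 → κ.2 = ν := by
    intro r
    by_cases h1 : ∃ κ ∈ K, cls N κ.2 = r ∧ 1 / (4 * N : ℝ) < e κ.2
    · obtain ⟨κ, hκ, h2, h3⟩ := h1
      exact ⟨κ.2, fun _ _ => ⟨⟨κ, hκ, rfl⟩, h2⟩, fun κ' _ h4 h5 =>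
        eq_of_half hN hE hinj (h4.trans h2.symm) h5 h3⟩
    · by_cases h2 : 0 ≤ r ∧ r < N
      · obtain ⟨κ, hκ, h3⟩ := hfill r h2.1 h2.2
        exact ⟨κ.2, fun _ _ => ⟨⟨κ, hκ, rfl⟩, h3⟩, fun κ' h4 h5 h6 => absurd ⟨κ', h4, h5, h6⟩ h1⟩
      · exact ⟨0, fun h3 h4 => absurd ⟨h3, h4⟩ h2, fun κ' h4 h5 h6 => absurd ⟨κ', h4, h5, h6⟩ h1⟩
  choose ch hch1 hch2 using hch
  set I : ℤ → Finset (Ξ × ℤ) := fun ν => K.filter fun κ => κ.2 = ν with hI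
  have hIinj : ∀ ν, InjOn (fun κ : Ξ × ℤ => idx κ.1) (I ν) := fun ν κ hκ κ' hκ' e => by
    obtain ⟨h1, h2⟩ := Finset.mem_filter.1 hκ
    obtain ⟨h3, h4⟩ := Finset.mem_filter.1 hκ'
    exact Prod.ext (hidx (hK κ h1).1 (hK κ' h3).1 e) (h2.trans h4.symm)
  have hIc : ∀ ν, ((I ν).card : ℝ) ≤ n := fun ν => by
    have := Finset.card_le_card_of_injOn (t := Finset.range n) _
      (fun κ hκ => Finset.mem_coe.2 (Finset.mem_range.2
        (hlt _ (hK κ (Finset.mem_filter.1 hκ).1).1))) (hIinj ν)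
    rw [Finset.card_range] at this
    exact_mod_cast this
  have hL0 : ∀ ν, ∃ L : Ξ × ℤ → ℝ, (I ν).Nonempty → (∀ κ ∈ I ν, a ≤ L κ) ∧ ∑ κ ∈ I ν, L κ = 1 ∧
      ∑ κ ∈ I ν, |L κ * h - ‖g κ‖ ^ 2| ≤ |h - ∑ κ ∈ I ν, ‖g κ‖ ^ 2| + 2 * (I ν).card * a * h := by
    intro ν
    by_cases hne : (I ν).Nonempty
    · obtain ⟨L, hL⟩ := des_cell (I ν) (fun κ => ‖g κ‖ ^ 2) hh0.le ha0.le hne
        (fun _ => by positivity) (by nlinarith [hIc ν])
      exact ⟨L, fun _ => hL⟩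
    · exact ⟨0, fun h => absurd h hne⟩
  choose L0 hL0 using hL0
  set rk : Ξ × ℤ → ℕ := fun κ =>
    if κ.2 = ch (cls N κ.2) then 0 else 1 + (idx κ.1 * (B + 1) + (κ.2 / N).toNat) with hrk
  set L : Ξ × ℤ → ℝ := fun κ => if rk κ = 0 then L0 κ.2 κ else a * (ζ / 2) ^ rk κ with hL
  have hrk0 : ∀ κ, rk κ = 0 ↔ κ.2 = ch (cls N κ.2) := fun κ => by
    simp only [hrk]
    split_ifs with h
    · exact ⟨fun _ => h, fun _ => rfl⟩
    · exact ⟨fun h' => by omega, fun h' => absurd h' h⟩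
  have hmemI : ∀ κ ∈ K, κ ∈ I κ.2 := fun κ hκ => Finset.mem_filter.2 ⟨hκ, rfl⟩
  have hLI : ∀ κ, rk κ = 0 → ∀ κ' ∈ I κ.2, L κ' = L0 κ.2 κ' := fun κ h0 κ' hκ' => by
    have h2 := (Finset.mem_filter.1 hκ').2
    have : rk κ' = 0 := (hrk0 κ').2 (by rw [h2]; exact (hrk0 κ).1 h0)
    simp only [hL, if_pos this, h2]
  have hLlow : ∀ κ ∈ K, a * (ζ / 2) ^ rk κ ≤ L κ := fun κ hκ => by
    by_cases h0 : rk κ = 0
    · rw [hLI κ h0 κ (hmemI κ hκ), h0, pow_zero, mul_one]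
      exact (hL0 _ ⟨κ, hmemI κ hκ⟩).1 κ (hmemI κ hκ)
    · simp only [hL, if_neg h0, le_refl]
  have hLpos : ∀ κ ∈ K, 0 ≤ L κ := fun κ hκ => le_trans (by positivity) (hLlow κ hκ)
  have htn : ∀ κ ∈ K, (κ.2 / N).toNat < B + 1 := fun κ hκ => by
    have := (hK κ hκ).2.2; omega
  have hrkinj : ∀ κ ∈ K, ∀ κ' ∈ K, rk κ ≠ 0 → rk κ = rk κ' → cls N κ.2 = cls N κ'.2 → κ = κ' := by
    intro κ hκ κ' hκ' h0 h1 h2
    have h0' : rk κ' ≠ 0 := h1 ▸ h0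
    simp only [hrk, if_neg (mt (hrk0 κ).2 h0), if_neg (mt (hrk0 κ').2 h0')] at h1
    have h3 := congrArg (· / (B + 1)) (Nat.add_left_cancel h1)
    rw [mul_comm (idx κ.1), mul_comm (idx κ'.1)] at h3
    simp only [Nat.mul_add_div (Nat.succ_pos B), Nat.div_eq_of_lt (htn κ hκ),
      Nat.div_eq_of_lt (htn κ' hκ'), add_zero] at h3
    rw [h3] at h1
    have h4 := Int.ediv_nonneg (hK κ hκ).2.1 hNz.le
    have h5 := Int.ediv_nonneg (hK κ' hκ').2.1 hNz.le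
    exact Prod.ext (hidx (hK κ hκ).1 (hK κ' hκ').1 h3) (eq_of_cls_eq hN h2 (by omega))
  have htail : ∀ (r : ℤ) (ρ : ℕ), ∑ κ' ∈ K.filter (fun κ' => cls N κ'.2 = r ∧ ρ < rk κ'), L κ' ≤
      ζ * (a * (ζ / 2) ^ ρ) := by
    intro r ρ
    have := des_geom (K.filter fun κ' => cls N κ'.2 = r ∧ ρ < rk κ') rk (fun κ hκ κ' hκ' e => by
      obtain ⟨h1, h2, h3⟩ := Finset.mem_filter.1 hκ
      obtain ⟨h4, h5, -⟩ := Finset.mem_filter.1 hκ'
      exact hrkinj κ h1 κ' h4 (by omega) e (h2.trans h5.symm)) hζ (by linarith)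
      (ρ := ρ) fun κ hκ => (Finset.mem_filter.1 hκ).2.2
    calc _ = a * ∑ κ' ∈ K.filter (fun κ' => cls N κ'.2 = r ∧ ρ < rk κ'), (ζ / 2) ^ rk κ' := by
          rw [Finset.mul_sum]
          refine Finset.sum_congr rfl fun κ hκ => ?_
          have := (Finset.mem_filter.1 hκ).2.2
          simp only [hL, if_neg (by omega : rk κ ≠ 0)]
      _ ≤ a * (ζ * (ζ / 2) ^ ρ) := mul_le_mul_of_nonneg_left this ha0.le
      _ = _ := by ring
  have hfil : ∀ r : ℤ, 0 ≤ r → r < N →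
      K.filter (fun κ => cls N κ.2 = r ∧ rk κ = 0) = I (ch r) := fun r h0 h1 => by
    refine Finset.filter_congr fun κ _ => ?_
    rw [hrk0]
    constructor
    · rintro ⟨rfl, h⟩; exact h
    · intro h; rw [h, (hch1 r h0 h1).2]; exact ⟨rfl, rfl⟩
  have hne : ∀ r : ℤ, 0 ≤ r → r < N → ∃ κ ∈ I (ch r), rk κ = 0 ∧ κ.2 = ch r := fun r h0 h1 => by
    obtain ⟨κ, hκ, h2⟩ := (hch1 r h0 h1).1
    have : κ ∈ I (ch r) := Finset.mem_filter.2 ⟨hκ, h2⟩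
    exact ⟨κ, this, (Finset.mem_filter.1 (hfil r h0 h1 ▸ this)).2.2, h2⟩
  have hone : ∀ κ ∈ K, rk κ = 0 → ∑ κ' ∈ I κ.2, L κ' = 1 := fun κ hκ h0 => by
    rw [Finset.sum_congr rfl (hLI κ h0)]; exact (hL0 _ ⟨κ, hmemI κ hκ⟩).2.1
  -- splitting sums over `K`
  have hsplit : ∀ f : Ξ × ℤ → ℝ, ∑ κ ∈ K, f κ = ∑ r ∈ Finset.Ico (0 : ℤ) N, ∑ κ ∈ I (ch r), f κ +
      ∑ r ∈ Finset.Ico (0 : ℤ) N, ∑ κ ∈ K.filter (fun κ => cls N κ.2 = r ∧ 0 < rk κ), f κ := by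
    intro f
    rw [← Finset.sum_fiberwise_of_maps_to (t := Finset.Ico (0 : ℤ) N) (g := fun κ => cls N κ.2)
      fun κ _ => Finset.mem_Ico.2 (cls_mem hN κ.2), ← Finset.sum_add_distrib]
    refine Finset.sum_congr rfl fun r hr => ?_
    rw [← hfil r (Finset.mem_Ico.1 hr).1 (Finset.mem_Ico.1 hr).2,
      ← Finset.sum_filter_add_sum_filter_not _ fun κ => rk κ = 0, Finset.filter_filter,
      Finset.filter_filter]
    simp only [Nat.pos_iff_ne_zero]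
  have hcard : ((Finset.Ico (0 : ℤ) N).card : ℝ) = N := by simp
  have hrest : ∑ r ∈ Finset.Ico (0 : ℤ) N,
      ∑ κ ∈ K.filter (fun κ => cls N κ.2 = r ∧ 0 < rk κ), L κ * h ≤ ζ / 2 := by
    calc _ ≤ ∑ _r ∈ Finset.Ico (0 : ℤ) N, ζ * h := Finset.sum_le_sum fun r _ => by
          rw [← Finset.sum_mul]
          refine mul_le_mul_of_nonneg_right ((htail r 0).trans ?_) hh0.le
          rw [pow_zero, mul_one]; nlinarith
      _ = ζ / 2 := by rw [Finset.sum_const, nsmul_eq_mul, hcard]; linear_combination ζ * hNh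
  have hgrest : ∑ r ∈ Finset.Ico (0 : ℤ) N,
      ∑ κ ∈ K.filter (fun κ => cls N κ.2 = r ∧ 0 < rk κ), ‖g κ‖ ^ 2 ≤ 3 * ζ := by
    set s := (K.filter fun κ => 0 < rk κ).image Prod.snd
    have h1 := hsmall s fun ν hν => by
      obtain ⟨κ, hκ, rfl⟩ := Finset.mem_image.1 hν
      obtain ⟨h1, h2⟩ := Finset.mem_filter.1 hκ
      exact not_lt.1 fun h3 => h2.ne' ((hrk0 κ).2 (hch2 _ κ h1 rfl h3))
    have h2 := hmass s
    have h3 : 0 ≤ ∑ ν ∈ s, (volume (cell N ν ∩ E)).toReal :=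
      Finset.sum_nonneg fun _ _ => ENNReal.toReal_nonneg
    calc _ = ∑ κ ∈ K.filter (fun κ => 0 < rk κ), ‖g κ‖ ^ 2 := by
          rw [← Finset.sum_fiberwise_of_maps_to (s := K.filter fun κ => 0 < rk κ)
            (t := Finset.Ico (0 : ℤ) N) (g := fun κ => cls N κ.2)
            fun κ _ => Finset.mem_Ico.2 (cls_mem hN κ.2)]
          simp only [Finset.filter_filter, and_comm]
      _ ≤ ∑ κ ∈ K.filter (fun κ => κ.2 ∈ s), ‖g κ‖ ^ 2 :=
          Finset.sum_le_sum_of_subset_of_nonneg (fun κ hκ => Finset.mem_filter.2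
            ⟨(Finset.mem_filter.1 hκ).1, Finset.mem_image_of_mem _ hκ⟩) fun _ _ _ => by positivity
      _ ≤ _ := by nlinarith
  have hc : ∀ κ, ∃ c : ℂ, κ ∈ K → ‖c‖ ^ 2 = L κ * h ∧ ‖c - g κ‖ ^ 2 ≤ |L κ * h - ‖g κ‖ ^ 2| := by
    intro κ
    by_cases hκ : κ ∈ K
    · obtain ⟨c, hc⟩ := des_coef (mul_nonneg (hLpos κ hκ) hh0.le) (g κ)
      exact ⟨c, fun _ => hc⟩
    · exact ⟨0, fun h => absurd h hκ⟩
  choose c hc using hc
  have hdiv : ∀ x : ℝ, x / (2 * N) = x * h := fun x => by rw [hh]; ring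
  set Pos : Ξ × ℤ → ℝ := fun κ =>
    if rk κ = 0 then ∑ κ' ∈ (I κ.2).filter (fun κ' => idx κ'.1 < idx κ.1), L κ' else 0 with hPos
  have hPle : ∀ κ ∈ K, rk κ = 0 → ∀ S : Finset (Ξ × ℤ), S ⊆ K → κ ∈ S →
      (I κ.2).filter (fun κ' => idx κ'.1 < idx κ.1) ⊆ S → Pos κ + L κ ≤ ∑ κ' ∈ S, L κ' := by
    intro κ hκ h0 S hS h1 h2
    simp only [hPos, if_pos h0]
    rw [add_comm, ← Finset.sum_insert (by simp)]
    exact Finset.sum_le_sum_of_subset_of_nonneg (Finset.insert_subset h1 h2)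
      fun κ' h _ => hLpos κ' (hS h)
  have hdisj : ∀ κ ∈ K, ∀ κ' ∈ K, rk κ = 0 → rk κ' = 0 → κ.2 = κ'.2 → idx κ.1 < idx κ'.1 →
      Disjoint (Ioo (Pos κ) (Pos κ + L κ)) (Ioo (Pos κ') (Pos κ' + L κ')) := by
    intro κ hκ κ' hκ' h0 h0' h1 h2
    have : Pos κ + L κ ≤ Pos κ' := by
      have := hPle κ hκ h0 ((I κ'.2).filter fun κ'' => idx κ''.1 < idx κ'.1)
        ((Finset.filter_subset _ _).trans (Finset.filter_subset _ _))
        (Finset.mem_filter.2 ⟨h1 ▸ hmemI κ hκ, h2⟩) fun κ'' h => Finset.mem_filter.2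
          ⟨h1 ▸ (Finset.mem_filter.1 h).1, (Finset.mem_filter.1 h).2.trans h2⟩
      simpa only [hPos, if_pos h0'] using this
    exact Set.disjoint_left.2 fun x h3 h4 => by linarith [h3.2, h4.1]
  refine ⟨rk, L, Pos, c, fun κ hκ => ⟨?_, ?_, ?_, by rw [hdiv]; exact (hc κ hκ).1⟩,
    fun κ hκ κ' hκ' hne h1 h2 => ?_, fun κ hκ => (htail _ _).trans
      (mul_le_mul_of_nonneg_left (hLlow κ hκ) hζ.le), fun r h0 h1 => ?_, ?_, ?_⟩
  · refine le_trans (mul_le_mul_of_nonneg_left (pow_le_pow_of_le_one (by positivity) hb1 ?_) ha0.le)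
      (hLlow κ hκ)
    simp only [hrk]
    split_ifs
    · exact Nat.zero_le _
    · have := hlt _ (hK κ hκ).1
      have := htn κ hκ
      nlinarith
  · simp only [hPos]
    split_ifs
    · exact Finset.sum_nonneg fun κ' h => hLpos κ' (Finset.mem_filter.1 (Finset.mem_filter.1 h).1).1
    · exact le_rfl
  · by_cases h0 : rk κ = 0
    · rw [← hone κ hκ h0]
      exact hPle κ hκ h0 _ (Finset.filter_subset _ _) (hmemI κ hκ) (Finset.filter_subset _ _)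
    · simp only [hPos, hL, if_neg h0, zero_add]
      have := pow_le_one₀ (n := rk κ) (by positivity : 0 ≤ ζ / 2) hb1
      nlinarith
  · have h0 : rk κ = 0 := by
      by_contra h0; exact hne (hrkinj κ hκ κ' hκ' h0 h1 h2)
    have h0' : rk κ' = 0 := h1 ▸ h0
    have h3 : κ.2 = κ'.2 := by rw [(hrk0 κ).1 h0, (hrk0 κ').1 h0', h2]
    refine ⟨h3, ?_⟩
    rcases lt_trichotomy (idx κ.1) (idx κ'.1) with h | h | h
    · exact hdisj κ hκ κ' hκ' h0 h0' h3 h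
    · exact absurd (Prod.ext (hidx (hK κ hκ).1 (hK κ' hκ').1 h) h3) hne
    · exact (hdisj κ' hκ' κ hκ h0' h0 h3.symm h).symm
  · obtain ⟨κ, hκ, h2, h3⟩ := hne r h0 h1
    rw [hfil r h0 h1, ← h3]
    exact hone κ (Finset.mem_filter.1 hκ).1 h2
  · simp only [hdiv]
    rw [hsplit]
    have : ∑ r ∈ Finset.Ico (0 : ℤ) N, ∑ κ ∈ I (ch r), L κ * h = 1 / 2 := by
      rw [← hNh, ← hcard, ← nsmul_eq_mul, ← Finset.sum_const]
      refine Finset.sum_congr rfl fun r hr => ?_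
      obtain ⟨κ, hκ, h2, h3⟩ := hne r (Finset.mem_Ico.1 hr).1 (Finset.mem_Ico.1 hr).2
      rw [← Finset.sum_mul, ← h3, hone κ (Finset.mem_filter.1 hκ).1 h2, one_mul]
    linarith
  · set m : ℤ → ℝ := fun r => ∑ κ ∈ I (ch r), ‖g κ‖ ^ 2 with hm
    have h1 : ∑ r ∈ Finset.Ico (0 : ℤ) N, ∑ κ ∈ I (ch r), |L κ * h - ‖g κ‖ ^ 2| ≤
        ∑ r ∈ Finset.Ico (0 : ℤ) N, |h - m r| + ζ := by
      calc _ ≤ ∑ r ∈ Finset.Ico (0 : ℤ) N, (|h - m r| + 2 * ζ * h) := by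
            refine Finset.sum_le_sum fun r hr => ?_
            obtain ⟨κ, hκ, h2, h3⟩ := hne r (Finset.mem_Ico.1 hr).1 (Finset.mem_Ico.1 hr).2
            have h4 := (hL0 _ ⟨κ, hκ⟩).2.2
            rw [Finset.sum_congr rfl fun κ' h' => by rw [hLI κ h2 κ' (h3 ▸ h'), h3]]
            have h5 : ((I (ch r)).card : ℝ) * a * h ≤ ζ * h := mul_le_mul_of_nonneg_right
              ((mul_le_mul_of_nonneg_right (hIc _) ha0.le).trans hna) hh0.le
            linarith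
        _ = _ := by
            rw [Finset.sum_add_distrib, Finset.sum_const, nsmul_eq_mul, hcard]
            linear_combination 2 * ζ * hNh
    have h2 : ∑ r ∈ Finset.Ico (0 : ℤ) N, (h - m r) ≤ η0 + 3 * ζ := by
      rw [Finset.sum_sub_distrib, Finset.sum_const, nsmul_eq_mul, hcard, hNh]
      rw [hsplit] at htot
      linarith
    have h3 : ∑ r ∈ (Finset.Ico (0 : ℤ) N).filter (fun r => h - m r < 0), -(h - m r) ≤
        η0 / 2 + ζ := by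
      set t := (Finset.Ico (0 : ℤ) N).filter fun r => h - m r < 0
      have hti : InjOn ch t := fun r hr r' hr' e => by
        have h1 := Finset.mem_Ico.1 (Finset.mem_filter.1 hr).1
        have h2 := Finset.mem_Ico.1 (Finset.mem_filter.1 hr').1
        rw [← (hch1 r h1.1 h1.2).2, e, (hch1 r' h2.1 h2.2).2]
      have h4 := hmass (t.image ch)
      have h5 : ∑ κ ∈ K.filter (fun κ => κ.2 ∈ t.image ch), ‖g κ‖ ^ 2 = ∑ r ∈ t, m r := by
        rw [← Finset.sum_fiberwise_of_maps_to (t := t.image ch) (g := Prod.snd)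
          fun κ hκ => (Finset.mem_filter.1 hκ).2, Finset.sum_image hti]
        refine Finset.sum_congr rfl fun r hr => Finset.sum_congr ?_ fun _ _ => rfl
        rw [Finset.filter_filter]
        exact Finset.filter_congr fun κ _ => ⟨fun h => h.2, fun h =>
          ⟨h ▸ Finset.mem_image_of_mem _ hr, h⟩⟩
      have h6 : ∑ ν ∈ t.image ch, (volume (cell N ν ∩ E)).toReal ≤ t.card * h := by
        rw [Finset.sum_image hti, ← nsmul_eq_mul, ← Finset.sum_const]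
        exact Finset.sum_le_sum fun r _ => heh _
      have h7 : (t.card : ℝ) * h ≤ 1 / 2 := by
        rw [← hNh, ← hcard]
        exact mul_le_mul_of_nonneg_right (by exact_mod_cast Finset.card_filter_le _ _) hh0.le
      simp only [neg_sub]
      rw [Finset.sum_sub_distrib, Finset.sum_const, nsmul_eq_mul]
      nlinarith
    have h4 : ∑ r ∈ Finset.Ico (0 : ℤ) N, ∑ κ ∈ K.filter (fun κ => cls N κ.2 = r ∧ 0 < rk κ),
        |L κ * h - ‖g κ‖ ^ 2| ≤ ζ / 2 + 3 * ζ := by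
      refine le_trans ?_ (add_le_add hrest hgrest)
      rw [← Finset.sum_add_distrib]
      refine Finset.sum_le_sum fun r _ => ?_
      rw [← Finset.sum_add_distrib]
      refine Finset.sum_le_sum fun κ hκ => (abs_sub _ _).trans ?_
      rw [abs_of_nonneg (mul_nonneg (hLpos κ (Finset.mem_filter.1 hκ).1) hh0.le),
        abs_of_nonneg (by positivity)]
    refine (Finset.sum_le_sum fun κ hκ => (hc κ hκ).2).trans ?_
    rw [hsplit]
    rw [des_abs_sum] at h1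
    linarith

end Crest.Agent.R081
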