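import Crest.Agent.R081.FSAux

/-! The final stage: spectral sets. -/

set_option autoImplicit false

namespace Crest.Agent.R081

open MeasureTheory Set Filter Topology Crest.AnalysisR.Torus3 Crest.Agent.R210 Crest.Agent.R075

variable {Λ : Type}

open Classical in
/-- Spectral description of the labels `κ ∈ s` of `Y`. -/
def SOut (P : Prof) (Y : FM Λ) (s : Finset Λ) (N : ℕ) (ν : Λ → ℤ) (L Pos : Λ → ℝ)
    (S : Λ → Set ℝ) (Om : Λ → ℤ → Set ℝ) (C η : ℝ) : Prop :=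
  (∀ κ ∈ s, MeasurableSet (S κ) ∧ S κ ⊆ cell N (ν κ) ∧
    (volume (S κ)).toReal ≤ (1 + η) * L κ / (2 * N)) ∧
  (∀ κ ∈ s, ∀ κ' ∈ s, ν κ = ν κ' →
    Disjoint (Ioo (Pos κ) (Pos κ + L κ)) (Ioo (Pos κ') (Pos κ' + L κ')) → Disjoint (S κ) (S κ')) ∧
  (∀ κ j, MeasurableSet (Om κ j) ∧ Om κ j ⊆ Ico 0 (1 - P.sh.mu) ∧
    ∀ z ∈ Om κ j, (j : ℝ) * P.al z ∈ S κ) ∧
  (∀ κ ∈ s, (∑ i, if Y.lab i = κ then ∫ z in Ico (0 : ℝ) 1 \ Om κ (Y.j i), ‖Y.G i z‖ ^ 2 else 0) ≤ η) ∧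
  ∀ κ ∈ s, ∀ A : Set ℝ, MeasurableSet A →
    (∑ i, if Y.lab i = κ then
      ∫ z in Om κ (Y.j i) ∩ {z | (Y.j i : ℝ) * P.al z ∈ A}, ‖Y.G i z‖ ^ 2 else 0) ≤
      C * (2 * N) / L κ * (volume (A ∩ S κ)).toReal

/-- Put `K κ = κ'' (ν κ + 3) / (2 N)`.  Call `j` good for `κ` if `lo κ ≤ j a0 ≤ hi κ`, the run
`J0 = ⌊j a0 / δ⌋` has `ω J0 ≤ 1 - θ` and `j a0 / (1 - eps) ≤ (J0 + 1) δ`.  For good `j` let
`Om κ j = Ico (ω J0 + Pos / K) (ω J0 + (Pos + L) / K)` (else `∅`), and let `S κ` be the union of the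
intervals `Ico (tt j ·) (tt j ·)`.  In a run `tt j (ω + 1 / K) ≤ tt (j + 1) ω`; different runs are
disjoint.  Each interval has length at most `L a0`; the push-forward bound follows from
`Prof.volume_preimage`.  Bad runs carry mass at most `#bad (δ / a0 + 1) a0 Dm L / K`
(`volume_Arc_le`), the ends of runs at most `(T / δ + 2) (2 κ'' T + 1) a0 Dm`. -/
theorem fstage {N : ℕ} (hN : 1 ≤ N) (s : Finset Λ) (ν : Λ → ℤ) (L Pos lo hi : Λ → ℝ)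
    {t0 T κ'' Lmin C η mu θ : ℝ} (ht0 : 0 < t0) (hκ : 0 < κ'') (hLm : 0 < Lmin) (hC : 0 ≤ C)
    (hη : 0 < η) (hν : ∀ κ ∈ s, t0 ≤ ν κ / (2 * N) ∧ (ν κ + 1 : ℝ) / (2 * N) ≤ T)
    (hL : ∀ κ ∈ s, Lmin ≤ L κ ∧ 0 ≤ Pos κ ∧ Pos κ + L κ ≤ 1)
    (hlo : ∀ κ ∈ s, ν κ / (2 * N) < lo κ ∧ hi κ < (ν κ + 1 : ℝ) / (2 * N))
    (hθ : mu + 1 / (κ'' * t0) ≤ θ) (hθ' : (T + 3) * θ * (C * (2 * N)) ≤ η / 8) :
    ∃ η' > (0 : ℝ), ∀ (P : Prof) (Y : FM Λ) (δ : ℝ) (ω : ℤ → ℝ) (x y Dm : Λ → ℝ) (η0 : ℝ),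
      P.eps = κ'' * P.a0 → P.sh.mu = mu → δ ≤ η' → P.a0 ≤ η' * δ → η0 ≤ η / 2 →
      (∀ i, Y.lab i ∈ s) →
      (∀ κ ∈ s, x κ = Pos κ / (κ'' * (ν κ + 3) / (2 * N)) ∧
        y κ = (Pos κ + L κ) / (κ'' * (ν κ + 3) / (2 * N)) ∧
        Dm κ ≤ C * (2 * N) * (κ'' * (ν κ + 3) / (2 * N)) / L κ) →
      DOut P Y δ ω lo hi x y Dm T θ η0 →
      ∃ (S : Λ → Set ℝ) (Om : Λ → ℤ → Set ℝ),
        SOut P Y s N ν L Pos S Om (C * (1 + 3 / (2 * N * t0))) η := by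
  classical
  have hN0 : (0 : ℝ) < N := by exact_mod_cast hN
  have hn : (0 : ℝ) < 2 * N := by positivity
  have small : ∀ a c : ℝ, 0 < c → ∀ᶠ e in 𝓝[>] (0 : ℝ), a * e ≤ c := by
    intro a c hc
    have h : Tendsto (fun e : ℝ => a * e) (𝓝[>] 0) (𝓝 0) := by
      have : Tendsto (fun e : ℝ => a * e) (𝓝 0) (𝓝 (a * 0)) :=
        (continuous_const.mul continuous_id).tendsto 0
      rw [mul_zero] at this
      exact this.mono_left nhdsWithin_le_nhds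
    exact h.eventually (ge_mem_nhds hc)
  have ev : ∀ᶠ e : ℝ in 𝓝[>] (0 : ℝ), 0 < e ∧ 1 * e ≤ 1 ∧ 2 * N * e ≤ 1 ∧ 2 * N * e ≤ η ∧
      (T + 1) * (κ'' * (T + 1) + 1) * (C * (2 * N)) * e ≤ η / 4 ∧
      ∀ κ ∈ s, κ'' * (ν κ + 3) * e ≤ 1 ∧
        κ'' * ((ν κ + 1 : ℝ) / (2 * N)) * e ≤ (ν κ + 1 : ℝ) / (2 * N) - hi κ := by
    refine Eventually.and self_mem_nhdsWithin ((small _ _ one_pos).and ((small _ _ one_pos).and
      ((small _ _ hη).and ((small _ _ (by positivity)).and ?_))))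
    rw [Filter.eventually_all_finset]
    exact fun κ hκs => (small _ _ one_pos).and (small _ _ (by linarith [(hlo κ hκs).2]))
  obtain ⟨e, he0, he1, he2, he3, he4, he5⟩ := ev.exists
  refine ⟨e, he0, fun P Y δ ω x y Dm η0 heps hmu hδe hae hη0 hlab hxy hD => ?_⟩
  obtain ⟨hδ, -, -, hOk, -, hω, hjl, hDm, hout, hbad⟩ := hD
  have ha0 := P.a0_pos
  have hδ1 : δ ≤ 1 := by linarith
  have haδ : P.a0 ≤ δ := by nlinarith
  have hae' : P.a0 ≤ e := by linarith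
  have hv : ∀ κ ∈ s, 2 * N * t0 ≤ ν κ := fun κ hκs => by
    have := (hν κ hκs).1
    rw [le_div_iff₀ hn] at this
    linarith
  have hv0 : ∀ κ ∈ s, (0 : ℝ) < ν κ := fun κ hκs => lt_of_lt_of_le (by positivity) (hv κ hκs)
  have hL0 : ∀ κ ∈ s, 0 < L κ := fun κ hκs => hLm.trans_le (hL κ hκs).1
  set r : Λ → ℝ := fun κ => 2 * N / (κ'' * (ν κ + 3)) with hr
  have hx : ∀ κ ∈ s, x κ = Pos κ * r κ := fun κ hκs => by
    have := hv0 κ hκs
    rw [(hxy κ hκs).1, hr]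
    field_simp
  have hy : ∀ κ ∈ s, y κ = (Pos κ + L κ) * r κ := fun κ hκs => by
    have := hv0 κ hκs
    rw [(hxy κ hκs).2.1, hr]
    field_simp
  have hr0 : ∀ κ ∈ s, 0 < r κ := fun κ hκs => by
    have := hv0 κ hκs
    simp only [hr]
    positivity
  have ctx : ∀ κ ∈ s, FsCtx P δ ω θ (2 * N) (ν κ) (r κ) (lo κ) (hi κ) (x κ) (y κ) := by
    intro κ hκs
    have h0 := hv0 κ hκs
    have h1 := hr0 κ hκs
    obtain ⟨-, hP0, hP1⟩ := hL κ hκs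
    have h2 := hL0 κ hκs
    obtain ⟨h3, h4⟩ := he5 κ hκs
    refine ⟨hδ, fun J => (hω J).1, hn, h0, (hlo κ hκs).1, ?_, ?_, ?_, ?_, ?_, ?_, ?_, ?_⟩
    · have h5 : κ'' * ((ν κ + 1 : ℝ) / (2 * N)) * P.a0 ≤ κ'' * ((ν κ + 1 : ℝ) / (2 * N)) * e := by
        gcongr
      rw [heps]
      nlinarith
    · rw [hx κ hκs]; positivity
    · rw [hx κ hκs, hy κ hκs]; nlinarith
    · rw [hy κ hκs]; nlinarith
    · have : r κ ≤ 1 / (κ'' * t0) := by
        simp only [hr]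
        rw [div_le_div_iff₀ (by positivity) (by positivity)]
        nlinarith [hv κ hκs]
      rw [hmu]; linarith
    · simp only [hr]
      rw [heps]
      field_simp
    · have h5 : κ'' * (ν κ + 3) * P.a0 ≤ κ'' * (ν κ + 3) * e := by gcongr
      rw [heps]
      nlinarith
    · nlinarith
  -- the bound for the density
  set M : Λ → ℝ := fun κ => P.a0 * (C * (2 * N) / (L κ * r κ)) with hM
  have hM0 : ∀ κ ∈ s, 0 ≤ M κ := fun κ hκs => by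
    have := hL0 κ hκs
    have := hr0 κ hκs
    simp only [hM]
    positivity
  have hMD : ∀ κ ∈ s, ∀ j z, Y.D κ j z ≤ M κ := fun κ hκs j z => by
    refine (hDm κ j z).trans (mul_le_mul_of_nonneg_left ((hxy κ hκs).2.2.trans (le_of_eq ?_)) ha0.le)
    have := hv0 κ hκs
    have := hL0 κ hκs
    simp only [hr]
    field_simp
  have hyx : ∀ κ ∈ s, y κ - x κ = L κ * r κ := fun κ hκs => by
    rw [hx κ hκs, hy κ hκs]; ring
  refine ⟨fun κ => fsS P δ ω θ (2 * N) (ν κ) (lo κ) (hi κ) (x κ) (y κ),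
    fun κ j => if κ ∈ s then fsOm P δ ω θ (lo κ) (hi κ) (x κ) (y κ) j else ∅,
    fun κ hκs => ⟨fsS_meas, (ctx κ hκs).S_subset, ?_⟩, fun κ hκs κ' hκs' hνν hdis => ?_,
    fun κ j => ?_, fun κ hκs => ?_, fun κ hκs A hA => ?_⟩
  · refine ((ctx κ hκs).S_vol (hL0 κ hκs).le (hyx κ hκs)).trans ?_
    have := hL0 κ hκs
    gcongr
    nlinarith
  · have c' := ctx κ' hκs'
    have hrr : r κ' = r κ := by simp only [hr, hνν]
    rw [hrr, ← hνν] at c'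
    simp only [← hνν]
    refine (ctx κ hκs).S_disj c' ?_
    rw [hx κ hκs, hy κ hκs, hx κ' hκs', hy κ' hκs', hrr]
    have h1 := hr0 κ hκs
    have h2 := hL0 κ hκs
    have h3 := hL0 κ' hκs'
    by_contra hcon
    push Not at hcon
    have h4 : Pos κ' < Pos κ + L κ := lt_of_mul_lt_mul_right hcon.1 h1.le
    have h5 : Pos κ < Pos κ' + L κ' := lt_of_mul_lt_mul_right hcon.2 h1.le
    rw [Set.Ioo_disjoint_Ioo] at hdis
    exact absurd hdis (not_le.2 (max_lt (lt_min (by linarith) h5) (lt_min h4 (by linarith))))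
  · by_cases hκs : κ ∈ s
    · simp only [if_pos hκs]
      exact ⟨fsOm_meas j, (ctx κ hκs).Om_subset j, fun z hz => (ctx κ hκs).Om_mem j hz⟩
    · simp [hκs]
  · simp only [if_pos hκs]
    have c := ctx κ hκs
    obtain ⟨B, hB, h1⟩ := c.outside Y hOk.1 κ (hM0 κ hκs) (hMD κ hκs)
      (fun i hi' => hi' ▸ hjl i)
    have h2 := c.card_bad (hν κ hκs).2 heps hδ1 haδ hbad B hB
    have hT0 : 0 < T := lt_of_lt_of_le (div_pos (by linarith [hv0 κ hκs]) hn) (hν κ hκs).2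
    have h3 : (B.card : ℝ) * (M κ * (y κ - x κ)) = P.a0 * B.card * (C * (2 * N)) := by
      have := hL0 κ hκs
      have := hr0 κ hκs
      rw [hyx κ hκs]
      simp only [hM]
      field_simp
    have h4 : P.a0 / δ ≤ e := by rwa [div_le_iff₀ hδ]
    have h5 : P.a0 * B.card * (C * (2 * N)) ≤
        (2 * ((T + 3) * θ) + e * ((T + 1) * (κ'' * (T + 1) + 1))) * (C * (2 * N)) := by
      refine mul_le_mul_of_nonneg_right (h2.trans ?_) (by positivity)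
      gcongr
    have h6 := hout κ
    rw [h3] at h1
    nlinarith
  · simp only [if_pos hκs]
    refine ((ctx κ hκs).push Y hOk.1 κ (hM0 κ hκs) (hMD κ hκs) hA).trans ?_
    refine mul_le_mul_of_nonneg_right ?_ ENNReal.toReal_nonneg
    have h0 := hv0 κ hκs
    have h2 := hL0 κ hκs
    have h3 : M κ * (2 * N / (P.eps * ν κ)) = C * (1 + 3 / ν κ) * (2 * N) / L κ := by
      simp only [hM, hr]
      rw [heps]
      field_simp
    rw [h3]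
    have := hv κ hκs
    gcongr

end Crest.Agent.R081
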