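import Crest.Agent.R081.DS

/-! Auxiliary lemmas for the final stage (`fstage`). -/

set_option autoImplicit false

namespace Crest.Agent.R081

open MeasureTheory Set Filter Topology Crest.AnalysisR.Torus3 Crest.Agent.R210 Crest.Agent.R075

variable {Λ : Type}

theorem fs_integrableOn {F : ℝ → ℂ} (hF : Bd F) {E : Set ℝ} (hE : E ⊆ Ico 0 1) :
    IntegrableOn (fun z => ‖F z‖ ^ 2) E := by
  obtain ⟨hm, C, hC⟩ := hF
  have : IntegrableOn (fun z => ‖F z‖ ^ 2) (Ico (0 : ℝ) 1) := by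
    refine Measure.integrableOn_of_bounded (M := C ^ 2) (by simp)
      (hm.norm.pow_const 2).aestronglyMeasurable (ae_of_all _ fun z => ?_)
    rw [Real.norm_eq_abs, abs_of_nonneg (by positivity)]
    exact pow_le_pow_left₀ (norm_nonneg _) (hC z) 2
  exact this.mono_set hE

theorem fs_vol_ne_top {E : Set ℝ} (hE : E ⊆ Ico 0 1) : volume E ≠ ⊤ :=
  ne_top_of_le_ne_top (by simp) (measure_mono hE)

open Classical in
/-- Group the modes of a label by their frequency. -/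
theorem fs_group (Y : FM Λ) (hY : ∀ i, Bd (Y.G i)) (κ : Λ) (E : ℤ → Set ℝ)
    (hE : ∀ j, E j ⊆ Ico 0 1) (hEm : ∀ j, MeasurableSet (E j)) (B : Finset ℤ)
    (hB : ∀ i, Y.lab i = κ → Y.j i ∉ B → volume (E (Y.j i)) = 0) {M : ℝ}
    (hM : ∀ j z, Y.D κ j z ≤ M) :
    (∑ i, if Y.lab i = κ then ∫ z in E (Y.j i), ‖Y.G i z‖ ^ 2 else 0) ≤
      ∑ j ∈ B, M * (volume (E j)).toReal := by
  have h1 : ∀ i, (if Y.lab i = κ then ∫ z in E (Y.j i), ‖Y.G i z‖ ^ 2 else 0) =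
      ∑ j ∈ B, ∫ z in E j, (if Y.lab i = κ ∧ Y.j i = j then ‖Y.G i z‖ ^ 2 else 0) := by
    intro i
    by_cases hi : Y.lab i = κ
    · by_cases hj : Y.j i ∈ B
      · rw [Finset.sum_eq_single_of_mem (Y.j i) hj]
        · simp [hi]
        · intro j _ hne
          simp [hne.symm]
      · rw [if_pos hi, Finset.sum_eq_zero]
        · exact setIntegral_measure_zero _ (hB i hi hj)
        · intro j hjB
          have : Y.j i ≠ j := fun h => hj (h ▸ hjB)
          simp [this]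
    · simp [hi]
  rw [Finset.sum_congr rfl fun i _ => h1 i, Finset.sum_comm]
  refine Finset.sum_le_sum fun j _ => ?_
  have hint : ∀ i, IntegrableOn
      (fun z => if Y.lab i = κ ∧ Y.j i = j then ‖Y.G i z‖ ^ 2 else 0) (E j) := by
    intro i
    by_cases h : Y.lab i = κ ∧ Y.j i = j
    · simpa [h] using fs_integrableOn (hY i) (hE j)
    · simp [h]
  rw [← integral_finsetSum _ fun i _ => hint i]
  calc ∫ z in E j, ∑ i, (if Y.lab i = κ ∧ Y.j i = j then ‖Y.G i z‖ ^ 2 else 0)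
      ≤ ∫ _z in E j, M := by
        refine setIntegral_mono_on (integrable_finsetSum _ fun i _ => hint i)
          (integrableOn_const (fs_vol_ne_top (hE j))) (hEm j) fun z _ => hM j z
    _ = M * (volume (E j)).toReal := by
        rw [setIntegral_const, smul_eq_mul, mul_comm]; rfl

theorem fs_card_le {B U : Finset ℤ} {f : ℤ → Finset ℤ} {m : ℝ}
    (h : ∀ j ∈ B, ∃ J ∈ U, j ∈ f J) (hm : ∀ J ∈ U, ((f J).card : ℝ) ≤ m) :
    (B.card : ℝ) ≤ U.card * m := by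
  have h1 : B ⊆ U.biUnion f := fun j hj => Finset.mem_biUnion.2 (h j hj)
  have h2 : (B.card : ℝ) ≤ ∑ J ∈ U, ((f J).card : ℝ) := by
    exact_mod_cast (Finset.card_le_card h1).trans Finset.card_biUnion_le
  refine h2.trans ?_
  have := Finset.sum_le_card_nsmul U (fun J => ((f J).card : ℝ)) m hm
  simpa using this

/-- The run of the frequency `j`. -/
noncomputable def fsJ (P : Prof) (δ : ℝ) (j : ℤ) : ℤ := ⌊j * P.a0 / δ⌋

/-- Good frequencies. -/
def fsGood (P : Prof) (δ : ℝ) (ω : ℤ → ℝ) (θ lo hi : ℝ) (j : ℤ) : Prop :=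
  lo ≤ j * P.a0 ∧ j * P.a0 ≤ hi ∧ ω (fsJ P δ j) ≤ 1 - θ ∧
    j * P.a0 / (1 - P.eps) ≤ (fsJ P δ j + 1) * δ

/-- The spectral interval of the frequency `j`. -/
def fsI (P : Prof) (δ : ℝ) (ω : ℤ → ℝ) (x y : ℝ) (j : ℤ) : Set ℝ :=
  Ico (P.tt j (ω (fsJ P δ j) + x)) (P.tt j (ω (fsJ P δ j) + y))

/-- Numerical hypotheses for one label (`n = 2 N`, `v = ν κ`, `r = 1 / K`). -/
structure FsCtx (P : Prof) (δ : ℝ) (ω : ℤ → ℝ) (θ n v r lo hi x y : ℝ) : Prop where
  δpos : 0 < δ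
  ω0 : ∀ J, 0 ≤ ω J
  npos : 0 < n
  vpos : 0 < v
  hlo : v / n < lo
  hhi : hi ≤ (1 - P.eps) * ((v + 1) / n)
  x0 : 0 ≤ x
  xy : x ≤ y
  yr : y ≤ r
  hθ : P.sh.mu + r ≤ θ
  hr : P.eps * r * (v + 3) = n * P.a0
  he : P.eps * (v + 3) ≤ 1
  ha : n * P.a0 ≤ 1

theorem fsJ_le (P : Prof) {δ : ℝ} (hδ : 0 < δ) (j : ℤ) : (fsJ P δ j : ℝ) * δ ≤ j * P.a0 := by
  have := Int.floor_le ((j : ℝ) * P.a0 / δ)
  rwa [le_div_iff₀ hδ] at this

theorem lt_fsJ (P : Prof) {δ : ℝ} (hδ : 0 < δ) (j : ℤ) : (j : ℝ) * P.a0 < (fsJ P δ j + 1) * δ := by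
  have := Int.lt_floor_add_one ((j : ℝ) * P.a0 / δ)
  rwa [div_lt_iff₀ hδ] at this

section ctx

variable {P : Prof} {δ : ℝ} {ω : ℤ → ℝ} {θ n v r lo hi x y : ℝ}

theorem FsCtx.jpos (c : FsCtx P δ ω θ n v r lo hi x y) {j : ℤ} (h : lo ≤ j * P.a0) :
    (0 : ℝ) < j := by
  have h1 : 0 < v / n := div_pos c.vpos c.npos
  have h2 : (0 : ℝ) < j * P.a0 := by linarith [c.hlo]
  exact (mul_pos_iff_of_pos_right P.a0_pos).1 h2

theorem FsCtx.hi_lt (c : FsCtx P δ ω θ n v r lo hi x y) : hi < (v + 1) / n := by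
  have h1 : 0 < (v + 1) / n := div_pos (by linarith [c.vpos]) c.npos
  have := mul_pos P.eps_pos h1
  linarith [c.hhi]

theorem FsCtx.mem_W (c : FsCtx P δ ω θ n v r lo hi x y) {j : ℤ} (h : lo ≤ j * P.a0)
    (h' : j * P.a0 ≤ hi) : j ∈ Wi (v / n) ((v + 1) / n) P.a0 :=
  (mem_Wi P.a0_pos).2 ⟨by linarith [c.hlo], by linarith [c.hi_lt]⟩

theorem FsCtx.a0 (c : FsCtx P δ ω θ n v r lo hi x y) (j : ℤ) : 0 ≤ ω (fsJ P δ j) + x :=
  add_nonneg (c.ω0 _) c.x0

theorem FsCtx.b1 (c : FsCtx P δ ω θ n v r lo hi x y) {j : ℤ} (g : fsGood P δ ω θ lo hi j) :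
    ω (fsJ P δ j) + y ≤ 1 - P.sh.mu := by
  linarith [g.2.2.1, c.hθ, c.yr]

theorem FsCtx.b1' (c : FsCtx P δ ω θ n v r lo hi x y) {j : ℤ} (g : fsGood P δ ω θ lo hi j) :
    ω (fsJ P δ j) + y ≤ 1 := by
  linarith [c.b1 g, P.sh.mu_pos]

theorem FsCtx.lower (c : FsCtx P δ ω θ n v r lo hi x y) {j : ℤ} (g : fsGood P δ ω θ lo hi j) :
    j * P.a0 ≤ P.tt j (ω (fsJ P δ j) + x) :=
  (P.tt_ge (c.jpos g.1) (c.a0 j) (by linarith [c.b1' g, c.xy])).1

theorem FsCtx.upper (c : FsCtx P δ ω θ n v r lo hi x y) {j : ℤ} (g : fsGood P δ ω θ lo hi j) :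
    P.tt j (ω (fsJ P δ j) + y) ≤ j * P.a0 / (1 - P.eps) :=
  (P.tt_ge (c.jpos g.1) (by linarith [c.a0 j, c.xy]) (c.b1' g)).2

theorem FsCtx.I_subset (c : FsCtx P δ ω θ n v r lo hi x y) {j : ℤ} (g : fsGood P δ ω θ lo hi j) :
    fsI P δ ω x y j ⊆ Ioo (v / n) ((v + 1) / n) := by
  rintro t ⟨h1, h2⟩
  have he : 0 < 1 - P.eps := by linarith [P.eps_le]
  refine ⟨by linarith [c.lower g, c.hlo, g.1], h2.trans_le ((c.upper g).trans ?_)⟩
  rw [div_le_iff₀ he]
  linarith [g.2.1, c.hhi]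

theorem FsCtx.len_le (c : FsCtx P δ ω θ n v r lo hi x y) {j : ℤ} (g : fsGood P δ ω θ lo hi j)
    {L : ℝ} (hL : 0 ≤ L) (hxy : y - x = L * r) :
    P.tt j (ω (fsJ P δ j) + y) - P.tt j (ω (fsJ P δ j) + x) ≤ P.a0 * L := by
  set a := ω (fsJ P δ j) + x with ha
  set b := ω (fsJ P δ j) + y with hb
  have hb1 : b ≤ 1 := c.b1' g
  have hab : b - a = L * r := by rw [ha, hb]; linarith
  have hab' : a ≤ b := by rw [ha, hb]; linarith [c.xy]
  have he0 := P.eps_pos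
  have he : 0 < 1 - P.eps := by linarith [P.eps_le]
  have hda : 1 - P.eps ≤ 1 - P.eps * a := by nlinarith
  have hdb : 1 - P.eps ≤ 1 - P.eps * b := by nlinarith
  have hda0 : 0 < 1 - P.eps * a := by linarith
  have hdb0 : 0 < 1 - P.eps * b := by linarith
  have hj := c.jpos g.1
  have hn := c.npos
  have hv := c.vpos
  have ha0 := P.a0_pos
  have e1 : P.tt j b - P.tt j a =
      j * P.a0 * (P.eps * (L * r)) / ((1 - P.eps * a) * (1 - P.eps * b)) := by
    unfold Prof.tt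
    rw [← hab]
    field_simp
    ring
  rw [e1, div_le_iff₀ (mul_pos hda0 hdb0)]
  have hr0 : 0 ≤ r := by linarith [c.x0, c.xy, c.yr]
  have h1 : j * P.a0 * n ≤ (1 - P.eps) * (v + 1) := by
    have := g.2.1.trans c.hhi
    rwa [← mul_div_assoc, le_div_iff₀ hn] at this
  have h2 : v + 1 ≤ (1 - P.eps) * (v + 3) := by nlinarith [c.he]
  have h3 : (1 - P.eps) * (1 - P.eps) ≤ (1 - P.eps * a) * (1 - P.eps * b) :=
    mul_le_mul hda hdb he.le hda0.le
  have h4 : j * P.a0 * (P.eps * r) ≤ P.a0 * ((1 - P.eps) * (1 - P.eps)) := by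
    have hv3 : 0 < v + 3 := by linarith
    refine le_of_mul_le_mul_right ?_ hv3
    calc j * P.a0 * (P.eps * r) * (v + 3) = j * P.a0 * (P.eps * r * (v + 3)) := by ring
      _ = P.a0 * (j * P.a0 * n) := by rw [c.hr]; ring
      _ ≤ P.a0 * ((1 - P.eps) * ((1 - P.eps) * (v + 3))) :=
        mul_le_mul_of_nonneg_left (h1.trans (mul_le_mul_of_nonneg_left h2 he.le)) ha0.le
      _ = _ := by ring
  calc j * P.a0 * (P.eps * (L * r)) = L * (j * P.a0 * (P.eps * r)) := by ring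
    _ ≤ L * (P.a0 * ((1 - P.eps * a) * (1 - P.eps * b))) :=
      mul_le_mul_of_nonneg_left (h4.trans (mul_le_mul_of_nonneg_left h3 ha0.le)) hL
    _ = _ := by ring

/-- The intervals are ordered by the frequency. -/
theorem FsCtx.order (c : FsCtx P δ ω θ n v r lo hi x y) {lo' hi' x' y' : ℝ}
    (c' : FsCtx P δ ω θ n v r lo' hi' x' y') {j j' : ℤ} (g : fsGood P δ ω θ lo hi j)
    (g' : fsGood P δ ω θ lo' hi' j') (hjj : j < j') :
    P.tt j (ω (fsJ P δ j) + y) ≤ P.tt j' (ω (fsJ P δ j') + x') := by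
  have ha0 := P.a0_pos
  have hδ := c.δpos
  have hjj' : (j : ℝ) + 1 ≤ j' := by exact_mod_cast hjj
  have hJ : fsJ P δ j ≤ fsJ P δ j' := by
    unfold fsJ
    gcongr
  rcases hJ.lt_or_eq with hJ | hJ
  · have h1 : (fsJ P δ j : ℝ) + 1 ≤ fsJ P δ j' := by exact_mod_cast hJ
    calc _ ≤ j * P.a0 / (1 - P.eps) := c.upper g
      _ ≤ (fsJ P δ j + 1) * δ := g.2.2.2
      _ ≤ fsJ P δ j' * δ := by gcongr
      _ ≤ j' * P.a0 := fsJ_le P hδ j'
      _ ≤ _ := c'.lower g'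
  · have hb := c.b1' g
    have hb' := c'.b1' g'
    rw [← hJ] at hb' ⊢
    set w := ω (fsJ P δ j) with hw
    have hw0 : 0 ≤ w := c.ω0 _
    have he0 := P.eps_pos
    have he : 0 < 1 - P.eps := by linarith [P.eps_le]
    have hy0 : 0 ≤ y := c.x0.trans c.xy
    have hw1 : w ≤ 1 := by linarith
    have hd1 : 0 < 1 - P.eps * (w + y) := by nlinarith
    have hd2 : 0 < 1 - P.eps * (w + x') := by nlinarith [c'.xy]
    have hj := c.jpos g.1
    have hn := c.npos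
    have hv := c.vpos
    have h1 : j * P.a0 * n ≤ v + 1 := by
      have := g.2.1.trans c.hi_lt.le
      rwa [le_div_iff₀ hn] at this
    have h2 : (j + 1) * (P.eps * r) ≤ 1 - P.eps := by
      have hv3 : 0 < v + 3 := by linarith
      refine le_of_mul_le_mul_right ?_ hv3
      calc (j + 1) * (P.eps * r) * (v + 3) = (j + 1) * (P.eps * r * (v + 3)) := by ring
        _ = j * P.a0 * n + n * P.a0 := by rw [c.hr]; ring
        _ ≤ (1 - P.eps) * (v + 3) := by nlinarith [c.he, c.ha]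
    have h3 : (j + 1) * (P.eps * y) ≤ 1 - P.eps * w := by
      have : (j + 1) * (P.eps * y) ≤ (j + 1) * (P.eps * r) := by
        have := c.yr
        gcongr
      nlinarith
    unfold Prof.tt
    rw [div_le_div_iff₀ hd1 hd2]
    have h4 : j * (1 - P.eps * (w + x')) ≤ j' * (1 - P.eps * (w + y)) := by
      have h5 : j * (1 - P.eps * (w + x')) ≤ j * (1 - P.eps * w) := by
        have := mul_nonneg he0.le c'.x0
        gcongr
        linarith [c'.x0]
      have h6 : (j + 1) * (1 - P.eps * (w + y)) ≤ j' * (1 - P.eps * (w + y)) := by gcongr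
      nlinarith
    nlinarith

theorem FsCtx.disj (c : FsCtx P δ ω θ n v r lo hi x y) {lo' hi' x' y' : ℝ}
    (c' : FsCtx P δ ω θ n v r lo' hi' x' y') {j j' : ℤ} (g : fsGood P δ ω θ lo hi j)
    (g' : fsGood P δ ω θ lo' hi' j') (h : j ≠ j' ∨ y ≤ x' ∨ y' ≤ x) :
    Disjoint (fsI P δ ω x y j) (fsI P δ ω x' y' j') := by
  have key : P.tt j (ω (fsJ P δ j) + y) ≤ P.tt j' (ω (fsJ P δ j') + x') ∨
      P.tt j' (ω (fsJ P δ j') + y') ≤ P.tt j (ω (fsJ P δ j) + x) := by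
    rcases lt_trichotomy j j' with hj | hj | hj
    · exact Or.inl (c.order c' g g' hj)
    · subst hj
      rcases h with h | h | h
      · exact absurd rfl h
      · exact Or.inl (P.tt_le_tt (c.jpos g.1) (by linarith) (by linarith [c'.b1' g', c'.xy]))
      · exact Or.inr (P.tt_le_tt (c.jpos g.1) (by linarith) (by linarith [c.b1' g, c.xy]))
    · exact Or.inr (c'.order c g' g hj)
  rw [Set.disjoint_left]
  rintro t ⟨h1, h2⟩ ⟨h3, h4⟩
  rcases key with k | k <;> linarith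

open Classical in
/-- The finite set of good frequencies. -/
noncomputable def fsG (P : Prof) (δ : ℝ) (ω : ℤ → ℝ) (θ n v lo hi : ℝ) : Finset ℤ :=
  (Wi (v / n) ((v + 1) / n) P.a0).filter (fsGood P δ ω θ lo hi)

/-- The spectral set. -/
def fsS (P : Prof) (δ : ℝ) (ω : ℤ → ℝ) (θ n v lo hi x y : ℝ) : Set ℝ :=
  ⋃ j ∈ fsG P δ ω θ n v lo hi, fsI P δ ω x y j

open Classical in
/-- The arcs. -/
def fsOm (P : Prof) (δ : ℝ) (ω : ℤ → ℝ) (θ lo hi x y : ℝ) (j : ℤ) : Set ℝ :=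
  if fsGood P δ ω θ lo hi j then Ico (ω (fsJ P δ j) + x) (ω (fsJ P δ j) + y) else ∅

theorem FsCtx.mem_G (c : FsCtx P δ ω θ n v r lo hi x y) {j : ℤ} :
    j ∈ fsG P δ ω θ n v lo hi ↔ fsGood P δ ω θ lo hi j := by
  classical
  unfold fsG
  rw [Finset.mem_filter]
  exact ⟨fun h => h.2, fun g => ⟨c.mem_W g.1 g.2.1, g⟩⟩

theorem fsS_meas : MeasurableSet (fsS P δ ω θ n v lo hi x y) :=
  Finset.measurableSet_biUnion _ fun _ _ => measurableSet_Ico

theorem FsCtx.S_subset (c : FsCtx P δ ω θ n v r lo hi x y) :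
    fsS P δ ω θ n v lo hi x y ⊆ Ioo (v / n) ((v + 1) / n) :=
  iUnion₂_subset fun _ hj => c.I_subset (c.mem_G.1 hj)

theorem FsCtx.S_vol (c : FsCtx P δ ω θ n v r lo hi x y) {L : ℝ} (hL : 0 ≤ L)
    (hxy : y - x = L * r) :
    (volume (fsS P δ ω θ n v lo hi x y)).toReal ≤ (1 + n * P.a0) * L / n := by
  classical
  have ha0 := P.a0_pos
  have hn := c.npos
  have h1 : (volume (fsS P δ ω θ n v lo hi x y)).toReal ≤
      ∑ j ∈ fsG P δ ω θ n v lo hi, (volume (fsI P δ ω x y j)).toReal :=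
    measureReal_biUnion_finset_le (μ := volume) _ _
  have h2 : ∀ j ∈ fsG P δ ω θ n v lo hi, (volume (fsI P δ ω x y j)).toReal ≤ P.a0 * L := by
    intro j hj
    have := c.len_le (c.mem_G.1 hj) hL hxy
    unfold fsI
    rw [Real.volume_Ico]
    exact ENNReal.toReal_le_of_le_ofReal (by positivity) (ENNReal.ofReal_le_ofReal this)
  have h3 := Finset.sum_le_card_nsmul _ _ _ h2
  have h4 : ((fsG P δ ω θ n v lo hi).card : ℝ) ≤ ((v + 1) / n - v / n) / P.a0 + 1 := by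
    refine le_trans ?_ (card_Wi_le ha0 (by gcongr; linarith))
    exact_mod_cast Finset.card_filter_le _ _
  rw [nsmul_eq_mul] at h3
  calc _ ≤ _ := h1
    _ ≤ _ := h3
    _ ≤ (((v + 1) / n - v / n) / P.a0 + 1) * (P.a0 * L) := by gcongr
    _ = _ := by field_simp; ring

theorem FsCtx.S_disj (c : FsCtx P δ ω θ n v r lo hi x y) {lo' hi' x' y' : ℝ}
    (c' : FsCtx P δ ω θ n v r lo' hi' x' y') (h : y ≤ x' ∨ y' ≤ x) :
    Disjoint (fsS P δ ω θ n v lo hi x y) (fsS P δ ω θ n v lo' hi' x' y') := by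
  unfold fsS
  simp only [disjoint_iUnion_left, disjoint_iUnion_right]
  intro j' hj' j hj
  exact c.disj c' (c.mem_G.1 hj) (c'.mem_G.1 hj') (Or.inr h)

theorem fsOm_meas (j : ℤ) : MeasurableSet (fsOm P δ ω θ lo hi x y j) := by
  unfold fsOm
  split_ifs
  · exact measurableSet_Ico
  · exact MeasurableSet.empty

theorem FsCtx.Om_subset (c : FsCtx P δ ω θ n v r lo hi x y) (j : ℤ) :
    fsOm P δ ω θ lo hi x y j ⊆ Ico 0 (1 - P.sh.mu) := by
  unfold fsOm
  split_ifs with g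
  · exact Ico_subset_Ico (c.a0 j) (c.b1 g)
  · exact empty_subset _

theorem FsCtx.Om_subset' (c : FsCtx P δ ω θ n v r lo hi x y) (j : ℤ) :
    fsOm P δ ω θ lo hi x y j ⊆ Ico 0 1 :=
  (c.Om_subset j).trans (Ico_subset_Ico le_rfl (by linarith [P.sh.mu_pos]))

theorem FsCtx.Om_mem (c : FsCtx P δ ω θ n v r lo hi x y) (j : ℤ) {z : ℝ}
    (hz : z ∈ fsOm P δ ω θ lo hi x y j) : (j : ℝ) * P.al z ∈ fsS P δ ω θ n v lo hi x y := by
  have h1 := c.Om_subset j hz
  rw [P.mul_al_eq _ (Ico_subset_Icc_self h1)]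
  unfold fsOm at hz
  split_ifs at hz with g
  · refine mem_iUnion₂.2 ⟨j, c.mem_G.2 g, ?_, ?_⟩
    · exact P.tt_le_tt (c.jpos g.1) hz.1 (by linarith [h1.2, P.sh.mu_pos])
    · exact P.tt_lt_tt (c.jpos g.1) hz.2 (c.b1' g)
  · exact absurd hz (notMem_empty _)

/-- The push-forward of Lebesgue measure on one arc. -/
theorem FsCtx.push_one (c : FsCtx P δ ω θ n v r lo hi x y) {j : ℤ} (g : fsGood P δ ω θ lo hi j)
    {A : Set ℝ} (hA : MeasurableSet A) :
    (volume (fsOm P δ ω θ lo hi x y j ∩ {z | (j : ℝ) * P.al z ∈ A})).toReal ≤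
      n / (P.eps * v) * (volume (A ∩ fsI P δ ω x y j)).toReal := by
  have hj := c.jpos g.1
  have hn := c.npos
  have hv := c.vpos
  have he0 := P.eps_pos
  have ha0 := P.a0_pos
  have e1 : fsOm P δ ω θ lo hi x y j ∩ {z | (j : ℝ) * P.al z ∈ A} =
      Ico (ω (fsJ P δ j) + x) (ω (fsJ P δ j) + y) ∩ {w | P.tt j w ∈ A} := by
    have e2 : fsOm P δ ω θ lo hi x y j = Ico (ω (fsJ P δ j) + x) (ω (fsJ P δ j) + y) := by
      unfold fsOm
      rw [if_pos g]
    ext z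
    simp only [mem_inter_iff, mem_ofPred_eq]
    constructor
    · rintro ⟨h1, h2⟩
      rw [P.mul_al_eq _ (Ico_subset_Icc_self (c.Om_subset j h1))] at h2
      exact ⟨e2 ▸ h1, h2⟩
    · rintro ⟨h1, h2⟩
      rw [← e2] at h1
      rw [← P.mul_al_eq _ (Ico_subset_Icc_self (c.Om_subset j h1))] at h2
      exact ⟨h1, h2⟩
  rw [e1, P.volume_preimage hj (by linarith [c.xy]) (c.b1' g) hA]
  have hfin : volume (A ∩ fsI P δ ω x y j) < ⊤ :=
    (measure_mono inter_subset_right).trans_lt (by unfold fsI; simp)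
  have h := norm_setIntegral_le_of_norm_le_const (μ := volume) (s := A ∩ fsI P δ ω x y j)
    (f := fun t : ℝ => (j : ℝ) * P.a0 / (P.eps * t ^ 2)) (C := n / (P.eps * v)) hfin (by
      rintro t ⟨-, ht⟩
      have h1 : j * P.a0 ≤ t := (c.lower g).trans ht.1
      have h2 : v / n < t := (c.I_subset g ht).1
      have h3 : 0 < t := (div_pos hv hn).trans h2
      rw [div_lt_iff₀ hn] at h2
      rw [Real.norm_eq_abs, abs_of_nonneg (by positivity),
        div_le_div_iff₀ (by positivity) (by positivity)]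
      have h4 : j * P.a0 * v ≤ t * (t * n) := by gcongr
      nlinarith [mul_le_mul_of_nonneg_left h4 he0.le])
  exact (le_abs_self _).trans h

open Classical in
/-- The push-forward bound. -/
theorem FsCtx.push (c : FsCtx P δ ω θ n v r lo hi x y) (Y : FM Λ) (hY : ∀ i, Bd (Y.G i)) (κ : Λ)
    {M : ℝ} (hM0 : 0 ≤ M) (hM : ∀ j z, Y.D κ j z ≤ M) {A : Set ℝ} (hA : MeasurableSet A) :
    (∑ i, if Y.lab i = κ then ∫ z in fsOm P δ ω θ lo hi x y (Y.j i) ∩
      {z | (Y.j i : ℝ) * P.al z ∈ A}, ‖Y.G i z‖ ^ 2 else 0) ≤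
      M * (n / (P.eps * v)) * (volume (A ∩ fsS P δ ω θ n v lo hi x y)).toReal := by
  have hn := c.npos
  have hv := c.vpos
  have he0 := P.eps_pos
  have h1 := fs_group Y hY κ (fun j => fsOm P δ ω θ lo hi x y j ∩ {z | (j : ℝ) * P.al z ∈ A})
    (fun j => inter_subset_left.trans (c.Om_subset' j))
    (fun j => (fsOm_meas j).inter ((P.al_contDiff.continuous.measurable.const_mul _) hA))
    (fsG P δ ω θ n v lo hi) (fun i _ hi' => by
      have : fsOm P δ ω θ lo hi x y (Y.j i) = ∅ := by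
        unfold fsOm
        rw [if_neg fun g => hi' (c.mem_G.2 g)]
      simp [this]) hM
  refine h1.trans ?_
  have h2 : (volume (A ∩ fsS P δ ω θ n v lo hi x y)).toReal =
      ∑ j ∈ fsG P δ ω θ n v lo hi, (volume (A ∩ fsI P δ ω x y j)).toReal := by
    unfold fsS
    rw [inter_iUnion₂]
    refine measureReal_biUnion_finset (μ := volume) (fun j hj j' hj' hne => ?_)
      (fun j _ => hA.inter measurableSet_Ico) (fun j _ => ?_)
    · exact (c.disj c (c.mem_G.1 hj) (c.mem_G.1 hj') (Or.inl hne)).mono inter_subset_right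
        inter_subset_right
    · exact ne_top_of_le_ne_top (by unfold fsI; simp) (measure_mono inter_subset_right)
  rw [h2, Finset.mul_sum]
  refine Finset.sum_le_sum fun j hj => ?_
  rw [mul_assoc]
  exact mul_le_mul_of_nonneg_left (c.push_one (c.mem_G.1 hj) hA) hM0

/-- Counting the bad frequencies. -/
theorem FsCtx.card_bad (c : FsCtx P δ ω θ n v r lo hi x y) {T κ'' : ℝ} (hT : (v + 1) / n ≤ T)
    (hκ : P.eps = κ'' * P.a0) (hδ1 : δ ≤ 1) (haδ : P.a0 ≤ δ)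
    (hbad : δ * (((Finset.Icc 0 ⌈(T + 1) / δ⌉).filter fun J => 1 - θ < ω J).card : ℝ) ≤ (T + 3) * θ)
    (B : Finset ℤ) (hB : ∀ j ∈ B, lo ≤ j * P.a0 ∧ j * P.a0 ≤ hi ∧ ¬ fsGood P δ ω θ lo hi j) :
    P.a0 * B.card ≤ 2 * ((T + 3) * θ) + P.a0 / δ * ((T + 1) * (κ'' * (T + 1) + 1)) := by
  classical
  have ha0 := P.a0_pos
  have hδ := c.δpos
  have he0 := P.eps_pos
  have he : 0 < 1 - P.eps := by linarith [P.eps_le]
  have hT0 : 0 < T := lt_of_lt_of_le (div_pos (by linarith [c.vpos]) c.npos) hT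
  have hκ0 : 0 < κ'' := by
    rw [hκ] at he0
    exact (mul_pos_iff_of_pos_right ha0).1 he0
  have hJ : ∀ j ∈ B, 0 ≤ fsJ P δ j ∧ fsJ P δ j ≤ ⌊T / δ⌋ := by
    intro j hj
    have h1 := c.jpos (hB j hj).1
    have h2 : j * P.a0 ≤ T := by linarith [(hB j hj).2.1, c.hi_lt]
    refine ⟨Int.floor_nonneg.2 (by positivity), ?_⟩
    unfold fsJ
    gcongr
  set B1 := B.filter fun j => 1 - θ < ω (fsJ P δ j) with hB1
  set B2 := B.filter fun j => ¬ 1 - θ < ω (fsJ P δ j) with hB2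
  have hc : (B.card : ℝ) = B1.card + B2.card := by
    exact_mod_cast (Finset.card_filter_add_card_filter_not (s := B) _).symm
  have c1 : (B1.card : ℝ) ≤
      ((Finset.Icc 0 ⌈(T + 1) / δ⌉).filter fun J => 1 - θ < ω J).card * (δ / P.a0 + 1) := by
    refine fs_card_le (f := fun J : ℤ => Wi (J * δ) ((J + 1) * δ) P.a0) (fun j hj => ?_)
      (fun J _ => ?_)
    · obtain ⟨hj, hj'⟩ := Finset.mem_filter.1 hj
      refine ⟨fsJ P δ j, Finset.mem_filter.2 ⟨Finset.mem_Icc.2 ⟨(hJ j hj).1, ?_⟩, hj'⟩,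
        (mem_Wi ha0).2 ⟨fsJ_le P hδ j, lt_fsJ P hδ j⟩⟩
      refine (hJ j hj).2.trans ((Int.floor_le_ceil _).trans ?_)
      gcongr
      linarith
    · refine (card_Wi_le ha0 (by nlinarith)).trans (le_of_eq ?_)
      ring
  have c2 : (B2.card : ℝ) ≤ (Finset.Icc 0 ⌊T / δ⌋).card * (κ'' * (T + 1) + 1) := by
    refine fs_card_le (f := fun J : ℤ => Wi ((1 - P.eps) * ((J + 1) * δ)) ((J + 1) * δ) P.a0)
      (fun j hj => ?_) (fun J hJ' => ?_)
    · obtain ⟨hj, hj'⟩ := Finset.mem_filter.1 hj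
      refine ⟨fsJ P δ j, Finset.mem_Icc.2 (hJ j hj), (mem_Wi ha0).2 ⟨?_, lt_fsJ P hδ j⟩⟩
      by_contra hcon
      refine (hB j hj).2.2 ⟨(hB j hj).1, (hB j hj).2.1, not_lt.1 hj', ?_⟩
      rw [div_le_iff₀ he]
      linarith [not_le.1 hcon]
    · obtain ⟨h1, h2⟩ := Finset.mem_Icc.1 hJ'
      have h3 : (0 : ℝ) ≤ J := by exact_mod_cast h1
      have h4 : (J : ℝ) * δ ≤ T := by
        have : (J : ℝ) ≤ T / δ := Int.le_floor.1 h2
        rwa [le_div_iff₀ hδ] at this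
      have h5 : 0 ≤ (J + 1 : ℝ) * δ := by positivity
      refine (card_Wi_le ha0 (by nlinarith)).trans ?_
      have : ((J + 1) * δ - (1 - P.eps) * ((J + 1) * δ)) / P.a0 = κ'' * ((J + 1) * δ) := by
        rw [hκ]; field_simp; ring
      rw [this]
      gcongr
      linarith
  have c3 : ((Finset.Icc 0 ⌊T / δ⌋).card : ℝ) ≤ (T + 1) / δ := by
    have h1 : 0 ≤ ⌊T / δ⌋ := Int.floor_nonneg.2 (by positivity)
    have h2 : (((Finset.Icc 0 ⌊T / δ⌋).card : ℤ) : ℝ) = ((⌊T / δ⌋ + 1 - 0 : ℤ) : ℝ) := by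
      rw [Int.card_Icc_of_le _ _ (by omega)]
    have h3 : (1 : ℝ) ≤ 1 / δ := by rw [le_div_iff₀ hδ]; linarith
    have h4 := Int.floor_le (T / δ)
    push_cast at h2
    rw [h2, add_div]
    linarith
  set m := (((Finset.Icc 0 ⌈(T + 1) / δ⌉).filter fun J => 1 - θ < ω J).card : ℝ) with hm
  have hm0 : 0 ≤ m := Nat.cast_nonneg _
  have d1 : P.a0 * B1.card ≤ 2 * ((T + 3) * θ) := by
    calc P.a0 * B1.card ≤ P.a0 * (m * (δ / P.a0 + 1)) := by gcongr
      _ = δ * m + P.a0 * m := by field_simp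
      _ ≤ δ * m + δ * m := by gcongr
      _ ≤ _ := by linarith
  have d2 : P.a0 * B2.card ≤ P.a0 / δ * ((T + 1) * (κ'' * (T + 1) + 1)) := by
    calc P.a0 * B2.card ≤ P.a0 * ((T + 1) / δ * (κ'' * (T + 1) + 1)) := by
          gcongr
          exact c2.trans (by gcongr)
      _ = _ := by ring
  rw [hc]
  linarith

open Classical in
/-- The mass outside the arcs `fsOm`. -/
theorem FsCtx.outside (c : FsCtx P δ ω θ n v r lo hi x y) (Y : FM Λ) (hY : ∀ i, Bd (Y.G i)) (κ : Λ)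
    {M : ℝ} (hM0 : 0 ≤ M) (hM : ∀ j z, Y.D κ j z ≤ M)
    (hj : ∀ i, Y.lab i = κ → lo ≤ Y.j i * P.a0 ∧ Y.j i * P.a0 ≤ hi) :
    ∃ B : Finset ℤ, (∀ j ∈ B, lo ≤ j * P.a0 ∧ j * P.a0 ≤ hi ∧ ¬ fsGood P δ ω θ lo hi j) ∧
      (∑ i, if Y.lab i = κ then ∫ z in Ico (0 : ℝ) 1 \ fsOm P δ ω θ lo hi x y (Y.j i),
        ‖Y.G i z‖ ^ 2 else 0) ≤
      (∑ i, if Y.lab i = κ then ∫ z in Ico (0 : ℝ) 1 \
        Arc (ω ⌊Y.j i * P.a0 / δ⌋ + x) (ω ⌊Y.j i * P.a0 / δ⌋ + y), ‖Y.G i z‖ ^ 2 else 0) +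
        B.card * (M * (y - x)) := by
  set B := (Wi (v / n) ((v + 1) / n) P.a0).filter
    fun j : ℤ => lo ≤ j * P.a0 ∧ j * P.a0 ≤ hi ∧ ¬ fsGood P δ ω θ lo hi j with hB
  refine ⟨B, fun j hj => (Finset.mem_filter.1 hj).2, ?_⟩
  set Ar : ℤ → Set ℝ := fun j => Arc (ω (fsJ P δ j) + x) (ω (fsJ P δ j) + y) with hAr
  set E : ℤ → Set ℝ := fun j => (Ico (0 : ℝ) 1 ∩ Ar j) \ fsOm P δ ω θ lo hi x y j with hE
  have hEs : ∀ j, E j ⊆ Ico 0 1 := fun j => sdiff_subset.trans inter_subset_left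
  have hEm : ∀ j, MeasurableSet (E j) := fun j =>
    (measurableSet_Ico.inter (measurableSet_Arc _ _)).diff (fsOm_meas j)
  have h1 := fs_group Y hY κ E hEs hEm B (fun i hi' hB' => by
      have g : fsGood P δ ω θ lo hi (Y.j i) := by
        by_contra g
        exact hB' (Finset.mem_filter.2 ⟨c.mem_W (hj i hi').1 (hj i hi').2,
          (hj i hi').1, (hj i hi').2, g⟩)
      refine measure_mono_null (t := {ω (fsJ P δ (Y.j i)) + y}) ?_ (by simp)
      rintro z ⟨⟨⟨hz0, hz1⟩, m, hm1, hm2⟩, hz⟩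
      have h1 := c.a0 (Y.j i)
      have h2 := c.b1 g
      have h3 := P.sh.mu_pos
      have hm : m = 0 := by
        have a1 : (-1 : ℝ) < m := by linarith
        have a2 : (m : ℝ) < 1 := by linarith
        have a3 : -1 < m := by exact_mod_cast a1
        have a4 : m < 1 := by exact_mod_cast a2
        omega
      subst hm
      unfold fsOm at hz
      rw [if_pos g] at hz
      simp only [Int.cast_zero, add_zero] at hm1 hm2
      exact le_antisymm hm2 (not_lt.1 fun h => hz ⟨hm1, h⟩)) hM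
  have h2 : ∀ j ∈ B, M * (volume (E j)).toReal ≤ M * (y - x) := by
    intro j _
    refine mul_le_mul_of_nonneg_left ?_ hM0
    have := volume_Arc_le (x := ω (fsJ P δ j) + x) (y := ω (fsJ P δ j) + y) (by linarith [c.xy])
    refine le_trans (ENNReal.toReal_mono (fs_vol_ne_top inter_subset_left)
      (measure_mono sdiff_subset)) (this.trans (le_of_eq (by ring)))
  have h3 := Finset.sum_le_card_nsmul _ _ _ h2
  rw [nsmul_eq_mul] at h3
  refine le_trans ?_ (add_le_add le_rfl (h1.trans h3))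
  rw [← Finset.sum_add_distrib]
  refine Finset.sum_le_sum fun i _ => ?_
  split_ifs with hi'
  · have hd : Disjoint (Ico (0 : ℝ) 1 \ Ar (Y.j i)) (E (Y.j i)) :=
      Set.disjoint_left.2 fun z hz hz' => hz.2 hz'.1.2
    have hu := setIntegral_union (μ := volume) (f := fun z => ‖Y.G i z‖ ^ 2) hd (hEm _)
      (fs_integrableOn (hY i) sdiff_subset) (fs_integrableOn (hY i) (hEs _))
    refine le_trans ?_ hu.le
    refine setIntegral_mono_set (fs_integrableOn (hY i) (union_subset sdiff_subset (hEs _)))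
      (ae_of_all _ fun z => by positivity) (LE.le.eventuallyLE ?_)
    rintro z ⟨hz, hz'⟩
    by_cases hA : z ∈ Ar (Y.j i)
    · exact Or.inr ⟨⟨hz, hA⟩, hz'⟩
    · exact Or.inl ⟨hz, hA⟩
  · simp

end ctx

end Crest.Agent.R081
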