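import Crest.Agent.R081.Close

/-! Passage to the limit, continuity of Koopman operators, von Neumann's inequality. -/

set_option autoImplicit false

namespace Crest.Agent.R081

open MeasureTheory Set Filter Topology Crest.AnalysisR.Torus3 Crest.Agent.R210 Crest.Agent.R075

theorem limit_proj_add (x y : Fin 3 → ℝ) : proj (x + y) = proj x + proj y := by
  funext i
  simp [proj]

theorem limit_continuous_proj : Continuous proj :=
  continuous_pi fun i => (AddCircle.continuous_mk' 1).comp (continuous_apply i)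

theorem limit_one (A : ℕ → Equiv.Perm T3) (hA : ∀ n, Good (A n)) (τ : ℕ → ℝ) (hτ : Summable τ)
    (hc : ∀ n, Close n (τ n) (A n) (A (n + 1))) (hd : ∀ n x, dist (A n x) (A (n + 1) x) ≤ τ n) :
    ∃ f : T3 → T3, (∃ F, IsSmoothLift f F) ∧ Continuous f ∧ MeasurePreserving f volume volume ∧
      TendstoUniformly (fun n => A n) f atTop ∧ ∀ n x, dist (A n x) (f x) ≤ ∑' m, τ (n + m) := by
  choose f hf using fun x => cauchySeq_tendsto_of_complete
    (cauchySeq_of_dist_le_of_summable (f := fun n => A n x) τ (fun n => hd n x) hτ)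
  have hle : ∀ n x, dist (A n x) (f x) ≤ ∑' m, τ (n + m) := fun n x =>
    dist_le_tsum_of_dist_le_of_tendsto (f := fun n => A n x) τ (fun n => hd n x) hτ (hf x) n
  have hu : TendstoUniformly (fun n => A n) f atTop := by
    refine Metric.tendstoUniformly_iff.2 fun ε hε => ?_
    filter_upwards [(tendsto_sum_nat_add τ).eventually (gt_mem_nhds hε)] with n hn x
    rw [dist_comm]
    simp only [add_comm _ n] at hn
    exact (hle n x).trans_lt hn
  have hcont : Continuous f :=
    hu.continuous (Eventually.of_forall fun n => continuous_of_good (hA n)).frequently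
  refine ⟨f, ?_, hcont, ⟨hcont.measurable, ?_⟩, hu, hle⟩
  · choose V hV1 hV2 hV3 using hc
    obtain ⟨F, hF1, hF2⟩ := (hA 0).1.1
    have hW : ContDiff ℝ (⊤ : ℕ∞) fun x => ∑' n, V n x := by
      refine contDiff_tsum_of_eventually (v := fun _ => τ) hV1 (fun _ _ => hτ) fun k _ => ?_
      rw [Nat.cofinite_eq_atTop]
      filter_upwards [eventually_ge_atTop k] with n hn using hV3 n k hn
    refine ⟨fun x => F x + ∑' n, V n x, hF1.add hW, fun x => ?_⟩
    have h1 : ∀ n, A n (proj x) = proj (F x + ∑ i ∈ Finset.range n, V i x) := by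
      intro n
      induction n with
      | zero => simpa using hF2 x
      | succ n ih => rw [hV2, ih, ← limit_proj_add, Finset.sum_range_succ, add_assoc]
    have h2 : Summable fun n => V n x := Summable.of_norm_bounded hτ fun n => by
      simpa using hV3 n 0 n.zero_le x
    have h3 := (limit_continuous_proj.tendsto _).comp (h2.hasSum.tendsto_sum_nat.const_add (F x))
    exact tendsto_nhds_unique (hf (proj x)) (h3.congr fun n => (h1 n).symm)
  · refine ext_of_forall_integral_eq_of_IsFiniteMeasure fun φ => ?_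
    rw [integral_map hcont.aemeasurable φ.continuous.aestronglyMeasurable]
    have h1 : ∀ n, ∫ x, φ (A n x) = ∫ x, φ x := fun n => by
      conv_rhs => rw [← (hA n).2.1.map_eq]
      rw [integral_map (hA n).2.1.aemeasurable φ.continuous.aestronglyMeasurable]
    have h2 := tendsto_integral_of_dominated_convergence (μ := (volume : Measure T3))
      (F := fun n x => φ (A n x)) (f := fun x => φ (f x)) (fun _ => ‖φ‖)
      (fun n => (φ.continuous.comp (continuous_of_good (hA n))).aestronglyMeasurable)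
      (integrable_const _) (fun n => Eventually.of_forall fun x => φ.norm_coe_le_norm _)
      (Eventually.of_forall fun x => (φ.continuous.tendsto _).comp (hf x))
    simp only [h1] at h2
    exact tendsto_nhds_unique h2 tendsto_const_nhds

/-- Limit of a rapidly converging sequence: sum the fields `V n` (`contDiff_tsum_of_eventually`),
same for the inverses; the two limits are mutually inverse by uniform convergence and continuity;
volume preservation passes to the limit (test against bounded continuous functions,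
`ext_of_forall_integral_eq_of_IsFiniteMeasure`). -/
theorem exists_limit (T : ℕ → VD) (τ : ℕ → ℝ) (hτ : Summable τ) (h0 : ∀ n, 0 ≤ τ n)
    (hT : ∀ n, Close2 n (τ n) (T n) (T (n + 1))) :
    ∃ S : VD, ∀ n, Near (∑' m, τ (n + m)) (T n) S := by
  obtain ⟨f, hf1, hf2, hf3, hf4, hf5⟩ := limit_one (fun n => T n) (fun n => (T n).2) τ hτ
    (fun n => (hT n).1) fun n x => ((hT n).near x).1
  obtain ⟨g, hg1, hg2, hg3, hg4, hg5⟩ := limit_one (fun n => ((T n)⁻¹ : VD)) (fun n => ((T n)⁻¹).2)
    τ hτ (fun n => (hT n).2) fun n x => ((hT n).near x).2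
  refine ⟨⟨⟨f, g, fun x => ?_, fun x => ?_⟩, ⟨hf1, hg1⟩, hf3, hg3⟩, fun n x => ⟨hf5 n x, hg5 n x⟩⟩
  · have := hg4.tendsto_comp hg2.continuousAt (hf4.tendsto_at x)
    exact tendsto_nhds_unique this (tendsto_const_nhds.congr fun n => by simp)
  · have := hf4.tendsto_comp hf2.continuousAt (hg4.tendsto_at x)
    exact tendsto_nhds_unique this (tendsto_const_nhds.congr fun n => by simp)

/-- a diffeomorphism as a continuous map -/
def limit_cm (T : VD) : C(T3, T3) := ⟨(T : Equiv.Perm T3), continuous_of_good T.2⟩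

theorem limit_tendsto_kp {T : VD} {S : ℕ → VD} {v : H3} {w : ℕ → H3}
    (h : ∀ n x, dist ((T : Equiv.Perm T3) x) ((S n : Equiv.Perm T3) x) ≤ 1 / ((n : ℝ) + 1))
    (hw : Tendsto w atTop (𝓝 v)) : Tendsto (fun n => kp (S n) (w n)) atTop (𝓝 (kp T v)) := by
  have h1 : Tendsto (fun n => limit_cm (S n)) atTop (𝓝 (limit_cm T)) := by
    rw [tendsto_iff_dist_tendsto_zero]
    refine squeeze_zero (fun _ => dist_nonneg) (fun n => ?_)
      (tendsto_one_div_add_atTop_nhds_zero_nat (𝕜 := ℝ))
    rw [dist_comm]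
    exact (ContinuousMap.dist_le (by positivity)).2 (h n)
  exact hw.compMeasurePreservingLp h1 (fun n => (S n).2.2.1) T.2.2.1 (by simp)

theorem limit_tendsto_zpow {T : VD} {S : ℕ → VD}
    (h : ∀ n : ℕ, Near (1 / ((n : ℝ) + 1)) T (S n))
    (v : H3) (l : ℤ) : Tendsto (fun n => kp (S n ^ l) v) atTop (𝓝 (kp (T ^ l) v)) := by
  induction l using Int.induction_on with
  | zero => simp
  | succ l ih =>
    simp only [zpow_add_one, kp_mul]
    exact limit_tendsto_kp (fun n x => (h n x).1) ih
  | pred l ih =>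
    simp only [zpow_sub_one, kp_mul]
    exact limit_tendsto_kp (S := fun n => (S n)⁻¹) (fun n x => (h n x).2) ih

theorem limit_of_seq (T : VD) (Φ : VD → H3)
    (h : ∀ S : ℕ → VD, (∀ n : ℕ, Near (1 / ((n : ℝ) + 1)) T (S n)) →
      Tendsto (fun n => Φ (S n)) atTop (𝓝 (Φ T))) {η : ℝ} (hη : 0 < η) :
    ∃ τ > 0, ∀ S : VD, Near τ T S → ‖Φ S - Φ T‖ ≤ η := by
  by_contra hne
  push Not at hne
  choose S hS1 hS2 using fun n : ℕ => hne (1 / ((n : ℝ) + 1)) (by positivity)
  obtain ⟨n, hn⟩ :=
    ((tendsto_iff_norm_sub_tendsto_zero.1 (h S hS1)).eventually (gt_mem_nhds hη)).exists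
  exact hn.not_gt (hS2 n)

/-- Strong continuity of Koopman operators: approximate `v` by a continuous function and use
uniform continuity; induction on `l`. -/
theorem kp_zpow_near (T : VD) (v : H3) (l : ℤ) {η : ℝ} (hη : 0 < η) :
    ∃ τ > 0, ∀ S : VD, Near τ T S → ‖kp (S ^ l) v - kp (T ^ l) v‖ ≤ η :=
  limit_of_seq T (fun S => kp (S ^ l) v) (fun _ h => limit_tendsto_zpow h v l) hη

theorem app_near (T : VD) (v : H3) (b : ℤ →₀ ℂ) {η : ℝ} (hη : 0 < η) :
    ∃ τ > 0, ∀ S : VD, Near τ T S → ‖app b S v - app b T v‖ ≤ η :=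
  limit_of_seq T (fun S => app b S v) (fun _ h => tendsto_finsetSum _ fun l _ =>
    (limit_tendsto_zpow h v l).const_smul _) hη

/-- the Koopman operator as a unitary -/
noncomputable def limit_U (T : VD) : unitary (H3 →L[ℂ] H3) :=
  Unitary.linearIsometryEquiv.symm
    (LinearIsometryEquiv.ofSurjective (kp T) fun v => ⟨_, kp_kp_inv T v⟩)

theorem limit_U_apply (T : VD) (v : H3) : (limit_U T : H3 →L[ℂ] H3) v = kp T v := rfl

theorem limit_U_zpow (T : VD) (l : ℤ) : limit_U (T ^ l) = limit_U T ^ l := by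
  let Φ : VD →* unitary (H3 →L[ℂ] H3) := MonoidHom.mk' (fun S => limit_U S⁻¹) fun A B => by
    refine Subtype.ext (ContinuousLinearMap.ext fun v => ?_)
    rw [mul_inv_rev, limit_U_apply, kp_mul]
    rfl
  have := map_zpow Φ T⁻¹ l
  simpa [Φ] using this

/-- Von Neumann's inequality for the unitary `kp T` (continuous functional calculus in
`H3 →L[ℂ] H3`, the spectrum of a unitary lies in the circle; or a direct averaging argument). -/
theorem norm_app_le (T : VD) (b : ℤ →₀ ℂ) {M : ℝ} (hM : ∀ θ, ‖tp b θ‖ ≤ M) (v : H3) :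
    ‖app b T v‖ ≤ M * ‖v‖ := by
  have hM0 : 0 ≤ M := (norm_nonneg _).trans (hM 0)
  have hn : IsStarNormal (limit_U T : H3 →L[ℂ] H3) := inferInstance
  have hs : ∀ z ∈ spectrum ℂ (limit_U T : H3 →L[ℂ] H3), ‖z‖ = 1 := fun z hz =>
    spectrum.norm_eq_one_of_unitary (limit_U T).2 hz
  have hc : ∀ l : ℤ, ContinuousOn (fun z : ℂ => z ^ l) (spectrum ℂ (limit_U T : H3 →L[ℂ] H3)) :=
    fun l => continuousOn_id.zpow₀ l fun z hz => Or.inl (by
      rw [id, ← norm_ne_zero_iff, hs z hz]; exact one_ne_zero)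
  have h1 : ∀ l : ℤ, cfc (fun z : ℂ => z ^ l) (limit_U T : H3 →L[ℂ] H3) = limit_U (T ^ l) := by
    intro l
    have := cfc_zpow (R := ℂ) (Unitary.toUnits (limit_U T)) l hn
    rw [← map_zpow, ← limit_U_zpow] at this
    exact this
  have h2 : cfc (∑ l ∈ b.support, fun z : ℂ => b l * z ^ l) (limit_U T : H3 →L[ℂ] H3) v =
      app b T v := by
    rw [cfc_sum (fun l z => b l * z ^ l) _ _ fun l _ => continuousOn_const.mul (hc l), sum_apply,
      app, Finsupp.sum]
    refine Finset.sum_congr rfl fun l _ => ?_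
    rw [cfc_const_mul _ _ _ (hc l), h1]
    rfl
  rw [← h2]
  refine (ContinuousLinearMap.le_opNorm _ _).trans (mul_le_mul_of_nonneg_right ?_ (norm_nonneg _))
  refine norm_cfc_le hM0 fun z hz => ?_
  obtain ⟨a, ε, -, h3, -⟩ := exists_ee (hs z hz) 1 one_pos
  refine le_of_eq_of_le (congrArg _ ?_) (hM ((a + ε) / (1 : ℕ)))
  rw [Finset.sum_apply, tp, Finsupp.sum]
  refine Finset.sum_congr rfl fun l _ => ?_
  rw [h3, ee, ee, ← Complex.exp_int_mul]
  congr 2
  push_cast
  ring

end Crest.Agent.R081
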