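import Crest.Agent.R081.Macro
import Crest.Agent.R081.Limit

/-! The recursive construction and its limit. -/

set_option autoImplicit false

namespace Crest.Agent.R081

open MeasureTheory Set Filter Topology Crest.AnalysisR.Torus3 Crest.Agent.R210 Crest.Agent.R075
open scoped InnerProductSpace ComplexConjugate

/-- The characters of the torus. -/
noncomputable def chr (k : ℤ × ℤ × ℤ) : H3 := EE k.1 k.2.1 fun w => ee (k.2.2 * w)

theorem L3_one_eq : (L3 fun _ => 1) = chr 0 := by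
  unfold chr EE
  congr 1
  funext x
  simp [ee_zero]

theorem integral_ee_int {l : ℤ} (hl : l ≠ 0) : ∫ w in (0 : ℝ)..1, ee (l * w) = 0 := by
  have hc : (2 * Real.pi * l * Complex.I : ℂ) ≠ 0 := by
    have : (Real.pi : ℂ) ≠ 0 := by exact_mod_cast Real.pi_ne_zero
    have : (l : ℂ) ≠ 0 := by exact_mod_cast hl
    simp [*]
  have e : (fun w : ℝ => ee (l * w)) = fun w : ℝ => Complex.exp ((2 * Real.pi * l * Complex.I) * w) := by
    funext w; unfold ee; congr 1; push_cast; ring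
  rw [e, integral_exp_mul_complex hc]
  have : Complex.exp (2 * Real.pi * l * Complex.I * ((1 : ℝ) : ℂ)) = 1 := by
    have := Complex.exp_int_mul_two_pi_mul_I l
    rw [← this]; congr 1; push_cast; ring
  rw [this]; simp

theorem inner_one_chr {k : ℤ × ℤ × ℤ} (hk : k ≠ 0) : ⟪L3 fun _ => 1, chr k⟫_ℂ = 0 := by
  rw [L3_one_eq]
  unfold chr
  rw [inner_EE _ _ _ _ (Bd.ee (by fun_prop)) (Bd.ee (by fun_prop))]
  split_ifs with h
  · have h3 : k.2.2 ≠ 0 := by
      intro h3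
      apply hk
      obtain ⟨a, b, c⟩ := k
      simp only [Prod.fst_zero, Prod.snd_zero] at h h3
      simp [← h.1, ← h.2, h3]
    simpa [ee_zero] using integral_ee_int h3
  · rfl

/-- The state of the construction. -/
structure St where
  H : VD
  P : Prof
  g : H3
  η : ℝ
  γ : ℝ
  β : ℝ
  h0 : 0 ≤ η
  h1 : η ≤ 1 / 2
  hγ : √η ≤ γ
  γpos : 0 < γ
  γle : γ ≤ 1
  βpos : 0 < β
  inv : Inv H P g η

noncomputable def St.T (s : St) : VD := TT s.H s.P 0

theorem St.step (s : St) (n : ℕ) (f : H3) (hf : ⟪L3 fun _ => 1, f⟫_ℂ = 0) :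
    ∃ s' : St, Close2 n s.β s.T s'.T ∧ ‖s'.g - s.g‖ ≤ 7 * s.γ ∧ s'.γ ≤ s.γ / 2 ∧ s'.β ≤ s.β / 2 ∧
      ∀ (S : VD) (g : H3), Near (2 * s'.β) s'.T S → ‖g - s'.g‖ ≤ 14 * s'.γ →
        ∃ b : ℤ →₀ ℂ, ‖f - app b S g‖ ≤ 16 * s.γ := by
  obtain ⟨M, hM⟩ := macro_step s.h0 s.h1 s.inv f hf n s.βpos s.γpos
  have hγ := s.γpos
  have hγ1 := s.γle
  set γ' : ℝ := s.γ / (2 + |M|) with hγ'
  have hd : 0 < 2 + |M| := by positivity
  have hγ'0 : 0 < γ' := by positivity
  have hγ'1 : γ' ≤ s.γ / 2 := by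
    apply div_le_div_of_nonneg_left hγ.le (by norm_num)
    linarith [abs_nonneg M]
  obtain ⟨H', P', g', hI, hC, hg, b, hb, hf'⟩ := hM (γ' ^ 2) (by positivity)
  obtain ⟨τ, hτ, hτ'⟩ := app_near (TT H' P' 0) g' b hγ
  have hβ := s.βpos
  refine ⟨⟨H', P', g', γ' ^ 2, γ', min (s.β / 2) (τ / 2), by positivity, by nlinarith,
    by rw [Real.sqrt_sq hγ'0.le], hγ'0, by linarith, by positivity, hI⟩, hC,
    by linarith [s.hγ], hγ'1, min_le_left _ _, fun S g hS hg' => ⟨b, ?_⟩⟩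
  have h1 : ‖app b S g' - app b (TT H' P' 0) g'‖ ≤ s.γ := by
    apply hτ'
    intro x
    have := hS x
    have h2 : 2 * min (s.β / 2) (τ / 2) ≤ τ := by linarith [min_le_right (s.β / 2) (τ / 2)]
    exact ⟨this.1.trans h2, this.2.trans h2⟩
  have h2 : ‖app b S g - app b S g'‖ ≤ 14 * s.γ := by
    rw [← app_sub_vec]
    refine (norm_app_le S b (M := |M|) (fun θ => (hb θ).trans (le_abs_self M)) _).trans ?_
    have h3 : |M| * γ' ≤ s.γ := by
      rw [hγ', mul_div_assoc', div_le_iff₀ hd]; nlinarith [abs_nonneg M]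
    calc |M| * ‖g - g'‖ ≤ |M| * (14 * γ') := mul_le_mul_of_nonneg_left hg' (abs_nonneg M)
      _ ≤ 14 * s.γ := by nlinarith
  calc ‖f - app b S g‖ = ‖(f - app b (TT H' P' 0) g') - (app b S g' - app b (TT H' P' 0) g') -
        (app b S g - app b S g')‖ := by congr 1; abel
    _ ≤ s.γ + s.γ + 14 * s.γ := by
      refine (norm_sub_le _ _).trans (add_le_add ((norm_sub_le _ _).trans (add_le_add hf' h1)) h2)
    _ = 16 * s.γ := by ring

theorem exists_St : Nonempty St := by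
  obtain ⟨S, -⟩ := exists_shape (μ := 1 / 2) (by norm_num) le_rfl
  obtain ⟨δ, P, -⟩ := (exists_prof S one_pos).exists
  refine ⟨⟨1, P, 0, 1 / 2, 1, 1, by norm_num, le_rfl, ?_, one_pos, le_rfl, one_pos, inv_zero P⟩⟩
  exact Real.sqrt_le_one.mpr (by norm_num)

theorem le_geom {u : ℕ → ℝ} (h : ∀ n, u (n + 1) ≤ u n / 2) (n m : ℕ) :
    u (n + m) ≤ u n * (1 / 2) ^ m := by
  induction m with
  | zero => simp
  | succ m ih =>
    calc u (n + (m + 1)) ≤ u (n + m) / 2 := h (n + m)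
      _ ≤ u n * (1 / 2) ^ m / 2 := by linarith
      _ = _ := by ring

theorem summable_of_half {u : ℕ → ℝ} (h0 : ∀ n, 0 ≤ u n) (h : ∀ n, u (n + 1) ≤ u n / 2) :
    Summable u := by
  refine Summable.of_nonneg_of_le h0 (fun m => ?_)
    (summable_geometric_two.mul_left (u 0))
  simpa using le_geom h 0 m

theorem tsum_le_of_half {u : ℕ → ℝ} (h0 : ∀ n, 0 ≤ u n) (h : ∀ n, u (n + 1) ≤ u n / 2) (n : ℕ) :
    ∑' m, u (n + m) ≤ 2 * u n := by
  have hs : Summable fun m => u (n + m) :=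
    summable_of_half (fun m => h0 _) (fun m => h (n + m))
  calc ∑' m, u (n + m) ≤ ∑' m, u n * (1 / 2) ^ m :=
        hs.tsum_le_tsum (le_geom h n) (summable_geometric_two.mul_left (u n))
    _ = 2 * u n := by rw [tsum_mul_left, tsum_geometric_two]; ring

theorem tendsto_of_half {u : ℕ → ℝ} (h0 : ∀ n, 0 ≤ u n) (h : ∀ n, u (n + 1) ≤ u n / 2) :
    Tendsto u atTop (𝓝 0) := (summable_of_half h0 h).tendsto_atTop_zero

theorem Near.mono {τ τ' : ℝ} {T S : VD} (h : Near τ T S) (hτ : τ ≤ τ') : Near τ' T S :=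
  fun x => ⟨(h x).1.trans hτ, (h x).2.trans hτ⟩

theorem Near.symm {τ : ℝ} {T S : VD} (h : Near τ T S) : Near τ S T :=
  fun x => ⟨by rw [dist_comm]; exact (h x).1, by rw [dist_comm]; exact (h x).2⟩

theorem continuous_star' : Continuous fun v : H3 => star v := by
  refine (LipschitzWith.of_dist_le_mul (K := 1) fun v w => ?_).continuous
  rw [dist_eq_norm, dist_eq_norm, ← star_sub', norm_star']; simp

/-- The Hilbert space form of the theorem. -/
theorem exists_cyclic : ∃ (T : VD) (g : H3), star g = g ∧ ⟪L3 fun _ => 1, g⟫_ℂ = 0 ∧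
    (∀ i : ℤ, ⟪g, kp (T ^ i) g⟫_ℂ = if i = 0 then 1 else 0) ∧
    ∀ v : H3, ⟪L3 fun _ => 1, v⟫_ℂ = 0 → (∀ i : ℤ, ⟪kp (T ^ i) g, v⟫_ℂ = 0) → v = 0 := by
  classical
  obtain ⟨en, hen⟩ := exists_surjective_nat (ℤ × ℤ × ℤ)
  let f : ℕ → H3 := fun n => if en (Nat.unpair n).1 = 0 then 0 else chr (en (Nat.unpair n).1)
  have hf : ∀ n, ⟪L3 fun _ => 1, f n⟫_ℂ = 0 := by
    intro n
    simp only [f]
    split_ifs with h
    · simp
    · exact inner_one_chr h
  choose nx hnx using fun (s : St) (n : ℕ) => s.step n (f n) (hf n)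
  obtain ⟨s0⟩ := exists_St
  let s : ℕ → St := fun n => Nat.rec s0 (fun n x => nx x n) n
  have hs : ∀ n, s (n + 1) = nx (s n) n := fun n => rfl
  have hγ : ∀ n, (s (n + 1)).γ ≤ (s n).γ / 2 := fun n => (hnx (s n) n).2.2.1
  have hβ : ∀ n, (s (n + 1)).β ≤ (s n).β / 2 := fun n => (hnx (s n) n).2.2.2.1
  have hγ0 : ∀ n, 0 ≤ (s n).γ := fun n => (s n).γpos.le
  have hβ0 : ∀ n, 0 ≤ (s n).β := fun n => (s n).βpos.le
  obtain ⟨T, hT⟩ := exists_limit (fun n => (s n).T) (fun n => (s n).β) (summable_of_half hβ0 hβ)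
    hβ0 (fun n => (hnx (s n) n).1)
  have hT' : ∀ n, Near (2 * (s n).β) (s n).T T := fun n =>
    (hT n).mono (tsum_le_of_half (u := fun n => (s n).β) hβ0 hβ n)
  have hd : ∀ n, dist (s n).g (s (n + 1)).g ≤ 7 * (s n).γ := fun n => by
    rw [dist_comm, dist_eq_norm]; exact (hnx (s n) n).2.1
  have hsum : Summable fun n => 7 * (s n).γ := (summable_of_half hγ0 hγ).mul_left 7
  obtain ⟨g, hg⟩ := cauchySeq_tendsto_of_complete (cauchySeq_of_dist_le_of_summable _ hd hsum)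
  have hgd : ∀ n, ‖g - (s n).g‖ ≤ 14 * (s n).γ := fun n => by
    rw [← dist_eq_norm, dist_comm]
    refine (dist_le_tsum_of_dist_le_of_tendsto _ hd hsum hg n).trans ?_
    rw [tsum_mul_left]
    linarith [tsum_le_of_half (u := fun n => (s n).γ) hγ0 hγ n]
  have hγlim : Tendsto (fun n => (s n).γ) atTop (𝓝 0) := tendsto_of_half hγ0 hγ
  have hβlim : Tendsto (fun n => (s n).β) atTop (𝓝 0) := tendsto_of_half hβ0 hβ
  refine ⟨T, g, ?_, ?_, fun i => ?_, fun v hv0 hv => ?_⟩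
  · refine tendsto_nhds_unique ((continuous_star'.tendsto g).comp hg) ?_
    refine hg.congr fun n => ?_
    exact (s n).inv.star_eq.symm
  · refine tendsto_nhds_unique (Tendsto.inner tendsto_const_nhds hg) ?_
    exact tendsto_const_nhds.congr fun n => (s n).inv.mean_zero.symm
  · have h1 : Tendsto (fun n => kp ((s n).T ^ i) (s n).g) atTop (𝓝 (kp (T ^ i) g)) := by
      rw [Metric.tendsto_nhds]
      intro ε hε
      obtain ⟨τ, hτ, hτ'⟩ := kp_zpow_near T g i (η := ε / 3) (by positivity)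
      filter_upwards [hβlim.eventually (gt_mem_nhds (show (0 : ℝ) < τ / 2 by positivity)),
        hγlim.eventually (gt_mem_nhds (show (0 : ℝ) < ε / 42 by positivity))] with n h2 h3
      have h4 := hτ' (s n).T ((hT' n).symm.mono (by linarith))
      have h5 : ‖kp ((s n).T ^ i) (s n).g - kp ((s n).T ^ i) g‖ ≤ 14 * (s n).γ := by
        rw [← map_sub, LinearIsometry.norm_map, norm_sub_rev]; exact hgd n
      rw [dist_eq_norm]
      calc ‖kp ((s n).T ^ i) (s n).g - kp (T ^ i) g‖ ≤ _ := norm_sub_le_norm_sub_add_norm_sub _ _ _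
        _ ≤ 14 * (s n).γ + ε / 3 := add_le_add h5 h4
        _ < ε := by linarith
    refine tendsto_nhds_unique (Tendsto.inner hg h1) ?_
    rw [tendsto_iff_norm_sub_tendsto_zero]
    refine squeeze_zero (fun n => norm_nonneg _) (fun n => (s n).inv.flat (s n).h0 i) ?_
    have : Tendsto (fun n => 4 * (s n).γ ^ 2) atTop (𝓝 (4 * 0 ^ 2)) :=
      (hγlim.pow 2).const_mul 4
    simp only [ne_eq, OfNat.ofNat_ne_zero, not_false_eq_true, zero_pow, mul_zero] at this
    refine squeeze_zero (fun n => by linarith [(s n).h0]) (fun n => ?_) this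
    have h1 := (s n).hγ
    have h2 := Real.sq_sqrt (s n).h0
    nlinarith [Real.sqrt_nonneg (s n).η]
  · have happ : ∀ b : ℤ →₀ ℂ, ⟪app b T g, v⟫_ℂ = 0 := fun b => by
      unfold app Finsupp.sum
      rw [sum_inner]
      refine Finset.sum_eq_zero fun l _ => ?_
      rw [inner_smul_left, hv, mul_zero]
    have hfn : ∀ n, ‖⟪f n, v⟫_ℂ‖ ≤ 16 * (s n).γ * ‖v‖ := fun n => by
      obtain ⟨b, hb⟩ := (hnx (s n) n).2.2.2.2 T g (hT' (n + 1)) (hgd (n + 1))
      have : ⟪f n, v⟫_ℂ = ⟪f n - app b T g, v⟫_ℂ := by rw [inner_sub_left, happ, sub_zero]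
      rw [this]
      exact (norm_inner_le_norm _ _).trans (mul_le_mul_of_nonneg_right hb (norm_nonneg _))
    refine eq_zero_of_inner_EE v fun k => ?_
    change ⟪chr k, v⟫_ℂ = 0
    by_cases hk : k = 0
    · rw [hk, ← L3_one_eq]; exact hv0
    obtain ⟨a, ha⟩ := hen k
    have hlim : Tendsto (fun m => 16 * (s (Nat.pair a m)).γ * ‖v‖) atTop (𝓝 (16 * 0 * ‖v‖)) := by
      refine ((hγlim.comp ?_).const_mul 16).mul_const _
      exact tendsto_atTop_mono (fun m => Nat.right_le_pair a m) tendsto_id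
    rw [← norm_eq_zero]
    refine le_antisymm ?_ (norm_nonneg _)
    simp only [mul_zero, zero_mul] at hlim
    refine ge_of_tendsto' hlim fun m => ?_
    have := hfn (Nat.pair a m)
    simpa [f, ha, hk] using this

end Crest.Agent.R081
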