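import Crest.Agent.R081.Defs

/-! The folding map `t ↦ dist (t, ℤ)` and the grid. -/

set_option autoImplicit false

namespace Crest.Agent.R081

open MeasureTheory Set Filter Topology

theorem fold_eq_norm (t : ℝ) : fold t = ‖(t : UnitAddCircle)‖ := UnitAddCircle.norm_eq.symm

theorem continuous_fold : Continuous fold := by
  have : fold = fun t : ℝ => ‖(t : UnitAddCircle)‖ := funext fold_eq_norm
  rw [this]
  exact (AddCircle.continuous_mk' (1 : ℝ)).norm

theorem fold_nonneg (t : ℝ) : 0 ≤ fold t := abs_nonneg _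

theorem fold_le_half (t : ℝ) : fold t ≤ 1 / 2 := abs_sub_round t

theorem fold_add_int (t : ℝ) (m : ℤ) : fold (t + m) = fold t := by
  unfold fold; rw [round_add_intCast]; congr 1; push_cast; ring

theorem fold_neg (t : ℝ) : fold (-t) = fold t := by
  rw [fold_eq_norm, fold_eq_norm, AddCircle.coe_neg, norm_neg]

theorem fold_eq_of_abs_le {t : ℝ} {m : ℤ} (h : |t - m| ≤ 1 / 2) : fold t = |t - m| := by
  refine le_antisymm (round_le t m) ?_
  unfold fold
  by_cases hm : round t = m
  · rw [hm]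
  · have h1 : (1 : ℝ) ≤ |((round t : ℤ) : ℝ) - m| := by
      have : (1 : ℤ) ≤ |round t - m| := Int.one_le_abs (sub_ne_zero.2 hm)
      exact_mod_cast this
    have h2 : |((round t : ℤ) : ℝ) - m| ≤ |t - round t| + |t - m| := by
      have := abs_sub_le ((round t : ℤ) : ℝ) t m
      rwa [abs_sub_comm ((round t : ℤ) : ℝ) t] at this
    linarith

theorem fold_eq_iff {t t' : ℝ} : fold t = fold t' ↔ ∃ m : ℤ, t' = t + m ∨ t' = -t + m := by
  constructor
  · intro h
    unfold fold at h
    rcases abs_eq_abs.1 h with h | h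
    · exact ⟨round t' - round t, Or.inl (by push_cast; linarith)⟩
    · exact ⟨round t' + round t, Or.inr (by push_cast; linarith)⟩
  · rintro ⟨m, rfl | rfl⟩
    · rw [fold_add_int]
    · rw [fold_add_int, fold_neg]

theorem cls_mem {N : ℕ} (hN : 1 ≤ N) (ν : ℤ) : 0 ≤ cls N ν ∧ cls N ν < N := by
  have h1 := Int.emod_nonneg ν (show (2 * N : ℤ) ≠ 0 by omega)
  have h2 := Int.emod_lt_of_pos ν (show (0 : ℤ) < 2 * N by omega)
  unfold cls
  split_ifs <;> omega

theorem fold_mem_cell_iff {N : ℕ} (hN : 1 ≤ N) {ν : ℤ} {t : ℝ} :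
    t ∈ cell N ν ↔ (ν : ℝ) < 2 * N * t ∧ 2 * N * t < ν + 1 := by
  have : (0 : ℝ) < 2 * N := by have : (1 : ℝ) ≤ N := by exact_mod_cast hN
                               linarith
  unfold cell
  rw [mem_Ioo, div_lt_iff₀ this, lt_div_iff₀ this, mul_comm t]

theorem fold_key {N : ℕ} (hN : 1 ≤ N) {ν : ℤ} {t : ℝ} (ht : t ∈ cell N ν) :
    (ν % (2 * N) < N → fold t = t + (-(ν / (2 * N)) : ℤ)) ∧
      (¬ ν % (2 * N) < N → fold t = -t + (ν / (2 * N) + 1 : ℤ)) := by
  have h1 := Int.emod_nonneg ν (show (2 * N : ℤ) ≠ 0 by omega)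
  have h2 := Int.emod_lt_of_pos ν (show (0 : ℤ) < 2 * N by omega)
  have h3 := Int.mul_ediv_add_emod ν (2 * N)
  rw [fold_mem_cell_iff hN] at ht
  have hN' : (1 : ℝ) ≤ N := by exact_mod_cast hN
  set q := ν / (2 * N)
  set ρ := ν % (2 * N)
  have h4 : (ν : ℝ) = 2 * N * q + ρ := by exact_mod_cast h3.symm
  have h1' : (0 : ℝ) ≤ ρ := by exact_mod_cast h1
  have h2' : (ρ : ℝ) + 1 ≤ 2 * N := by exact_mod_cast h2
  constructor
  · intro h
    have h' : (ρ : ℝ) + 1 ≤ N := by exact_mod_cast h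
    have a1 : 0 < t - q := by nlinarith [ht.1]
    have a2 : t - q < 1 / 2 := by nlinarith [ht.2]
    rw [fold_eq_of_abs_le (m := q) (by rw [abs_of_pos a1]; exact a2.le), abs_of_pos a1]
    push_cast; ring
  · intro h
    have h' : (N : ℝ) ≤ ρ := by exact_mod_cast not_lt.1 h
    have a1 : t - ((q + 1 : ℤ) : ℝ) < 0 := by push_cast; nlinarith [ht.2]
    have a2 : -(t - ((q + 1 : ℤ) : ℝ)) < 1 / 2 := by push_cast; nlinarith [ht.1]
    rw [fold_eq_of_abs_le (m := q + 1) (by rw [abs_of_neg a1]; exact a2.le), abs_of_neg a1]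
    ring

theorem fold_mem_cell {N : ℕ} (hN : 1 ≤ N) {ν : ℤ} {t : ℝ} (ht : t ∈ cell N ν) :
    fold t ∈ cell N (cls N ν) := by
  obtain ⟨k1, k2⟩ := fold_key hN ht
  have h3 := Int.mul_ediv_add_emod ν (2 * N)
  rw [fold_mem_cell_iff hN] at ht ⊢
  unfold cls
  set q := ν / (2 * N)
  set ρ := ν % (2 * N)
  have h4 : (ν : ℝ) = 2 * N * q + ρ := by exact_mod_cast h3.symm
  split_ifs with h
  · rw [k1 h]; push_cast; constructor <;> nlinarith [ht.1, ht.2]
  · rw [k2 h]; push_cast; constructor <;> nlinarith [ht.1, ht.2]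

theorem cell_disjoint {N : ℕ} (hN : 1 ≤ N) {ν ν' : ℤ} (h : ν ≠ ν') :
    Disjoint (cell N ν) (cell N ν') := by
  rw [Set.disjoint_left]
  intro t h1 h2
  rw [fold_mem_cell_iff hN] at h1 h2
  have a1 : (ν : ℝ) < ν' + 1 := h1.1.trans h2.2
  have a2 : (ν' : ℝ) < ν + 1 := h2.1.trans h1.2
  have b1 : ν < ν' + 1 := by exact_mod_cast a1
  have b2 : ν' < ν + 1 := by exact_mod_cast a2
  omega

theorem cls_eq_of_fold_eq {N : ℕ} (hN : 1 ≤ N) {ν ν' : ℤ} {t t' : ℝ} (ht : t ∈ cell N ν)
    (ht' : t' ∈ cell N ν') (h : fold t = fold t') : cls N ν = cls N ν' := by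
  by_contra hne
  exact Set.disjoint_left.1 (cell_disjoint hN hne) (fold_mem_cell hN ht)
    (h ▸ fold_mem_cell hN ht')

/-- On a cell, `fold` is an affine isometry. -/
theorem fold_affine {N : ℕ} (hN : 1 ≤ N) (ν : ℤ) :
    ∃ m : ℤ, (∀ t ∈ cell N ν, fold t = t + m) ∨ ∀ t ∈ cell N ν, fold t = -t + m := by
  by_cases h : ν % (2 * N) < N
  · exact ⟨_, Or.inl fun t ht => (fold_key hN ht).1 h⟩
  · exact ⟨_, Or.inr fun t ht => (fold_key hN ht).2 h⟩

theorem injOn_fold_cell {N : ℕ} (hN : 1 ≤ N) (ν : ℤ) : InjOn fold (cell N ν) := by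
  obtain ⟨m, h | h⟩ := fold_affine hN ν
  · intro t ht t' ht' e
    rw [h t ht, h t' ht'] at e; linarith
  · intro t ht t' ht' e
    rw [h t ht, h t' ht'] at e; linarith

theorem not_half_of_mem_cell {N : ℕ} (hN : 1 ≤ N) {ν : ℤ} {t : ℝ} (ht : t ∈ cell N ν) (m : ℤ) :
    2 * t ≠ m := by
  intro h
  rw [fold_mem_cell_iff hN] at ht
  have e : 2 * N * t = ((N * m : ℤ) : ℝ) := by push_cast; rw [← h]; ring
  rw [e] at ht
  have b1 : ν < N * m := by exact_mod_cast ht.1
  have b2 : N * m < ν + 1 := by exact_mod_cast ht.2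
  omega

theorem measurableSet_fold_image {N : ℕ} (hN : 1 ≤ N) {ν : ℤ} {A : Set ℝ} (hA : MeasurableSet A)
    (h : A ⊆ cell N ν) : MeasurableSet (fold '' A) :=
  hA.image_of_continuousOn_injOn continuous_fold.continuousOn ((injOn_fold_cell hN ν).mono h)

theorem volume_fold_image {N : ℕ} (hN : 1 ≤ N) {ν : ℤ} {A : Set ℝ} (h : A ⊆ cell N ν) :
    volume (fold '' A) = volume A := by
  obtain ⟨m, e | e⟩ := fold_affine hN ν
  · rw [image_congr (fun t ht => e t (h ht)), image_add_right, measure_preimage_add_right]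
  · rw [image_congr (fun t ht => e t (h ht)), ← image_image (fun t : ℝ => t + m) (fun t => -t),
      image_add_right, measure_preimage_add_right, image_neg_eq_neg, Measure.measure_neg]

theorem volume_inter_preimage_le {N : ℕ} (hN : 1 ≤ N) (ν : ℤ) (B : Set ℝ) :
    volume (cell N ν ∩ fold ⁻¹' B) ≤ volume B := by
  rw [← volume_fold_image hN (inter_subset_left (s := cell N ν))]
  refine measure_mono ?_
  rintro _ ⟨t, ht, rfl⟩
  exact ht.2

theorem volume_cell {N : ℕ} (hN : 1 ≤ N) (ν : ℤ) :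
    volume (cell N ν) = ENNReal.ofReal (1 / (2 * N)) := by
  unfold cell
  rw [Real.volume_Ioo]
  congr 1
  ring

theorem fold_emod {N : ℕ} (hN : 1 ≤ N) (ν : ℤ) :
    ν % (2 * N) = N * ((ν / N) % 2) + ν % N := by
  have h1 := Int.emod_nonneg ν (show (N : ℤ) ≠ 0 by omega)
  have h2 := Int.emod_lt_of_pos ν (show (0 : ℤ) < N by omega)
  have h3 := Int.mul_ediv_add_emod ν N
  have h4 := Int.mul_ediv_add_emod (ν / N) 2
  have h5 : ν = (N * ((ν / N) % 2) + ν % N) + 2 * N * (ν / N / 2) := by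
    linear_combination (-1 : ℤ) * h3 - (N : ℤ) * h4
  conv_lhs => rw [h5]
  rw [Int.add_mul_emod_self_left]
  rcases Int.emod_two_eq_zero_or_one (ν / N) with h | h <;> rw [h] <;>
    exact Int.emod_eq_of_lt (by omega) (by omega)

/-- Each block of `N` consecutive cells contains one cell of each class. -/
theorem eq_of_cls_eq {N : ℕ} (hN : 1 ≤ N) {ν ν' : ℤ} (h : cls N ν = cls N ν')
    (h' : ν / N = ν' / N) : ν = ν' := by
  have h1 := Int.emod_nonneg ν (show (N : ℤ) ≠ 0 by omega)
  have h2 := Int.emod_lt_of_pos ν (show (0 : ℤ) < N by omega)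
  have h3 := Int.mul_ediv_add_emod ν N
  have h1' := Int.emod_nonneg ν' (show (N : ℤ) ≠ 0 by omega)
  have h2' := Int.emod_lt_of_pos ν' (show (0 : ℤ) < N by omega)
  have h3' := Int.mul_ediv_add_emod ν' N
  unfold cls at h
  rw [fold_emod hN ν, fold_emod hN ν', ← h'] at h
  rw [← h'] at h3'
  have : ν % N = ν' % N := by
    rcases Int.emod_two_eq_zero_or_one (ν / N) with e | e <;> rw [e] at h <;>
      split_ifs at h <;> omega
  rw [← h3, ← h3', this]

theorem exists_cls_eq {N : ℕ} (hN : 1 ≤ N) (B : ℤ) {r : ℤ} (h0 : 0 ≤ r) (h1 : r < N) :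
    ∃ ν, ν / N = B ∧ cls N ν = r := by
  have key : ∀ s : ℤ, 0 ≤ s → s < N → (s + N * B) / N = B ∧ (s + N * B) % N = s := by
    intro s a b
    constructor
    · rw [Int.add_mul_ediv_left _ _ (by omega), Int.ediv_eq_zero_of_lt a b, zero_add]
    · rw [Int.add_mul_emod_self_left, Int.emod_eq_of_lt a b]
  rcases Int.emod_two_eq_zero_or_one B with e | e
  · obtain ⟨k1, k2⟩ := key r h0 h1
    refine ⟨_, k1, ?_⟩
    unfold cls
    rw [fold_emod hN, k1, k2, e]
    split_ifs <;> omega
  · obtain ⟨k1, k2⟩ := key (N - 1 - r) (by omega) (by omega)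
    refine ⟨_, k1, ?_⟩
    unfold cls
    rw [fold_emod hN, k1, k2, e]
    split_ifs <;> omega

theorem fold_measurableSet_cell (N : ℕ) (ν : ℤ) : MeasurableSet (cell N ν) := measurableSet_Ioo

theorem fold_vol_le {A : Set ℝ} (hA : MeasurableSet A) (h : InjOn fold A) :
    volume A ≤ volume (fold '' A) := by
  have hsub : A ⊆ (⋃ ν : ℤ, A ∩ cell 1 ν) ∪ range (fun m : ℤ => (m : ℝ) / 2) := by
    intro t ht
    by_cases hm : (⌊2 * t⌋ : ℝ) = 2 * t
    · exact Or.inr ⟨⌊2 * t⌋, by simp only []; rw [hm]; ring⟩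
    · refine Or.inl (mem_iUnion.2 ⟨⌊2 * t⌋, ht, ?_⟩)
      rw [fold_mem_cell_iff le_rfl]
      have := Int.floor_le (2 * t)
      have := Int.lt_floor_add_one (2 * t)
      have := lt_of_le_of_ne (Int.floor_le (2 * t)) hm
      push_cast
      constructor <;> linarith
  have h0 : volume (range (fun m : ℤ => (m : ℝ) / 2)) = 0 := (countable_range _).measure_zero _
  calc volume A ≤ volume (⋃ ν : ℤ, A ∩ cell 1 ν) + volume (range (fun m : ℤ => (m : ℝ) / 2)) :=
        (measure_mono hsub).trans (measure_union_le _ _)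
    _ ≤ ∑' ν : ℤ, volume (A ∩ cell 1 ν) := by rw [h0, add_zero]; exact measure_iUnion_le _
    _ = ∑' ν : ℤ, volume (fold '' (A ∩ cell 1 ν)) := by
        congr 1; funext ν; exact (volume_fold_image le_rfl inter_subset_right).symm
    _ = volume (⋃ ν : ℤ, fold '' (A ∩ cell 1 ν)) := by
        refine (measure_iUnion ?_ fun ν => measurableSet_fold_image le_rfl
          (hA.inter (fold_measurableSet_cell 1 ν)) inter_subset_right).symm
        intro ν ν' hne
        refine Set.disjoint_left.2 ?_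
        rintro _ ⟨t, ht, rfl⟩ ⟨t', ht', e⟩
        have := h ht'.1 ht.1 e
        subst this
        exact Set.disjoint_left.1 (cell_disjoint le_rfl hne) ht.2 ht'.2
    _ ≤ _ := measure_mono (iUnion_subset fun ν => image_mono inter_subset_left)

/-- A set on which `fold` is injective has measure at most `1/2`. -/
theorem volume_le_half {E : Set ℝ} (hE : MeasurableSet E) (h : InjOn fold E) :
    volume E ≤ ENNReal.ofReal (1 / 2) := by
  refine (fold_vol_le hE h).trans ?_
  have : fold '' E ⊆ Icc 0 (1 / 2) := by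
    rintro _ ⟨t, -, rfl⟩; exact ⟨fold_nonneg t, fold_le_half t⟩
  refine (measure_mono this).trans ?_
  rw [Real.volume_Icc, sub_zero]

theorem fold_map_le {E : Set ℝ} (hE : MeasurableSet E) (h : InjOn fold E) :
    (volume.restrict E).map fold ≤ volume.restrict (Icc 0 (1 / 2)) := by
  rw [Measure.le_iff]
  intro B hB
  have hm := continuous_fold.measurable
  rw [Measure.map_apply hm hB, Measure.restrict_apply (hm hB), Measure.restrict_apply hB]
  refine (fold_vol_le ((hm hB).inter hE) (h.mono inter_subset_right)).trans (measure_mono ?_)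
  rintro _ ⟨t, ht, rfl⟩
  exact ⟨ht.1, fold_nonneg t, fold_le_half t⟩

/-- Unfolding: for a.e. `θ` at most one of the points `± θ + k` lies in `E`. -/
theorem integral_unfold_le {E : Set ℝ} (hE : MeasurableSet E) (h : InjOn fold E) {φ : ℝ → ℝ}
    (hφ : Measurable φ) (hper : Function.Periodic φ 1) (h0 : ∀ t, 0 ≤ φ t) (h1 : ∀ t, φ t ≤ 1) :
    (∫ t in E, φ t) + ∫ t in E, φ (-t) ≤ ∫ t in (0 : ℝ)..1, φ t := by
  have hφ' : Measurable fun t => φ (-t) := hφ.comp measurable_neg
  have hb : ∀ t, ‖φ t‖ ≤ 1 := fun t => by rw [Real.norm_eq_abs, abs_of_nonneg (h0 t)]; exact h1 t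
  have hi : ∀ S : Set ℝ, volume S ≠ ⊤ → IntegrableOn φ S := fun S hS =>
    Measure.integrableOn_of_bounded hS hφ.aestronglyMeasurable (ae_of_all _ hb)
  have hi' : ∀ S : Set ℝ, volume S ≠ ⊤ → IntegrableOn (fun t => φ (-t)) S := fun S hS =>
    Measure.integrableOn_of_bounded hS hφ'.aestronglyMeasurable (ae_of_all _ fun t => hb _)
  have hii : ∀ a b : ℝ, IntervalIntegrable φ volume a b := fun a b =>
    ⟨hi _ (by simp), hi _ (by simp)⟩
  have hEf : volume E ≠ ⊤ := ((volume_le_half hE h).trans_lt ENNReal.ofReal_lt_top).ne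
  have hψ : Measurable fun s => φ s + φ (-s) := hφ.add hφ'
  have hz : ∀ (t : ℝ) (m : ℤ), φ (t + m) = φ t := fun t m => by
    simpa using hper.int_mul m t
  have e1 : ∀ t, φ t + φ (-t) = φ (fold t) + φ (-fold t) := by
    intro t
    have a1 : φ (t - round t) = φ t := by simpa [sub_eq_add_neg] using hz t (-round t)
    have a2 : φ (-(t - round t)) = φ (-t) := by
      rw [← hz (-t) (round t)]; congr 1; ring
    unfold fold
    rcases abs_choice (t - round t) with e | e <;> rw [e]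
    · rw [a1, a2]
    · rw [neg_neg, a1, a2, add_comm]
  have hI : volume (Icc (0 : ℝ) (1 / 2)) ≠ ⊤ := by simp
  calc (∫ t in E, φ t) + ∫ t in E, φ (-t) = ∫ t in E, (φ (fold t) + φ (-fold t)) := by
        rw [← integral_add (hi E hEf) (hi' E hEf)]
        simp only [← e1]
    _ = ∫ s, (φ s + φ (-s)) ∂((volume.restrict E).map fold) :=
        (integral_map continuous_fold.measurable.aemeasurable hψ.aestronglyMeasurable).symm
    _ ≤ ∫ s in Icc (0 : ℝ) (1 / 2), (φ s + φ (-s)) :=
        integral_mono_measure (fold_map_le hE h) (ae_of_all _ fun s => add_nonneg (h0 _) (h0 _))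
          ((hi _ hI).add (hi' _ hI))
    _ = (∫ s in (0 : ℝ)..(1 / 2), φ s) + ∫ s in (0 : ℝ)..(1 / 2), φ (-s) := by
        rw [integral_add (hi _ hI) (hi' _ hI), intervalIntegral.integral_of_le (by norm_num),
          intervalIntegral.integral_of_le (by norm_num), integral_Icc_eq_integral_Ioc,
          integral_Icc_eq_integral_Ioc]
    _ = ∫ t in (0 : ℝ)..1, φ t := by
        rw [intervalIntegral.integral_comp_neg, neg_zero, add_comm,
          intervalIntegral.integral_add_adjacent_intervals (hii _ _) (hii _ _)]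
        have := hper.intervalIntegral_add_eq (-(1 / 2)) 0
        rw [zero_add] at this
        rw [← this]
        norm_num
    _ ≤ _ := le_rfl

/-- Two cells of the same class that are more than half filled by `E` coincide. -/
theorem eq_of_half {N : ℕ} (hN : 1 ≤ N) {E : Set ℝ} (hE : MeasurableSet E) (h : InjOn fold E)
    {ν ν' : ℤ} (hc : cls N ν = cls N ν')
    (h1 : 1 / (4 * N : ℝ) < (volume (cell N ν ∩ E)).toReal)
    (h2 : 1 / (4 * N : ℝ) < (volume (cell N ν' ∩ E)).toReal) : ν = ν' := by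
  by_contra hne
  have m1 := (fold_measurableSet_cell N ν).inter hE
  have m2 := (fold_measurableSet_cell N ν').inter hE
  have hd : Disjoint (cell N ν ∩ E) (cell N ν' ∩ E) :=
    (cell_disjoint hN hne).mono inter_subset_left inter_subset_left
  have a1 := fold_vol_le (m1.union m2) (h.mono (union_subset inter_subset_right inter_subset_right))
  have a2 : fold '' (cell N ν ∩ E ∪ cell N ν' ∩ E) ⊆ cell N (cls N ν) := by
    rintro _ ⟨t, ht | ht, rfl⟩
    · exact fold_mem_cell hN ht.1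
    · exact hc ▸ fold_mem_cell hN ht.1
  have a3 := a1.trans (measure_mono a2)
  rw [measure_union hd m2, volume_cell hN] at a3
  have f1 : volume (cell N ν ∩ E) ≠ ⊤ :=
    ((le_self_add.trans a3).trans_lt ENNReal.ofReal_lt_top).ne
  have f2 : volume (cell N ν' ∩ E) ≠ ⊤ :=
    ((le_add_self.trans a3).trans_lt ENNReal.ofReal_lt_top).ne
  have a4 := ENNReal.toReal_le_of_le_ofReal (by positivity) a3
  rw [ENNReal.toReal_add f1 f2] at a4
  have : (1 : ℝ) / (2 * N) = 1 / (4 * N) + 1 / (4 * N) := by ring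
  linarith

open Classical in
/-- Grid density: take `K ⊆ E ⊆ U` compact and open with `U \ K` small; a small cell meeting `K`
lies in `U`. -/
theorem grid_density {E : Set ℝ} (hE : MeasurableSet E) (hfin : volume E ≠ ⊤) {ζ : ℝ}
    (hζ : 0 < ζ) : ∀ᶠ N : ℕ in atTop, ∀ s : Finset ℤ,
      (∀ ν ∈ s, (volume (cell N ν ∩ E)).toReal ≤ 1 / (4 * N : ℝ)) →
        ∑ ν ∈ s, (volume (cell N ν ∩ E)).toReal ≤ ζ := by
  have hz : ENNReal.ofReal (ζ / 2) ≠ 0 := by simpa using hζ
  obtain ⟨U, hEU, hU, -, hUE⟩ := hE.exists_isOpen_sdiff_lt hfin hz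
  obtain ⟨K, hKE, hK, hEK⟩ := hE.exists_isCompact_sdiff_lt hfin hz
  obtain ⟨δ, hδ, hth⟩ := hK.exists_thickening_subset_open hU (hKE.trans hEU)
  have hUK : volume (U \ K) ≤ ENNReal.ofReal ζ := by
    have : U \ K ⊆ U \ E ∪ E \ K := by
      intro t ht
      by_cases h : t ∈ E
      · exact Or.inr ⟨h, ht.2⟩
      · exact Or.inl ⟨ht.1, h⟩
    refine (measure_mono this).trans ((measure_union_le _ _).trans ?_)
    refine (add_le_add hUE.le hEK.le).trans ?_
    rw [← ENNReal.ofReal_add (by positivity) (by positivity), add_halves]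
  have mUK : MeasurableSet (U \ K) := hU.measurableSet.diff hK.measurableSet
  filter_upwards [eventually_ge_atTop 1,
    (tendsto_natCast_atTop_atTop (R := ℝ)).eventually_gt_atTop (1 / δ)] with N hN hNδ s hs
  have hN' : (1 : ℝ) ≤ N := by exact_mod_cast hN
  have fc : ∀ ν (A : Set ℝ), volume (cell N ν ∩ A) ≠ ⊤ := fun ν A =>
    (((measure_mono inter_subset_left).trans_eq (volume_cell hN ν)).trans_lt
      ENNReal.ofReal_lt_top).ne
  have key : ∀ ν ∈ s, (volume (cell N ν ∩ E)).toReal ≤ (volume (cell N ν ∩ (U \ K))).toReal := by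
    intro ν hν
    by_cases hm : ∃ t ∈ cell N ν, t ∈ K
    · obtain ⟨t, ht, htK⟩ := hm
      have hsub : cell N ν ∩ Eᶜ ⊆ cell N ν ∩ (U \ K) := by
        intro u hu
        refine ⟨hu.1, hth (Metric.mem_thickening_iff.2 ⟨t, htK, ?_⟩), fun h => hu.2 (hKE h)⟩
        have a1 := (fold_mem_cell_iff hN).1 ht
        have a2 := (fold_mem_cell_iff hN).1 hu.1
        rw [div_lt_iff₀ hδ] at hNδ
        rw [Real.dist_eq, abs_lt]
        constructor <;> nlinarith [a1.1, a1.2, a2.1, a2.2]
      have a1 := measure_inter_add_sdiff (μ := volume) (cell N ν) hE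
      rw [volume_cell hN, Set.sdiff_eq] at a1
      have a2 := congrArg ENNReal.toReal a1
      rw [ENNReal.toReal_add (fc _ _) (fc _ _), ENNReal.toReal_ofReal (by positivity)] at a2
      have a3 := ENNReal.toReal_mono (fc _ _) (measure_mono hsub)
      have a4 := hs ν hν
      have : (1 : ℝ) / (2 * N) = 1 / (4 * N) + 1 / (4 * N) := by ring
      linarith
    · refine ENNReal.toReal_mono (fc _ _) (measure_mono fun u hu => ?_)
      exact ⟨hu.1, hEU hu.2, fun h => hm ⟨u, hu.1, h⟩⟩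
  refine (Finset.sum_le_sum key).trans ?_
  rw [← ENNReal.toReal_sum (fun ν _ => fc ν _), ← measure_biUnion_finset]
  · refine ENNReal.toReal_le_of_le_ofReal hζ.le ((measure_mono ?_).trans hUK)
    exact iUnion₂_subset fun ν _ => inter_subset_right
  · intro ν _ ν' _ hne
    exact (cell_disjoint hN hne).mono inter_subset_left inter_subset_left
  · exact fun ν _ => (fold_measurableSet_cell N ν).inter mUK

end Crest.Agent.R081
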