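import Crest.Agent.R081.Prof

/-! Hilbert space infrastructure: the vectors `EE`, `E1`, Koopman operators, conjugation. -/

set_option autoImplicit false

namespace Crest.Agent.R081

open MeasureTheory Set Filter Topology Crest.AnalysisR.Torus3 Crest.Agent.R210 Crest.Agent.R075
open scoped InnerProductSpace ComplexConjugate

instance : IsProbabilityMeasure (volume : Measure UnitAddCircle) :=
  ⟨by simp⟩

instance : IsProbabilityMeasure (volume : Measure T3) :=
  inferInstanceAs (IsProbabilityMeasure (Measure.pi fun _ : Fin 3 => (volume : Measure UnitAddCircle)))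

/-! ### Bounded measurable functions -/

theorem Bd.add {F G : ℝ → ℂ} (hF : Bd F) (hG : Bd G) : Bd fun w => F w + G w := by
  obtain ⟨h1, C, hC⟩ := hF
  obtain ⟨h2, D, hD⟩ := hG
  exact ⟨h1.add h2, C + D, fun x => (norm_add_le _ _).trans (add_le_add (hC x) (hD x))⟩
theorem Bd.sub {F G : ℝ → ℂ} (hF : Bd F) (hG : Bd G) : Bd fun w => F w - G w := by
  obtain ⟨h1, C, hC⟩ := hF
  obtain ⟨h2, D, hD⟩ := hG
  exact ⟨h1.sub h2, C + D, fun x => (norm_sub_le _ _).trans (add_le_add (hC x) (hD x))⟩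
theorem Bd.mul {F G : ℝ → ℂ} (hF : Bd F) (hG : Bd G) : Bd fun w => F w * G w := by
  obtain ⟨h1, C, hC⟩ := hF
  obtain ⟨h2, D, hD⟩ := hG
  refine ⟨h1.mul h2, C * D, fun x => ?_⟩
  rw [norm_mul]
  exact mul_le_mul (hC x) (hD x) (norm_nonneg _) ((norm_nonneg _).trans (hC x))
theorem Bd.const (c : ℂ) : Bd fun _ => c := ⟨measurable_const, ‖c‖, fun _ => le_rfl⟩
theorem Bd.conj {F : ℝ → ℂ} (hF : Bd F) : Bd fun w => conj (F w) := by
  obtain ⟨h1, C, hC⟩ := hF
  exact ⟨Complex.continuous_conj.measurable.comp h1, C, fun x => by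
    rw [Complex.norm_conj]; exact hC x⟩
theorem Bd.sum {ι : Type*} (s : Finset ι) {F : ι → ℝ → ℂ} (hF : ∀ i ∈ s, Bd (F i)) :
    Bd fun w => ∑ i ∈ s, F i w := by
  classical
  induction s using Finset.induction_on with
  | empty => simpa using Bd.const 0
  | insert a s ha ih =>
    simp only [Finset.sum_insert ha]
    exact (hF a (Finset.mem_insert_self _ _)).add
      (ih fun i hi => hF i (Finset.mem_insert_of_mem hi))
theorem Bd.indicator {F : ℝ → ℂ} (hF : Bd F) {A : Set ℝ} (hA : MeasurableSet A) :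
    Bd (A.indicator F) := by
  obtain ⟨h1, C, hC⟩ := hF
  exact ⟨h1.indicator hA, C, fun x => (norm_indicator_le_norm_self _ _).trans (hC x)⟩
theorem Bd.ee {φ : ℝ → ℝ} (hφ : Measurable φ) : Bd fun w => ee (φ w) :=
  ⟨continuous_ee.measurable.comp hφ, 1, fun _ => (norm_ee _).le⟩
theorem Bd.intervalIntegrable {F : ℝ → ℂ} (hF : Bd F) (a b : ℝ) :
    IntervalIntegrable F volume a b := by
  obtain ⟨h1, C, hC⟩ := hF
  rw [intervalIntegrable_iff]
  exact Measure.integrableOn_of_bounded (M := C) (by simp [uIoc]) h1.aestronglyMeasurable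
    (Eventually.of_forall hC)
theorem Bd.integrableOn_sq {F : ℝ → ℂ} (hF : Bd F) {A : Set ℝ} (hA : A ⊆ Ico 0 1) :
    IntegrableOn (fun w => ‖F w‖ ^ 2) A := by
  obtain ⟨h1, C, hC⟩ := hF
  refine Measure.integrableOn_of_bounded (M := C ^ 2)
    (ne_top_of_le_ne_top (by simp) (measure_mono hA)) (h1.norm.pow_const 2).aestronglyMeasurable
    (Eventually.of_forall fun x => ?_)
  rw [Real.norm_of_nonneg (sq_nonneg _)]
  exact pow_le_pow_left₀ (norm_nonneg _) (hC x) 2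
theorem Pc.bd (p : Pc) : Bd p.fn :=
  ((Bd.const p.c).mul (Bd.ee (measurable_const.mul measurable_id))).indicator measurableSet_Ico

theorem nsq_nonneg (F : ℝ → ℂ) : 0 ≤ nsq F :=
  intervalIntegral.integral_nonneg zero_le_one fun _ _ => sq_nonneg _
theorem nsq_eq_setIntegral (F : ℝ → ℂ) : nsq F = ∫ w in Ico (0 : ℝ) 1, ‖F w‖ ^ 2 := by
  rw [nsq, intervalIntegral.integral_of_le zero_le_one, integral_Ioc_eq_integral_Ioo,
    integral_Ico_eq_integral_Ioo]
theorem nsq_const_mul (c : ℂ) (F : ℝ → ℂ) : nsq (fun w => c * F w) = ‖c‖ ^ 2 * nsq F := by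
  simp only [nsq, norm_mul, mul_pow, intervalIntegral.integral_const_mul]
theorem nsq_congr {F G : ℝ → ℂ} (h : ∀ w ∈ Ico (0 : ℝ) 1, ‖F w‖ = ‖G w‖) : nsq F = nsq G := by
  rw [nsq_eq_setIntegral, nsq_eq_setIntegral]
  exact setIntegral_congr_fun measurableSet_Ico fun w hw => by simp only [h w hw]
theorem nsq_indicator_of_norm {F : ℝ → ℂ} {a b C : ℝ} (h0 : 0 ≤ a) (hab : a ≤ b) (h1 : b ≤ 1)
    (hF : ∀ w ∈ Ico a b, ‖F w‖ = C) : nsq ((Ico a b).indicator F) = C ^ 2 * (b - a) := by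
  have e : (fun w => ‖(Ico a b).indicator F w‖ ^ 2) = (Ico a b).indicator fun _ => C ^ 2 := by
    funext w
    by_cases hw : w ∈ Ico a b
    · rw [indicator_of_mem hw, indicator_of_mem hw, hF w hw]
    · rw [indicator_of_notMem hw, indicator_of_notMem hw]
      simp
  rw [nsq_eq_setIntegral, e, setIntegral_indicator measurableSet_Ico,
    inter_eq_right.2 (Ico_subset_Ico h0 h1), setIntegral_const, Real.volume_real_Ico_of_le hab,
    smul_eq_mul, mul_comm]
theorem Pc.nsq_fn {p : Pc} (h0 : 0 ≤ p.a) (hab : p.a ≤ p.b) (h1 : p.b ≤ 1) :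
    nsq p.fn = p.mass :=
  nsq_indicator_of_norm h0 hab h1 fun w _ => by rw [norm_mul, norm_ee, mul_one]

/-- Parseval: the partial Fourier sums converge in `L²` (`hasSum_sq_fourierCoeffOn`). -/
theorem exists_fourier_approx {G : ℝ → ℂ} (hG : Bd G) {η : ℝ} (hη : 0 < η) :
    ∃ W : Finset ℤ, ∀ W' : Finset ℤ, W ⊆ W' →
      nsq G - ∑ j ∈ W', ‖∫ w in (0 : ℝ)..1, G w * ee (-(j * w))‖ ^ 2 ≤ η := by
  obtain ⟨h1, C, hC⟩ := hG
  have hL : MemLp G 2 (volume.restrict (Ioc (0 : ℝ) 1)) :=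
    MemLp.of_bound h1.aestronglyMeasurable C (Eventually.of_forall hC)
  have h2 := hasSum_sq_fourierCoeffOn zero_lt_one hL
  have e : ∀ j : ℤ, fourierCoeffOn zero_lt_one G j = ∫ w in (0 : ℝ)..1, G w * ee (-(j * w)) := by
    intro j
    rw [fourierCoeffOn_eq_integral]
    simp only [sub_zero, div_one, one_smul, fourier_coe_apply, smul_eq_mul]
    refine intervalIntegral.integral_congr fun w _ => ?_
    simp only [ee]
    rw [mul_comm]
    congr 2
    push_cast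
    ring
  simp only [e, sub_zero, inv_one, one_smul] at h2
  obtain ⟨W, hW⟩ := eventually_atTop.1 (h2.eventually (lt_mem_nhds (sub_lt_self _ hη)))
  exact ⟨W, fun W' hW' => by have := hW W' hW'; unfold nsq; linarith⟩

/-! ### `L3` -/

theorem L3_coeFn {f : T3 → ℂ} (hf : MemLp f 2 volume) : (L3 f : T3 → ℂ) =ᵐ[volume] f := by
  rw [L3, dif_pos hf]
  exact hf.coeFn_toLp
theorem L3_congr {f g : T3 → ℂ} (h : f =ᵐ[volume] g) : L3 f = L3 g := by
  by_cases hf : MemLp f 2 volume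
  · have hg := (memLp_congr_ae h).1 hf
    rw [L3, L3, dif_pos hf, dif_pos hg]
    exact MemLp.toLp_congr _ _ h
  · rw [L3, L3, dif_neg hf, dif_neg fun hg => hf ((memLp_congr_ae h).2 hg)]
theorem L3_coe (v : H3) : L3 v = v := by
  rw [L3, dif_pos (Lp.memLp v), Lp.toLp_coeFn]
theorem L3_add {f g : T3 → ℂ} (hf : MemLp f 2 volume) (hg : MemLp g 2 volume) :
    L3 (fun x => f x + g x) = L3 f + L3 g := by
  have h : MemLp (fun x => f x + g x) 2 volume := hf.add hg
  rw [L3, L3, L3, dif_pos hf, dif_pos hg, dif_pos h]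
  rfl
theorem L3_smul (c : ℂ) {f : T3 → ℂ} (hf : MemLp f 2 volume) :
    L3 (fun x => c * f x) = c • L3 f := by
  have h : MemLp (fun x => c * f x) 2 volume := hf.const_smul c
  rw [L3, L3, dif_pos hf, dif_pos h]
  rfl
theorem inner_L3 {f g : T3 → ℂ} (hf : MemLp f 2 volume) (hg : MemLp g 2 volume) :
    ⟪L3 f, L3 g⟫_ℂ = ∫ x, conj (f x) * g x := by
  rw [L2.inner_def]
  refine integral_congr_ae ?_
  filter_upwards [L3_coeFn hf, L3_coeFn hg] with x h1 h2
  rw [h1, h2, RCLike.inner_apply, mul_comm]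
theorem hilb_bd_ee (j : ℤ) : Bd fun w => ee (j * w) := Bd.ee (measurable_const.mul measurable_id)

theorem hilb_memLp {F G H : ℝ → ℂ} (hF : Bd F) (hG : Bd G) (hH : Bd H) :
    MemLp (fun x : T3 => F (rep (x 0)) * G (rep (x 1)) * H (rep (x 2))) 2 volume := by
  obtain ⟨h1, C, hC⟩ := hF
  obtain ⟨h2, D, hD⟩ := hG
  obtain ⟨h3, E, hE⟩ := hH
  have m : ∀ i, Measurable fun x : T3 => rep (x i) := fun i =>
    measurable_rep.comp (measurable_pi_apply i)
  refine MemLp.of_bound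
    (((h1.comp (m 0)).mul (h2.comp (m 1))).mul (h3.comp (m 2))).aestronglyMeasurable (C * D * E)
    (Eventually.of_forall fun x => ?_)
  have hC0 := (norm_nonneg _).trans (hC 0)
  have hD0 := (norm_nonneg _).trans (hD 0)
  rw [norm_mul, norm_mul]
  exact mul_le_mul (mul_le_mul (hC _) (hD _) (norm_nonneg _) hC0) (hE _) (norm_nonneg _)
    (mul_nonneg hC0 hD0)

theorem hilb_inner {F G H F' G' H' : ℝ → ℂ} (hF : Bd F) (hG : Bd G) (hH : Bd H) (hF' : Bd F')
    (hG' : Bd G') (hH' : Bd H') :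
    ⟪L3 fun x => F (rep (x 0)) * G (rep (x 1)) * H (rep (x 2)),
      L3 fun x => F' (rep (x 0)) * G' (rep (x 1)) * H' (rep (x 2))⟫_ℂ =
      (∫ w in (0 : ℝ)..1, conj (F w) * F' w) * (∫ w in (0 : ℝ)..1, conj (G w) * G' w) *
        ∫ w in (0 : ℝ)..1, conj (H w) * H' w := by
  rw [inner_L3 (hilb_memLp hF hG hH) (hilb_memLp hF' hG' hH'),
    ← integral_rep _ (hF.conj.mul hF').1, ← integral_rep _ (hG.conj.mul hG').1,
    ← integral_rep _ (hH.conj.mul hH').1]
  have h := integral_fintype_prod_volume_eq_prod (E := fun _ : Fin 3 => UnitAddCircle)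
    ![fun x => conj (F (rep x)) * F' (rep x), fun x => conj (G (rep x)) * G' (rep x),
      fun x => conj (H (rep x)) * H' (rep x)]
  simp only [Fin.prod_univ_three, Matrix.cons_val_zero, Matrix.cons_val_one, Matrix.cons_val] at h
  rw [← h]
  refine integral_congr_ae (Eventually.of_forall fun x => ?_)
  simp only [map_mul]
  ring

theorem hilb_integral_ee (j j' : ℤ) :
    ∫ w in (0 : ℝ)..1, conj (ee (j * w)) * ee (j' * w) = if j = j' then 1 else 0 := by
  have e : ∀ w : ℝ, conj (ee (j * w)) * ee (j' * w) = Complex.exp (cI * (j' - j : ℤ) * w) := by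
    intro w
    rw [← ee_neg, ← ee_add, ee_eq_exp]
    congr 1
    push_cast
    ring
  simp only [e]
  split_ifs with h
  · simp [h]
  · have h1 : ((j' - j : ℤ) : ℂ) ≠ 0 := by exact_mod_cast sub_ne_zero.2 (Ne.symm h)
    rw [integral_exp_mul_complex (mul_ne_zero cI_ne h1)]
    have h2 := ee_int (j' - j)
    rw [ee_eq_exp, Complex.ofReal_intCast] at h2
    rw [Complex.ofReal_one, Complex.ofReal_zero, mul_one, mul_zero, h2, Complex.exp_zero, sub_self,
      zero_div]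

theorem hilb_integral_sq (F : ℝ → ℂ) : ∫ w in (0 : ℝ)..1, conj (F w) * F w = (nsq F : ℂ) := by
  rw [nsq, ← intervalIntegral.integral_ofReal]
  refine intervalIntegral.integral_congr fun w _ => ?_
  simp only [Complex.conj_mul', Complex.ofReal_pow]

theorem hilb_norm_sq {v : H3} {c : ℝ} (h : ⟪v, v⟫_ℂ = (c : ℂ)) : ‖v‖ ^ 2 = c := by
  rw [← inner_self_eq_norm_sq (𝕜 := ℂ), h]
  rfl

theorem memLp_EE (j n : ℤ) {F : ℝ → ℂ} (hF : Bd F) :
    MemLp (fun x : T3 => fourier j (x 0) * fourier n (x 1) * F (rep (x 2))) 2 volume := by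
  simp only [fourier_rep]
  exact hilb_memLp (F := fun w => ee (j * w)) (G := fun w => ee (n * w)) (H := F)
    (hilb_bd_ee j) (hilb_bd_ee n) hF
theorem memLp_E1 (n l : ℤ) {G : ℝ → ℂ} (hG : Bd G) :
    MemLp (fun x : T3 => G (rep (x 0)) * fourier n (x 1) * fourier l (x 2)) 2 volume := by
  simp only [fourier_rep]
  exact hilb_memLp (F := G) (G := fun w => ee (n * w)) (H := fun w => ee (l * w))
    hG (hilb_bd_ee n) (hilb_bd_ee l)

/-! ### `EE` and `E1` -/

theorem EE_congr (j n : ℤ) {F G : ℝ → ℂ} (h : ∀ w ∈ Ico (0 : ℝ) 1, F w = G w) :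
    EE j n F = EE j n G := by
  simp only [EE, h _ (rep_mem _)]
theorem EE_add (j n : ℤ) {F G : ℝ → ℂ} (hF : Bd F) (hG : Bd G) :
    EE j n (fun w => F w + G w) = EE j n F + EE j n G := by
  simp only [EE, mul_add]
  exact L3_add (memLp_EE j n hF) (memLp_EE j n hG)
theorem EE_sub (j n : ℤ) {F G : ℝ → ℂ} (hF : Bd F) (hG : Bd G) :
    EE j n (fun w => F w - G w) = EE j n F - EE j n G := by
  rw [eq_sub_iff_add_eq, ← EE_add j n (hF.sub hG) hG]
  simp only [sub_add_cancel]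
theorem EE_const_mul (j n : ℤ) (c : ℂ) {F : ℝ → ℂ} (hF : Bd F) :
    EE j n (fun w => c * F w) = c • EE j n F := by
  simp only [EE, mul_left_comm _ c]
  exact L3_smul c (memLp_EE j n hF)
theorem EE_zero (j n : ℤ) : EE j n (fun _ => 0) = 0 := by
  simpa using EE_const_mul j n 0 (Bd.const 0)
theorem EE_sum (j n : ℤ) {ι : Type*} (s : Finset ι) {F : ι → ℝ → ℂ} (hF : ∀ i ∈ s, Bd (F i)) :
    EE j n (fun w => ∑ i ∈ s, F i w) = ∑ i ∈ s, EE j n (F i) := by
  classical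
  induction s using Finset.induction_on with
  | empty => simpa using EE_zero j n
  | insert a s ha ih =>
    have h := fun i hi => hF i (Finset.mem_insert_of_mem hi)
    simp only [Finset.sum_insert ha]
    rw [EE_add j n (hF a (Finset.mem_insert_self _ _)) (Bd.sum s h), ih h]
/-- Use `integral_fintype_prod_volume_eq_prod` (Fubini on `Fin 3 → _`). -/
theorem inner_EE (j n j' n' : ℤ) {F G : ℝ → ℂ} (hF : Bd F) (hG : Bd G) :
    ⟪EE j n F, EE j' n' G⟫_ℂ =
      if j = j' ∧ n = n' then ∫ w in (0 : ℝ)..1, conj (F w) * G w else 0 := by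
  simp only [EE, fourier_rep]
  rw [hilb_inner (hilb_bd_ee j) (hilb_bd_ee n) hF (hilb_bd_ee j') (hilb_bd_ee n') hG,
    hilb_integral_ee, hilb_integral_ee]
  by_cases h1 : j = j' <;> by_cases h2 : n = n' <;> simp [h1, h2]
theorem norm_sq_EE (j n : ℤ) {F : ℝ → ℂ} (hF : Bd F) : ‖EE j n F‖ ^ 2 = nsq F :=
  hilb_norm_sq (by rw [inner_EE j n j n hF hF, if_pos ⟨rfl, rfl⟩, hilb_integral_sq])

theorem E1_congr (n l : ℤ) {F G : ℝ → ℂ} (h : ∀ w ∈ Ico (0 : ℝ) 1, F w = G w) :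
    E1 n l F = E1 n l G := by
  simp only [E1, h _ (rep_mem _)]
theorem E1_add (n l : ℤ) {F G : ℝ → ℂ} (hF : Bd F) (hG : Bd G) :
    E1 n l (fun w => F w + G w) = E1 n l F + E1 n l G := by
  simp only [E1, add_mul]
  exact L3_add (memLp_E1 n l hF) (memLp_E1 n l hG)
theorem E1_sub (n l : ℤ) {F G : ℝ → ℂ} (hF : Bd F) (hG : Bd G) :
    E1 n l (fun w => F w - G w) = E1 n l F - E1 n l G := by
  rw [eq_sub_iff_add_eq, ← E1_add n l (hF.sub hG) hG]
  simp only [sub_add_cancel]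
theorem E1_const_mul (n l : ℤ) (c : ℂ) {F : ℝ → ℂ} (hF : Bd F) :
    E1 n l (fun w => c * F w) = c • E1 n l F := by
  rw [E1, E1, ← L3_smul c (memLp_E1 n l hF)]
  simp only [mul_assoc]
theorem E1_sum (n l : ℤ) {ι : Type*} (s : Finset ι) {F : ι → ℝ → ℂ} (hF : ∀ i ∈ s, Bd (F i)) :
    E1 n l (fun w => ∑ i ∈ s, F i w) = ∑ i ∈ s, E1 n l (F i) := by
  classical
  induction s using Finset.induction_on with
  | empty => simpa using E1_const_mul n l 0 (Bd.const 0)
  | insert a s ha ih =>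
    have h := fun i hi => hF i (Finset.mem_insert_of_mem hi)
    simp only [Finset.sum_insert ha]
    rw [E1_add n l (hF a (Finset.mem_insert_self _ _)) (Bd.sum s h), ih h]
theorem inner_E1 (n l n' l' : ℤ) {F G : ℝ → ℂ} (hF : Bd F) (hG : Bd G) :
    ⟪E1 n l F, E1 n' l' G⟫_ℂ =
      if n = n' ∧ l = l' then ∫ w in (0 : ℝ)..1, conj (F w) * G w else 0 := by
  simp only [E1, fourier_rep]
  rw [hilb_inner hF (hilb_bd_ee n) (hilb_bd_ee l) hG (hilb_bd_ee n') (hilb_bd_ee l'),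
    hilb_integral_ee, hilb_integral_ee]
  by_cases h1 : n = n' <;> by_cases h2 : l = l' <;> simp [h1, h2]
theorem norm_sq_E1 (n l : ℤ) {F : ℝ → ℂ} (hF : Bd F) : ‖E1 n l F‖ ^ 2 = nsq F :=
  hilb_norm_sq (by rw [inner_E1 n l n l hF hF, if_pos ⟨rfl, rfl⟩, hilb_integral_sq])
theorem E1_ee (j n l : ℤ) : E1 n l (fun w => ee (j * w)) = EE j n fun w => ee (l * w) := by
  simp only [E1, EE, fourier_rep]

/-- Pythagoras for pairwise orthogonal vectors. -/
theorem norm_sq_sum_of_orth {ι : Type*} (s : Finset ι) (v : ι → H3)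
    (h : ∀ i ∈ s, ∀ i' ∈ s, i ≠ i' → ⟪v i, v i'⟫_ℂ = 0) :
    ‖∑ i ∈ s, v i‖ ^ 2 = ∑ i ∈ s, ‖v i‖ ^ 2 := by
  refine hilb_norm_sq ?_
  rw [sum_inner, Complex.ofReal_sum]
  refine Finset.sum_congr rfl fun i hi => ?_
  rw [inner_sum, Finset.sum_eq_single_of_mem i hi fun i' hi' hne => h i hi i' hi' hne.symm,
    inner_self_eq_norm_sq_to_K]
  simp

/-- Finite Fourier approximation identity. -/
theorem nsq_sub_sum {G : ℝ → ℂ} (hG : Bd G) (W : Finset ℤ) (c : ℤ → ℂ) :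
    nsq (fun w => G w - ∑ j ∈ W, c j * ee (j * w)) =
      nsq G - ∑ j ∈ W, ‖∫ w in (0 : ℝ)..1, G w * ee (-(j * w))‖ ^ 2 +
        ∑ j ∈ W, ‖c j - ∫ w in (0 : ℝ)..1, G w * ee (-(j * w))‖ ^ 2 := by
  have hb : ∀ j ∈ W, Bd fun w => c j * ee (j * w) := fun j _ => (Bd.const _).mul (hilb_bd_ee j)
  have e1 : ∀ j : ℤ, ⟪EE 0 0 fun w => ee (j * w), EE 0 0 G⟫_ℂ
      = ∫ w in (0 : ℝ)..1, G w * ee (-(j * w)) := fun j => by
    rw [inner_EE _ _ _ _ (hilb_bd_ee j) hG, if_pos ⟨rfl, rfl⟩]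
    simp only [ee_neg, mul_comm]
  have e2 : ‖∑ j ∈ W, c j • EE 0 0 fun w => ee (j * w)‖ ^ 2 = ∑ j ∈ W, ‖c j‖ ^ 2 := by
    rw [norm_sq_sum_of_orth]
    · refine Finset.sum_congr rfl fun j _ => ?_
      rw [norm_smul, mul_pow, norm_sq_EE _ _ (hilb_bd_ee j)]
      simp [nsq]
    · intro j _ j' _ hne
      rw [inner_smul_left, inner_smul_right, inner_EE _ _ _ _ (hilb_bd_ee j) (hilb_bd_ee j'),
        hilb_integral_ee, if_neg hne]
      simp
  rw [← norm_sq_EE 0 0 (hG.sub (Bd.sum W hb)), EE_sub _ _ hG (Bd.sum W hb), EE_sum _ _ W hb,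
    Finset.sum_congr rfl fun j _ => EE_const_mul 0 0 (c j) (hilb_bd_ee j), norm_sub_rev,
    norm_sub_sq (𝕜 := ℂ), e2, norm_sq_EE _ _ hG, sum_inner, map_sum, Finset.mul_sum,
    ← Finset.sum_sub_distrib, add_comm, sub_add, ← Finset.sum_sub_distrib, sub_eq_add_neg,
    ← Finset.sum_neg_distrib]
  congr 1
  refine Finset.sum_congr rfl fun j _ => ?_
  rw [inner_smul_left, e1]
  generalize ∫ w in (0 : ℝ)..1, G w * ee (-(j * w)) = g
  simp only [← Complex.normSq_eq_norm_sq, Complex.normSq_apply, RCLike.re_to_complex,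
    Complex.mul_re, Complex.conj_re, Complex.conj_im, Complex.sub_re, Complex.sub_im]
  ring

theorem norm_sq_sum_EE {ι : Type*} (s : Finset ι) (j n : ι → ℤ) {F : ι → ℝ → ℂ}
    (hF : ∀ i ∈ s, Bd (F i)) (h : ∀ i ∈ s, ∀ i' ∈ s, j i = j i' → n i = n i' → i = i') :
    ‖∑ i ∈ s, EE (j i) (n i) (F i)‖ ^ 2 = ∑ i ∈ s, nsq (F i) := by
  rw [norm_sq_sum_of_orth]
  · exact Finset.sum_congr rfl fun i hi => norm_sq_EE _ _ (hF i hi)
  · intro i hi i' hi' hne
    rw [inner_EE _ _ _ _ (hF i hi) (hF i' hi'), if_neg fun e => hne (h i hi i' hi' e.1 e.2)]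

theorem norm_sq_sum_E1 {ι : Type*} (s : Finset ι) (n l : ι → ℤ) {F : ι → ℝ → ℂ}
    (hF : ∀ i ∈ s, Bd (F i)) (h : ∀ i ∈ s, ∀ i' ∈ s, n i = n i' → l i = l i' → i = i') :
    ‖∑ i ∈ s, E1 (n i) (l i) (F i)‖ ^ 2 = ∑ i ∈ s, nsq (F i) := by
  rw [norm_sq_sum_of_orth]
  · exact Finset.sum_congr rfl fun i hi => norm_sq_E1 _ _ (hF i hi)
  · intro i hi i' hi' hne
    rw [inner_E1 _ _ _ _ (hF i hi) (hF i' hi'), if_neg fun e => hne (h i hi i' hi' e.1 e.2)]

theorem Fam.norm_sq_vecL {Λ : Type} {F : Fam Λ} {P : Prof} (hV : F.Valid P) (hS : F.Sep) (κ : Λ) :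
    ‖F.vecL κ‖ ^ 2 = F.massL κ := by
  rw [Fam.vecL, Fam.massL, norm_sq_sum_of_orth]
  · refine Finset.sum_congr rfl fun i _ => ?_
    split_ifs
    · obtain ⟨-, h1, h2, h3⟩ := hV i
      rw [Pc.vec, norm_sq_EE _ _ (Pc.bd _), Pc.nsq_fn h1 h2.le (by linarith [P.sh.mu_pos])]
    · simp
  · intro i _ i' _ hne
    split_ifs
    · rw [Pc.vec, Pc.vec, inner_EE _ _ _ _ (Pc.bd _) (Pc.bd _)]
      split_ifs with e
      · have hd := hS i i' hne e.1 e.2
        have e0 : ∀ w, conj ((F.pc i).fn w) * (F.pc i').fn w = 0 := fun w => by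
          by_cases hw : w ∈ Ico (F.pc i).a (F.pc i).b
          · rw [Pc.fn, Pc.fn, indicator_of_notMem (disjoint_left.1 hd hw), mul_zero]
          · rw [Pc.fn, indicator_of_notMem hw, map_zero, zero_mul]
        simp only [e0, intervalIntegral.integral_zero]
      · rfl
    all_goals simp

theorem Fam.Inj.sep {Λ : Type} {F : Fam Λ} (h : F.Inj) : F.Sep :=
  fun i i' hne h1 h2 => absurd (h i i' h1 h2) hne

/-! ### Koopman operators -/

theorem kp_coeFn (T : VD) (v : H3) :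
    (kp T v : T3 → ℂ) =ᵐ[volume] fun x => v ((T : Equiv.Perm T3) x) :=
  Lp.coeFn_compMeasurePreserving v T.2.2.1
theorem kp_L3 (T : VD) {f : T3 → ℂ} (hf : MemLp f 2 volume) :
    kp T (L3 f) = L3 fun x => f ((T : Equiv.Perm T3) x) := by
  have h : MemLp (fun x => f ((T : Equiv.Perm T3) x)) 2 volume := hf.comp_measurePreserving T.2.2.1
  rw [L3, L3, dif_pos hf, dif_pos h]
  rfl
@[simp] theorem kp_one (v : H3) : kp 1 v = v := Lp.compMeasurePreserving_id_apply v
theorem kp_mul (T S : VD) (v : H3) : kp (T * S) v = kp S (kp T v) :=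
  Lp.compMeasurePreserving_comp_apply v T.2.2.1 S.2.2.1
@[simp] theorem kp_kp_inv (T : VD) (v : H3) : kp T (kp T⁻¹ v) = v := by
  rw [← kp_mul, inv_mul_cancel, kp_one]
@[simp] theorem kp_inv_kp (T : VD) (v : H3) : kp T⁻¹ (kp T v) = v := by
  rw [← kp_mul, mul_inv_cancel, kp_one]
theorem norm_kp_sub (H S : VD) (v v' : H3) : ‖kp H v - kp (S * H) v'‖ = ‖kp S⁻¹ v - v'‖ := by
  rw [kp_mul, ← map_sub, LinearIsometry.norm_map, ← (kp S⁻¹).norm_map, map_sub, kp_inv_kp]
theorem kp_conj_zpow (H R : VD) (l : ℤ) (v : H3) :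
    kp ((H⁻¹ * R * H) ^ l) (kp H v) = kp H (kp (R ^ l) v) := by
  have h := conj_zpow (a := H⁻¹) (b := R) (i := l)
  rw [inv_inv] at h
  rw [h, kp_mul, kp_mul, kp_inv_kp]
theorem app_conj (b : ℤ →₀ ℂ) (H R : VD) (v : H3) :
    app b (H⁻¹ * R * H) (kp H v) = kp H (app b R v) := by
  simp only [app, Finsupp.sum, map_sum, map_smul, kp_conj_zpow]
theorem app_add_vec (b : ℤ →₀ ℂ) (T : VD) (v v' : H3) :
    app b T (v + v') = app b T v + app b T v' := by
  simp only [app, Finsupp.sum, map_add, smul_add, Finset.sum_add_distrib]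
theorem app_sub_vec (b : ℤ →₀ ℂ) (T : VD) (v v' : H3) :
    app b T (v - v') = app b T v - app b T v' := by
  simp only [app, Finsupp.sum, map_sub, smul_sub, Finset.sum_sub_distrib]
theorem app_add (b b' : ℤ →₀ ℂ) (T : VD) (v : H3) :
    app (b + b') T v = app b T v + app b' T v :=
  Finsupp.sum_add_index' (fun _ => zero_smul _ _) fun _ _ _ => add_smul _ _ _
theorem tp_add (b b' : ℤ →₀ ℂ) (θ : ℝ) : tp (b + b') θ = tp b θ + tp b' θ :=
  Finsupp.sum_add_index' (fun _ => zero_mul _) fun _ _ _ => add_mul _ _ _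
theorem continuous_tp (b : ℤ →₀ ℂ) : Continuous (tp b) := by
  unfold tp Finsupp.sum
  fun_prop
theorem continuous_of_good {T : Equiv.Perm T3} (h : Good T) : Continuous T := by
  obtain ⟨⟨⟨F, hF, hT⟩, -⟩, -⟩ := h
  have hq : IsOpenQuotientMap proj :=
    IsOpenQuotientMap.piMap fun _ : Fin 3 => QuotientAddGroup.isOpenQuotientMap_mk
  rw [← hq.continuous_comp_iff, show T ∘ proj = proj ∘ F from funext hT]
  exact hq.continuous.comp hF.continuous

/-! ### Conjugation -/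

theorem star_add' (v v' : H3) : star (v + v') = star v + star v' := by
  refine Lp.ext ?_
  filter_upwards [Lp.coeFn_star (v + v'), Lp.coeFn_add v v', Lp.coeFn_add (star v) (star v'),
    Lp.coeFn_star v, Lp.coeFn_star v'] with x h1 h2 h3 h4 h5
  rw [h1, h3, Pi.add_apply, h4, h5, Pi.star_apply, h2, Pi.add_apply, star_add]
  rfl
theorem star_sub' (v v' : H3) : star (v - v') = star v - star v' := by
  rw [eq_sub_iff_add_eq, ← star_add', sub_add_cancel]
theorem star_smul' (c : ℂ) (v : H3) : star (c • v) = conj c • star v := by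
  refine Lp.ext ?_
  filter_upwards [Lp.coeFn_star (c • v), Lp.coeFn_smul c v, Lp.coeFn_smul (conj c) (star v),
    Lp.coeFn_star v] with x h1 h2 h3 h4
  rw [h1, h3, Pi.smul_apply, h4, Pi.star_apply, h2, Pi.smul_apply, star_smul]
  rfl
theorem star_sum' {ι : Type*} (s : Finset ι) (v : ι → H3) :
    star (∑ i ∈ s, v i) = ∑ i ∈ s, star (v i) :=
  map_sum (AddMonoidHom.mk' (star : H3 → H3) star_add') v s
theorem norm_star' (v : H3) : ‖star v‖ = ‖v‖ := by
  rw [Lp.norm_def, Lp.norm_def, eLpNorm_congr_ae (Lp.coeFn_star v), eLpNorm_star]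
theorem star_L3 {f : T3 → ℂ} (hf : MemLp f 2 volume) :
    star (L3 f) = L3 fun x => conj (f x) := by
  refine Lp.ext ?_
  filter_upwards [Lp.coeFn_star (L3 f), L3_coeFn hf,
    L3_coeFn (f := fun x => conj (f x)) hf.star] with x h1 h2 h3
  rw [h1, h3, Pi.star_apply, h2]
  rfl
theorem star_EE (j n : ℤ) {F : ℝ → ℂ} (hF : Bd F) :
    star (EE j n F) = EE (-j) (-n) fun w => conj (F w) := by
  rw [EE, star_L3 (memLp_EE j n hF), EE]
  simp only [map_mul, fourier_neg]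
theorem kp_star (T : VD) (v : H3) : kp T (star v) = star (kp T v) := by
  refine Lp.ext ?_
  filter_upwards [kp_coeFn T (star v), Lp.coeFn_star (kp T v), kp_coeFn T v,
    T.2.2.1.quasiMeasurePreserving.ae (Lp.coeFn_star v)] with x h1 h2 h3 h4
  rw [h1, h2, h4, Pi.star_apply, Pi.star_apply, h3]
theorem star_app (b : ℤ →₀ ℂ) (T : VD) (v : H3) :
    star (app b T v) = app (b.mapRange conj (map_zero _)) T (star v) := by
  rw [app, app, Finsupp.sum_mapRange_index (h := fun l c => c • kp (T ^ l) (star v))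
    fun _ => zero_smul _ _]
  simp only [Finsupp.sum, star_sum', star_smul', kp_star]
theorem tp_mapRange_conj (b : ℤ →₀ ℂ) (θ : ℝ) :
    tp (b.mapRange conj (map_zero _)) θ = conj (tp b (-θ)) := by
  rw [tp, tp, Finsupp.sum_mapRange_index fun _ => zero_mul _]
  simp only [Finsupp.sum, map_sum, map_mul, mul_neg, ee_neg, Complex.conj_conj]

/-! ### The constant function and trigonometric approximation -/

theorem inner_one_kp (T : VD) (v : H3) :
    ⟪L3 fun _ => 1, kp T v⟫_ℂ = ⟪L3 fun _ => 1, v⟫_ℂ := by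
  rw [← (kp T).inner_map_map (L3 fun _ => 1) v, kp_L3 T (memLp_const 1)]

theorem one_eq_EE : (L3 fun _ => 1) = EE 0 0 fun _ => 1 := by simp [EE]

theorem inner_one_EE {j : ℤ} (hj : j ≠ 0) (n : ℤ) {F : ℝ → ℂ} (hF : Bd F) :
    ⟪L3 fun _ => 1, EE j n F⟫_ℂ = 0 := by
  rw [one_eq_EE, inner_EE _ _ _ _ (Bd.const 1) hF, if_neg fun h => hj h.1.symm]

theorem inner_one_char {k : ℤ × ℤ × ℤ} (hk : k ≠ 0) :
    ⟪L3 fun _ => 1, EE k.1 k.2.1 fun w => ee (k.2.2 * w)⟫_ℂ = 0 := by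
  rw [one_eq_EE, inner_EE _ _ _ _ (Bd.const 1) (Bd.ee (by fun_prop))]
  split_ifs with h
  · have h2 : (k.2.2 : ℂ) ≠ 0 := by
      rw [Int.cast_ne_zero]
      exact fun h2 => hk (Prod.ext h.1.symm (Prod.ext h.2.symm h2))
    have h3 := ee_int k.2.2
    simp only [ee_eq_exp, map_one, one_mul, Complex.ofReal_mul, Complex.ofReal_intCast,
      ← mul_assoc] at h3 ⊢
    rw [integral_exp_mul_complex (mul_ne_zero cI_ne h2)]
    simp [h3]
  · rfl

theorem dense_span_char : Dense (Submodule.span ℂ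
    (range fun k : ℤ × ℤ × ℤ => EE k.1 k.2.1 fun w => ee (k.2.2 * w)) : Set H3) := by
  have h := (ContinuousMap.toLp_denseRange ℂ (volume : Measure T3) ℂ
    ENNReal.ofNat_ne_top (p := 2)).topologicalClosure_map_submodule
      UnitAddTorus.span_mFourier_closure_eq_top
  rw [← Submodule.dense_iff_topologicalClosure_eq_top, Submodule.map_span] at h
  refine h.mono (Submodule.span_mono ?_)
  rintro _ ⟨_, ⟨n, rfl⟩, rfl⟩
  refine ⟨(n 0, n 1, n 2), Lp.ext ?_⟩
  filter_upwards [L3_coeFn (memLp_EE (n 0) (n 1) (Bd.ee (φ := fun w => n 2 * w) (by fun_prop))),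
    ContinuousMap.coeFn_toLp (p := 2) (𝕜 := ℂ) (volume : Measure T3) (UnitAddTorus.mFourier n)]
    with x h1 h2
  refine h1.trans (Eq.trans ?_ h2.symm)
  rw [← fourier_rep]
  exact (Fin.prod_univ_three fun i => fourier (n i) (x i)).symm

/-- A mean zero vector is approximated by trigonometric polynomials without constant term
(`UnitAddTorus.hasSum_mFourier_series_L2`; note `AddCircle.volume_eq_smul_haarAddCircle`). -/
theorem exists_trig_approx (v : H3) (hv : ⟪L3 fun _ => 1, v⟫_ℂ = 0) {η : ℝ} (hη : 0 < η) :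
    ∃ (s : Finset (ℤ × ℤ × ℤ)) (c : ℤ × ℤ × ℤ → ℂ), (0 : ℤ × ℤ × ℤ) ∉ s ∧
      ‖v - ∑ k ∈ s, c k • EE k.1 k.2.1 (fun w => ee (k.2.2 * w))‖ ≤ η := by
  obtain ⟨y, hy, hd⟩ := dense_span_char.exists_dist_lt v hη
  obtain ⟨c, rfl⟩ := Finsupp.mem_span_range_iff_exists_finsupp.1 hy
  refine ⟨c.support.erase 0, c, Finset.notMem_erase _ _, le_trans ?_ hd.le⟩
  set w := v - ∑ k ∈ c.support.erase 0, c k • EE k.1 k.2.1 fun w => ee (k.2.2 * w) with hw
  have h0 : ⟪L3 fun _ => 1, w⟫_ℂ = 0 := by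
    rw [hw, inner_sub_right, hv, inner_sum, Finset.sum_eq_zero, sub_zero]
    intro k hk
    rw [inner_smul_right, inner_one_char (Finset.ne_of_mem_erase hk), mul_zero]
  have h1 : dist v (c.sum fun k a => a • EE k.1 k.2.1 fun w => ee (k.2.2 * w)) =
      ‖(-c 0) • (L3 fun _ => 1) + w‖ := by
    rw [dist_eq_norm, hw, Finsupp.sum, one_eq_EE]
    congr 1
    by_cases h : 0 ∈ c.support
    · rw [← Finset.add_sum_erase _ _ h]
      simp only [Prod.fst_zero, Prod.snd_zero, Int.cast_zero, zero_mul, ee_zero, neg_smul]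
      abel
    · rw [Finset.erase_eq_of_notMem h, Finsupp.notMem_support_iff.1 h, neg_zero, zero_smul, zero_add]
  have h2 := norm_add_sq_eq_norm_sq_add_norm_sq_of_inner_eq_zero (𝕜 := ℂ)
    ((-c 0) • (L3 fun _ => 1)) w (by rw [inner_smul_left, h0, mul_zero])
  rw [h1]
  exact abs_le_of_sq_le_sq' (by nlinarith [mul_self_nonneg ‖(-c 0) • (L3 fun _ => 1)‖])
    (norm_nonneg _) |>.2

/-- A vector orthogonal to all characters is zero. -/
theorem eq_zero_of_inner_EE (v : H3)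
    (h : ∀ k : ℤ × ℤ × ℤ, ⟪EE k.1 k.2.1 (fun w => ee (k.2.2 * w)), v⟫_ℂ = 0) : v = 0 := by
  refine dense_span_char.eq_zero_of_inner_right (𝕜 := ℂ) fun y hy => ?_
  obtain ⟨c, rfl⟩ := Finsupp.mem_span_range_iff_exists_finsupp.1 hy
  simp only [Finsupp.sum, sum_inner, inner_smul_left, h, mul_zero, Finset.sum_const_zero]

end Crest.Agent.R081
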