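import Crest.Agent.R081.Fold

/-! Ranked spectral sets and the multiplier. -/

set_option autoImplicit false

namespace Crest.Agent.R081

open MeasureTheory Set Filter Topology

theorem volume_ne_top_of_cell {N : ℕ} (hN : 1 ≤ N) {ν : ℤ} {A : Set ℝ} (h : A ⊆ cell N ν) :
    volume A ≠ ⊤ :=
  ne_top_of_le_ne_top (by rw [volume_cell hN]; exact ENNReal.ofReal_ne_top) (measure_mono h)

open Classical in
theorem exists_ranked {Λ : Type} {N : ℕ} (hN : 1 ≤ N) (K : Finset Λ) (ν : Λ → ℤ) (S : Λ → Set ℝ)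
    (rk : Λ → ℕ) (hS : ∀ κ ∈ K, MeasurableSet (S κ) ∧ S κ ⊆ cell N (ν κ))
    (hd : ∀ κ ∈ K, ∀ κ' ∈ K, κ ≠ κ' → rk κ = rk κ' → cls N (ν κ) = cls N (ν κ') →
      ν κ = ν κ' ∧ Disjoint (S κ) (S κ')) :
    ∃ S' : Λ → Set ℝ, (∀ κ ∈ K, MeasurableSet (S' κ) ∧ S' κ ⊆ S κ) ∧
      (∀ κ ∈ K, ∀ κ' ∈ K, ∀ t ∈ S' κ, ∀ t' ∈ S' κ', fold t = fold t' → κ = κ' ∧ t = t') ∧
      (∀ κ ∈ K, (volume (S κ \ S' κ)).toReal ≤
        ∑ κ' ∈ K.filter (fun κ' => cls N (ν κ') = cls N (ν κ) ∧ rk κ < rk κ'),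
          (volume (S κ')).toReal) ∧
      ∑ κ ∈ K.filter (fun κ => rk κ = 0), (volume (S κ)).toReal ≤
        ∑ κ ∈ K, (volume (S' κ)).toReal := by
  let S' : Λ → Set ℝ := fun κ => S κ \ fold ⁻¹' ⋃ κ' ∈ K.filter (fun κ' => rk κ < rk κ'), fold '' S κ'
  have hm : ∀ κ ∈ K, MeasurableSet (fold '' S κ) := fun κ hκ =>
    measurableSet_fold_image hN (hS κ hκ).1 (hS κ hκ).2
  have hfin : ∀ κ ∈ K, volume (fold '' S κ) ≠ ⊤ := fun κ hκ => by
    rw [volume_fold_image hN (hS κ hκ).2]; exact volume_ne_top_of_cell hN (hS κ hκ).2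
  have hsame : ∀ κ ∈ K, ∀ κ' ∈ K, rk κ = rk κ' → ∀ t ∈ S κ, ∀ t' ∈ S κ', fold t = fold t' →
      κ = κ' ∧ t = t' := by
    intro κ hκ κ' hκ' hr t ht t' ht' hf
    have hc := cls_eq_of_fold_eq hN ((hS κ hκ).2 ht) ((hS κ' hκ').2 ht') hf
    by_cases h : κ = κ'
    · subst h
      exact ⟨rfl, injOn_fold_cell hN _ ((hS κ hκ).2 ht) ((hS κ hκ).2 ht') hf⟩
    · obtain ⟨h1, h2⟩ := hd κ hκ κ' hκ' h hr hc
      have h3 : t = t' := injOn_fold_cell hN (ν κ) ((hS κ hκ).2 ht) (h1 ▸ (hS κ' hκ').2 ht') hf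
      exact absurd (h3 ▸ ht') (Set.disjoint_left.mp h2 ht)
  have hS'm : ∀ κ ∈ K, MeasurableSet (S' κ) := fun κ hκ =>
    (hS κ hκ).1.diff (continuous_fold.measurable
      (Finset.measurableSet_biUnion _ fun κ' hκ' => hm κ' (Finset.mem_filter.mp hκ').1))
  refine ⟨S', fun κ hκ => ⟨hS'm κ hκ, sdiff_subset⟩, ?_, ?_, ?_⟩
  · intro κ hκ κ' hκ' t ht t' ht' hf
    rcases lt_trichotomy (rk κ) (rk κ') with h | h | h
    · refine absurd ?_ ht.2
      simp only [mem_preimage, mem_iUnion]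
      exact ⟨κ', Finset.mem_filter.mpr ⟨hκ', h⟩, t', ht'.1, hf.symm⟩
    · exact hsame κ hκ κ' hκ' h t ht.1 t' ht'.1 hf
    · refine absurd ?_ ht'.2
      simp only [mem_preimage, mem_iUnion]
      exact ⟨κ, Finset.mem_filter.mpr ⟨hκ, h⟩, t, ht.1, hf⟩
  · intro κ hκ
    have hsub : S κ \ S' κ ⊆ ⋃ κ' ∈ K.filter (fun κ' => cls N (ν κ') = cls N (ν κ) ∧ rk κ < rk κ'),
        (cell N (ν κ) ∩ fold ⁻¹' (fold '' S κ')) := by
      intro t ht
      have h1 : t ∈ fold ⁻¹' ⋃ κ' ∈ K.filter (fun κ' => rk κ < rk κ'), fold '' S κ' := by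
        by_contra h
        exact ht.2 ⟨ht.1, h⟩
      simp only [mem_preimage, mem_iUnion] at h1
      obtain ⟨κ', hκ', t', ht', hf⟩ := h1
      obtain ⟨h2, h3⟩ := Finset.mem_filter.mp hκ'
      simp only [mem_iUnion]
      refine ⟨κ', Finset.mem_filter.mpr ⟨h2, ?_, h3⟩, (hS κ hκ).2 ht.1, t', ht', hf⟩
      exact cls_eq_of_fold_eq hN ((hS κ' h2).2 ht') ((hS κ hκ).2 ht.1) hf
    change volume.real _ ≤ _
    refine (measureReal_mono hsub (volume_ne_top_of_cell hN (ν := ν κ) ?_)).trans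
      ((measureReal_biUnion_finset_le _ _).trans (Finset.sum_le_sum fun κ' hκ' => ?_))
    · exact iUnion₂_subset fun _ _ => inter_subset_left
    · have h2 := (Finset.mem_filter.mp hκ').1
      refine ENNReal.toReal_mono (volume_ne_top_of_cell hN (hS κ' h2).2) ?_
      rw [← volume_fold_image hN (hS κ' h2).2]
      exact volume_inter_preimage_le hN _ _
  · have h1 : ∑ κ ∈ K.filter (fun κ => rk κ = 0), (volume (S κ)).toReal =
        volume.real (⋃ κ ∈ K.filter (fun κ => rk κ = 0), fold '' S κ) := by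
      rw [measureReal_biUnion_finset ?_ ?_ fun κ hκ => hfin κ (Finset.mem_filter.mp hκ).1]
      · refine Finset.sum_congr rfl fun κ hκ => ?_
        rw [measureReal_def, volume_fold_image hN (hS κ (Finset.mem_filter.mp hκ).1).2]
      · intro κ hκ κ' hκ' hne
        obtain ⟨h1, h2⟩ := Finset.mem_filter.mp hκ
        obtain ⟨h3, h4⟩ := Finset.mem_filter.mp hκ'
        refine Set.disjoint_left.mpr ?_
        rintro _ ⟨t, ht, rfl⟩ ⟨t', ht', hf⟩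
        exact hne (hsame κ h1 κ' h3 (h2.trans h4.symm) t ht t' ht' hf.symm).1
      · exact fun κ hκ => hm κ (Finset.mem_filter.mp hκ).1
    have h2 : (⋃ κ ∈ K.filter (fun κ => rk κ = 0), fold '' S κ) ⊆ ⋃ κ ∈ K, fold '' S' κ := by
      intro y hy
      simp only [mem_iUnion] at hy
      obtain ⟨κ, hκ, hy⟩ := hy
      obtain ⟨κ0, h0, hmax⟩ := (K.filter fun κ => y ∈ fold '' S κ).exists_max_image rk
        ⟨κ, Finset.mem_filter.mpr ⟨(Finset.mem_filter.mp hκ).1, hy⟩⟩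
      obtain ⟨h0K, t, ht, rfl⟩ := Finset.mem_filter.mp h0
      simp only [mem_iUnion]
      refine ⟨κ0, h0K, t, ⟨ht, fun h => ?_⟩, rfl⟩
      simp only [mem_preimage, mem_iUnion] at h
      obtain ⟨κ', hκ', h⟩ := h
      obtain ⟨h3, h4⟩ := Finset.mem_filter.mp hκ'
      exact absurd (hmax κ' (Finset.mem_filter.mpr ⟨h3, h⟩)) (not_le.mpr h4)
    have hsub : ∀ κ ∈ K, S' κ ⊆ cell N (ν κ) := fun κ hκ => sdiff_subset.trans (hS κ hκ).2
    rw [h1]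
    refine (measureReal_mono h2 ?_).trans
      ((measureReal_biUnion_finset_le _ _).trans (Finset.sum_le_sum fun κ hκ => ?_))
    · refine ne_top_of_le_ne_top ?_ (measure_biUnion_finset_le _ _)
      refine ENNReal.sum_ne_top.mpr fun κ hκ => ?_
      rw [volume_fold_image hN (hsub κ hκ)]; exact volume_ne_top_of_cell hN (hsub κ hκ)
    · rw [measureReal_def, volume_fold_image hN (hsub κ hκ)]

/-- The periodisation of a set. -/
def perS (S : Set ℝ) : Set ℝ := ⋃ m : ℤ, (fun t => t + m) ⁻¹' S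

theorem mem_perS {S : Set ℝ} {t : ℝ} : t ∈ perS S ↔ ∃ m : ℤ, t + m ∈ S := by simp [perS]

theorem measurableSet_perS {S : Set ℝ} (h : MeasurableSet S) : MeasurableSet (perS S) :=
  MeasurableSet.iUnion fun _ => (measurable_add_const _) h

theorem add_one_mem_perS {S : Set ℝ} {t : ℝ} : t + 1 ∈ perS S ↔ t ∈ perS S := by
  simp only [mem_perS]
  constructor
  · rintro ⟨m, h⟩; exact ⟨m + 1, by push_cast; convert h using 1; ring⟩
  · rintro ⟨m, h⟩; exact ⟨m - 1, by push_cast; convert h using 1; ring⟩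

theorem mac_fold_add (t : ℝ) (m : ℤ) : fold (t + m) = fold t :=
  (fold_eq_iff.mpr ⟨m, Or.inl rfl⟩).symm

theorem mac_fold_neg_add (t : ℝ) (m : ℤ) : fold (-t + m) = fold t :=
  (fold_eq_iff.mpr ⟨m, Or.inr rfl⟩).symm

theorem exists_half_mult {Λ : Type} (K : Finset Λ) (S : Λ → Set ℝ)
    (hm : ∀ κ ∈ K, MeasurableSet (S κ))
    (hd : ∀ κ ∈ K, ∀ κ' ∈ K, ∀ t ∈ S κ, ∀ t' ∈ S κ', fold t = fold t' → κ = κ' ∧ t = t')
    (hh : ∀ κ ∈ K, ∀ t ∈ S κ, ∀ m : ℤ, 2 * t ≠ m) (u : Λ → ℂ) {M : ℝ} (hM : 0 ≤ M)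
    (hu : ∀ κ ∈ K, ‖u κ‖ ≤ M) :
    ∃ a : ℝ → ℂ, Measurable a ∧ Function.Periodic a 1 ∧ (∀ t, ‖a t‖ ≤ M) ∧
      ∀ κ ∈ K, ∀ t ∈ S κ, a t = u κ ∧ a (-t) = 0 := by
  classical
  have key : ∀ κ ∈ K, ∀ t ∈ perS (S κ),
      ∑ κ' ∈ K, (perS (S κ')).indicator (fun _ => u κ') t = u κ := by
    intro κ hκ t ht
    rw [Finset.sum_eq_single_of_mem κ hκ, indicator_of_mem ht]
    intro κ' hκ' hne
    refine indicator_of_notMem (fun h => hne ?_) _
    obtain ⟨m, h1⟩ := mem_perS.mp ht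
    obtain ⟨m', h2⟩ := mem_perS.mp h
    exact (hd κ' hκ' κ hκ _ h2 _ h1 (by rw [mac_fold_add, mac_fold_add])).1
  refine ⟨fun t => ∑ κ ∈ K, (perS (S κ)).indicator (fun _ => u κ) t, ?_, fun t => ?_, fun t => ?_,
    fun κ hκ t ht => ⟨key κ hκ t (mem_perS.mpr ⟨0, by simpa using ht⟩), ?_⟩⟩
  · exact Finset.measurable_sum _ fun κ hκ =>
      measurable_const.indicator (measurableSet_perS (hm κ hκ))
  · refine Finset.sum_congr rfl fun κ _ => ?_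
    simp only [indicator, add_one_mem_perS]
  · beta_reduce
    by_cases h : ∃ κ ∈ K, t ∈ perS (S κ)
    · obtain ⟨κ, hκ, ht⟩ := h
      rw [key κ hκ t ht]; exact hu κ hκ
    · push Not at h
      rw [Finset.sum_eq_zero fun κ hκ => indicator_of_notMem (h κ hκ) _]
      simpa using hM
  · refine Finset.sum_eq_zero fun κ' hκ' => indicator_of_notMem (fun h => ?_) _
    obtain ⟨m, h1⟩ := mem_perS.mp h
    have := (hd κ' hκ' κ hκ _ h1 _ ht (mac_fold_neg_add t m)).2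
    exact hh κ hκ t ht m (by linarith)

theorem exists_mult {Λ : Type} (K : Finset Λ) (S : Λ → Set ℝ)
    (hm : ∀ κ ∈ K, MeasurableSet (S κ))
    (hd : ∀ κ ∈ K, ∀ κ' ∈ K, ∀ t ∈ S κ, ∀ t' ∈ S κ', fold t = fold t' → κ = κ' ∧ t = t')
    (hh : ∀ κ ∈ K, ∀ t ∈ S κ, ∀ m : ℤ, 2 * t ≠ m) (u v : Λ → ℂ) {M : ℝ} (hM : 0 ≤ M)
    (hu : ∀ κ ∈ K, ‖u κ‖ ≤ M) (hv : ∀ κ ∈ K, ‖v κ‖ ≤ M) :
    ∃ a : ℝ → ℂ, Measurable a ∧ Function.Periodic a 1 ∧ (∀ t, ‖a t‖ ≤ 2 * M) ∧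
      ∀ κ ∈ K, ∀ t ∈ S κ, a t = u κ ∧ a (-t) = v κ := by
  obtain ⟨a, a1, a2, a3, a4⟩ := exists_half_mult K S hm hd hh u hM hu
  obtain ⟨b, b1, b2, b3, b4⟩ := exists_half_mult K S hm hd hh v hM hv
  refine ⟨fun t => a t + b (-t), a1.add (b1.comp measurable_neg), fun t => ?_, fun t => ?_,
    fun κ hκ t ht => ?_⟩
  · have : b (-(t + 1)) = b (-t) := by rw [← b2 (-(t + 1))]; congr 1; ring
    simp only [a2 t, this]
  · linarith [norm_add_le (a t) (b (-t)), a3 t, b3 (-t)]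
  · simp [a4 κ hκ t ht, b4 κ hκ t ht]

end Crest.Agent.R081
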