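import Crest.Agent.R081.Mul

/-! Cutting finite mode vectors. -/

set_option autoImplicit false

namespace Crest.Agent.R081

open MeasureTheory Set Filter Topology Crest.AnalysisR.Torus3 Crest.Agent.R210 Crest.Agent.R075
open scoped InnerProductSpace ComplexConjugate

variable {Λ : Type}

/-- Multiply by label dependent constants and cut to the sets `W i`. -/
noncomputable def FM.cut (Y : FM Λ) (W : Y.ι → Set ℝ) (u : Λ → ℂ) : FM Unit :=
  ⟨Y.ι, Y.fin, Y.j, Y.n, fun i => (W i).indicator fun w => u (Y.lab i) * Y.G i w, fun _ => ()⟩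

theorem FM.cut_bd {Y : FM Λ} (hY : Y.Ok) {W : Y.ι → Set ℝ} (hW : ∀ i, MeasurableSet (W i))
    (u : Λ → ℂ) (i : Y.ι) : Bd ((W i).indicator fun w => u (Y.lab i) * Y.G i w) :=
  ((Bd.const _).mul (hY.1 i)).indicator (hW i)

theorem FM.cut_ok {Y : FM Λ} (hY : Y.Ok) {W : Y.ι → Set ℝ} (hW : ∀ i, MeasurableSet (W i))
    (u : Λ → ℂ) : (Y.cut W u).Ok := ⟨FM.cut_bd hY hW u, hY.2⟩

theorem FM.cut_vec (Y : FM Λ) (W : Y.ι → Set ℝ) (u : Λ → ℂ) : (Y.cut W u).vec =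
    ∑ i, EE (Y.j i) (Y.n i) ((W i).indicator fun w => u (Y.lab i) * Y.G i w) := rfl

theorem FM.sum_smul_vecL {Y : FM Λ} (hY : Y.Ok) {K : Finset Λ} (hK : ∀ i, Y.lab i ∈ K)
    (u : Λ → ℂ) : ∑ κ ∈ K, u κ • Y.vecL κ =
      ∑ i, EE (Y.j i) (Y.n i) fun w => u (Y.lab i) * Y.G i w := by
  classical
  unfold FM.vecL
  simp only [Finset.smul_sum]
  rw [Finset.sum_comm]
  refine Finset.sum_congr rfl fun i _ => ?_
  rw [Finset.sum_eq_single_of_mem _ (hK i), if_pos rfl, EE_const_mul _ _ _ (hY.1 i)]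
  intro κ _ h
  rw [if_neg (Ne.symm h), smul_zero]

open Classical in
theorem sum_lab {ι : Type} [Fintype ι] (lab : ι → Λ) {K : Finset Λ} (hK : ∀ i, lab i ∈ K)
    (φ : Λ → ℝ) (ψ : ι → ℝ) :
    ∑ i, φ (lab i) * ψ i = ∑ κ ∈ K, φ κ * ∑ i, if lab i = κ then ψ i else 0 := by
  simp only [Finset.mul_sum]
  rw [Finset.sum_comm]
  refine Finset.sum_congr rfl fun i _ => ?_
  rw [Finset.sum_eq_single_of_mem _ (hK i), if_pos rfl]
  intro κ _ h
  rw [if_neg (Ne.symm h), mul_zero]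

theorem setIntegral_sq_indicator (F : ℝ → ℂ) (c : ℂ) {W : Set ℝ} (hW : MeasurableSet W)
    (A : Set ℝ) : ∫ w in A, ‖W.indicator (fun w => c * F w) w‖ ^ 2 =
      ‖c‖ ^ 2 * ∫ w in A ∩ W, ‖F w‖ ^ 2 := by
  rw [← setIntegral_indicator hW, ← integral_const_mul]
  congr 1
  funext w
  by_cases h : w ∈ W
  · simp [h, mul_pow]
  · simp [h]

theorem FM.norm_sq_cut {Y : FM Λ} (hY : Y.Ok) {W : Y.ι → Set ℝ} (hW : ∀ i, MeasurableSet (W i))
    (u : Λ → ℂ) : ‖(Y.cut W u).vec‖ ^ 2 =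
      ∑ i, ‖u (Y.lab i)‖ ^ 2 * ∫ w in Ico (0 : ℝ) 1 ∩ W i, ‖Y.G i w‖ ^ 2 := by
  rw [FM.cut_vec, norm_sq_sum_EE _ _ _ (fun i _ => FM.cut_bd hY hW u i)
    (fun i _ i' _ => hY.2 i i')]
  refine Finset.sum_congr rfl fun i _ => ?_
  rw [nsq_eq_setIntegral, setIntegral_sq_indicator _ _ (hW i)]

theorem FM.norm_sq_sub_cut {Y : FM Λ} (hY : Y.Ok) {K : Finset Λ} (hK : ∀ i, Y.lab i ∈ K)
    {W : Y.ι → Set ℝ} (hW : ∀ i, MeasurableSet (W i)) (u : Λ → ℂ) :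
    ‖∑ κ ∈ K, u κ • Y.vecL κ - (Y.cut W u).vec‖ ^ 2 =
      ∑ i, ‖u (Y.lab i)‖ ^ 2 * ∫ w in Ico (0 : ℝ) 1 \ W i, ‖Y.G i w‖ ^ 2 := by
  have e : ∑ κ ∈ K, u κ • Y.vecL κ - (Y.cut W u).vec = (Y.cut (fun i => (W i)ᶜ) u).vec := by
    rw [FM.sum_smul_vecL hY hK, FM.cut_vec, FM.cut_vec, ← Finset.sum_sub_distrib]
    refine Finset.sum_congr rfl fun i _ => ?_
    rw [← EE_sub _ _ ((Bd.const _).mul (hY.1 i)) (FM.cut_bd hY hW u i)]
    congr 1
    funext w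
    by_cases h : w ∈ W i <;> simp [h]
  rw [e, FM.norm_sq_cut hY (fun i => (hW i).compl)]
  rfl

theorem FM.mass_cut (Y : FM Λ) {W : Y.ι → Set ℝ} (hW : ∀ i, MeasurableSet (W i))
    (u : Λ → ℂ) (P : Prof) (A : Set ℝ) : (Y.cut W u).mass P A =
      ∑ i, ‖u (Y.lab i)‖ ^ 2 *
        ∫ w in Ico (0 : ℝ) 1 ∩ {w | (Y.j i : ℝ) * P.al w ∈ A} ∩ W i, ‖Y.G i w‖ ^ 2 := by
  refine Finset.sum_congr rfl fun i _ => ?_
  exact setIntegral_sq_indicator _ _ (hW i) _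

open Classical in
theorem FM.norm_sq_vecL {Y : FM Λ} (hY : Y.Ok) (κ : Λ) : ‖Y.vecL κ‖ ^ 2 =
    ∑ i, if Y.lab i = κ then ∫ w in Ico (0 : ℝ) 1, ‖Y.G i w‖ ^ 2 else 0 := by
  unfold FM.vecL
  rw [← Finset.sum_filter, ← Finset.sum_filter,
    norm_sq_sum_EE _ _ _ (fun i _ => hY.1 i) (fun i _ i' _ => hY.2 i i')]
  exact Finset.sum_congr rfl fun i _ => nsq_eq_setIntegral _

theorem inner_sum_EE_star {ι ι' : Type} (s : Finset ι) (s' : Finset ι') (j n : ι → ℤ)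
    (j' n' : ι' → ℤ) {F : ι → ℝ → ℂ} {F' : ι' → ℝ → ℂ} (hF : ∀ i ∈ s, Bd (F i))
    (hF' : ∀ i ∈ s', Bd (F' i)) (hj : ∀ i ∈ s, 1 ≤ j i) (hj' : ∀ i ∈ s', 1 ≤ j' i) :
    ⟪∑ i ∈ s, EE (j i) (n i) (F i), star (∑ i ∈ s', EE (j' i) (n' i) (F' i))⟫_ℂ = 0 := by
  rw [star_sum', sum_inner]
  refine Finset.sum_eq_zero fun i hi => ?_
  rw [inner_sum]
  refine Finset.sum_eq_zero fun i' hi' => ?_
  rw [star_EE _ _ (hF' i' hi'), inner_EE _ _ _ _ (hF i hi) (hF' i' hi').conj, if_neg]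
  have := hj i hi
  have := hj' i' hi'
  omega

theorem norm_bv_le (P : Prof) {Ξ : Finset (ℤ × ℤ)} (hΞ : ∀ ξ ∈ Ξ, 1 ≤ ξ.1) (c c' : ℤ × ℤ → ℂ)
    (l l' : ℤ × ℤ → ℤ) : ‖bv P Ξ c l‖ ≤ ‖bv P Ξ c l + star (bv P Ξ c' l')‖ ∧
      ‖bv P Ξ c' l'‖ ≤ ‖bv P Ξ c l + star (bv P Ξ c' l')‖ := by
  have h : ⟪bv P Ξ c l, star (bv P Ξ c' l')⟫_ℂ = 0 :=
    inner_sum_EE_star Ξ Ξ _ _ _ _ (fun _ _ => Pc.bd _) (fun _ _ => Pc.bd _) hΞ hΞ
  have h2 := norm_add_sq_eq_norm_sq_add_norm_sq_of_inner_eq_zero _ _ h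
  rw [norm_star'] at h2
  constructor
  · exact (mul_self_le_mul_self_iff (norm_nonneg _) (norm_nonneg _)).mpr
      (by nlinarith [norm_nonneg (bv P Ξ c' l')])
  · exact (mul_self_le_mul_self_iff (norm_nonneg _) (norm_nonneg _)).mpr
      (by nlinarith [norm_nonneg (bv P Ξ c l)])

theorem Bd.comp_al {a : ℝ → ℂ} (ha : Measurable a) {M : ℝ} (hM : ∀ t, ‖a t‖ ≤ M) (P : Prof) (j : ℤ) :
    Bd fun w => a (j * P.al w) :=
  ⟨ha.comp (P.al_contDiff.continuous.measurable.const_mul _), M, fun _ => hM _⟩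

/-- A bounded multiplier turns `cut c` into `cut u` and its conjugate into that of `cut v`. -/
theorem exists_poly_cut {Y : FM Λ} (hY : Y.Ok) {W : Y.ι → Set ℝ} (hW : ∀ i, MeasurableSet (W i))
    (P : Prof) (c u v : Λ → ℂ) {a : ℝ → ℂ} (ha : Measurable a) (hper : Function.Periodic a 1)
    {M : ℝ} (hM : ∀ t, ‖a t‖ ≤ M)
    (h : ∀ i, ∀ w ∈ W i, a (Y.j i * P.al w) * c (Y.lab i) = u (Y.lab i) ∧
      a (-(Y.j i * P.al w)) * conj (c (Y.lab i)) = conj (v (Y.lab i))) {ε : ℝ} (hε : 0 < ε) :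
    ∃ b : ℤ →₀ ℂ, (∀ θ, ‖tp b θ‖ ≤ 2 * M + 1) ∧
      ‖app b (RR P 0) (Y.cut W c).vec - (Y.cut W u).vec‖ ≤ ε ∧
      ‖app b (RR P 0) (star (Y.cut W c).vec) - star (Y.cut W v).vec‖ ≤ ε := by
  have hB := FM.cut_bd hY hW
  obtain ⟨b, hb, hs⟩ := exists_trig_mul P (ι := Y.ι ⊕ Y.ι) (Sum.elim Y.j fun i => -Y.j i)
    (Sum.elim (fun i => (W i).indicator fun w => c (Y.lab i) * Y.G i w)
      fun i w => conj ((W i).indicator (fun w => c (Y.lab i) * Y.G i w) w))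
    (by rintro (i | i); exacts [hB c i, (hB c i).conj]) ha hper hM (ζ := ε ^ 2) (by positivity)
  rw [Fintype.sum_sum_type] at hs
  simp only [Sum.elim_inl, Sum.elim_inr] at hs
  have happ : ∀ (s : Finset Y.ι) (x : Y.ι → H3),
      app b (RR P 0) (∑ i ∈ s, x i) = ∑ i ∈ s, app b (RR P 0) (x i) := by
    intro s x
    unfold app Finsupp.sum
    simp only [map_sum, Finset.smul_sum]
    exact Finset.sum_comm
  have htp : ∀ j : ℤ, Bd fun w => tp b (j * P.al w) := fun j =>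
    Bd.comp_al (continuous_tp b).measurable hb P j
  have hal : ∀ j : ℤ, Bd fun w => a (j * P.al w) := fun j => Bd.comp_al ha hM P j
  have n1 : 0 ≤ ∑ i, nsq fun w => (tp b (Y.j i * P.al w) - a (Y.j i * P.al w)) *
      (W i).indicator (fun w => c (Y.lab i) * Y.G i w) w :=
    Finset.sum_nonneg fun _ _ => nsq_nonneg _
  have n2 : 0 ≤ ∑ i, nsq fun w => (tp b ((-Y.j i : ℤ) * P.al w) - a ((-Y.j i : ℤ) * P.al w)) *
      conj ((W i).indicator (fun w => c (Y.lab i) * Y.G i w) w) :=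
    Finset.sum_nonneg fun _ _ => nsq_nonneg _
  refine ⟨b, hb, ?_, ?_⟩
  · refine abs_le_of_sq_le_sq' ?_ hε.le |>.2
    have e : app b (RR P 0) (Y.cut W c).vec - (Y.cut W u).vec =
        ∑ i, EE (Y.j i) (Y.n i) fun w => (tp b (Y.j i * P.al w) - a (Y.j i * P.al w)) *
          (W i).indicator (fun w => c (Y.lab i) * Y.G i w) w := by
      rw [FM.cut_vec, FM.cut_vec, happ, ← Finset.sum_sub_distrib]
      refine Finset.sum_congr rfl fun i _ => ?_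
      rw [app_RR_EE _ _ _ _ (hB c i), ← EE_sub _ _ ((htp _).mul (hB c i)) (hB u i)]
      congr 1
      funext w
      by_cases hw : w ∈ W i
      · simp only [indicator_of_mem hw, ← (h i w hw).1]; ring
      · simp [hw]
    rw [e, norm_sq_sum_EE _ _ _ (fun i _ => ((htp _).sub (hal _)).mul (hB c i))
      (fun i _ i' _ => hY.2 i i')]
    linarith
  · refine abs_le_of_sq_le_sq' ?_ hε.le |>.2
    have e : app b (RR P 0) (star (Y.cut W c).vec) - star (Y.cut W v).vec =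
        ∑ i, EE (-Y.j i) (-Y.n i) fun w => (tp b ((-Y.j i : ℤ) * P.al w) -
          a ((-Y.j i : ℤ) * P.al w)) * conj ((W i).indicator (fun w => c (Y.lab i) * Y.G i w) w) := by
      rw [FM.cut_vec, FM.cut_vec, star_sum', star_sum', happ, ← Finset.sum_sub_distrib]
      refine Finset.sum_congr rfl fun i _ => ?_
      rw [star_EE _ _ (hB c i), star_EE _ _ (hB v i), app_RR_EE _ _ _ _ (hB c i).conj,
        ← EE_sub _ _ ((htp _).mul (hB c i).conj) (hB v i).conj]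
      congr 1
      funext w
      by_cases hw : w ∈ W i
      · simp only [indicator_of_mem hw, map_mul, ← (h i w hw).2, Int.cast_neg, neg_mul]; ring
      · simp [hw]
    rw [e, norm_sq_sum_EE _ _ _ (fun i _ => ((htp _).sub (hal _)).mul (hB c i).conj)
      (fun i _ i' _ h1 h2 => hY.2 i i' (neg_injective h1) (neg_injective h2))]
    linarith

theorem Inv.mono {H : VD} {P : Prof} {g : H3} {η η' : ℝ} (h : Inv H P g η) (hη : η ≤ η') :
    Inv H P g η' := by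
  obtain ⟨Y, E, h1, h2, h3, h4, h5, h6, h7, h8⟩ := h
  refine ⟨Y, E, h1, h2, h3, h4, h5, h6, fun A hA => (h7 A hA).trans ?_, by linarith⟩
  exact mul_le_mul_of_nonneg_right (by linarith) ENNReal.toReal_nonneg

end Crest.Agent.R081
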