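import Crest.Agent.R081.MacA
import Crest.Agent.R081.MacB
import Crest.Agent.R081.FS

/-! Consequences of the spectral description. -/

set_option autoImplicit false

namespace Crest.Agent.R081

open MeasureTheory Set Filter Topology Crest.AnalysisR.Torus3 Crest.Agent.R210 Crest.Agent.R075
open scoped InnerProductSpace ComplexConjugate

variable {Λ : Type}

theorem measurableSet_al (P : Prof) (j : ℤ) {A : Set ℝ} (hA : MeasurableSet A) :
    MeasurableSet {w | (j : ℝ) * P.al w ∈ A} :=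
  (P.al_contDiff.continuous.measurable.const_mul _) hA

theorem integral_split {F : ℝ → ℂ} (hF : Bd F) {O B : Set ℝ} (hO : MeasurableSet O)
    (hO1 : O ⊆ Ico 0 1) (hB : MeasurableSet B) :
    ∫ w in Ico (0 : ℝ) 1 \ (O ∩ B), ‖F w‖ ^ 2 =
      (∫ w in Ico (0 : ℝ) 1 \ O, ‖F w‖ ^ 2) + ∫ w in O ∩ Bᶜ, ‖F w‖ ^ 2 := by
  rw [← setIntegral_union _ (hO.inter hB.compl) (hF.integrableOn_sq sdiff_subset)
    (hF.integrableOn_sq (inter_subset_left.trans hO1))]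
  · congr 2
    ext w
    by_cases h : w ∈ O
    · simp [h, hO1 h, -mem_Ico]
    · simp [h, -mem_Ico]
  · exact Set.disjoint_left.mpr fun w h1 h2 => h1.2 h2.1

theorem integral_split' {F : ℝ → ℂ} (hF : Bd F) {W : Set ℝ} (hW : MeasurableSet W) :
    ∫ w in Ico (0 : ℝ) 1, ‖F w‖ ^ 2 =
      (∫ w in Ico (0 : ℝ) 1 ∩ W, ‖F w‖ ^ 2) + ∫ w in Ico (0 : ℝ) 1 \ W, ‖F w‖ ^ 2 :=
  (integral_inter_add_sdiff hW (hF.integrableOn_sq subset_rfl)).symm

open Classical in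
theorem post {P : Prof} {Y : FM Λ} {K : Finset Λ} {N : ℕ} (hN : 1 ≤ N) {ν : Λ → ℤ}
    {L Pos : Λ → ℝ} {S : Λ → Set ℝ} {Om : Λ → ℤ → Set ℝ} {η1 η2 ζ : ℝ} (h1 : 0 ≤ η1)
    (h1' : η1 ≤ 1 / 20) (h2 : 0 ≤ η2) (h2' : η2 ≤ ζ) (hζ : ζ ≤ 1)
    (hSO : SOut P Y K N ν L Pos S Om (1 + 20 * η1) η2) (hY : Y.Ok) (hK : ∀ i, Y.lab i ∈ K)
    (hnorm : ∀ κ ∈ K, 1 - 2 * η2 ≤ ‖Y.vecL κ‖ ^ 2) {rk : Λ → ℕ} {c : Λ → ℂ}
    (ha : ∀ κ ∈ K, 0 < L κ ∧ ‖c κ‖ ^ 2 = L κ / (2 * N))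
    (hb : ∀ κ ∈ K, ∀ κ' ∈ K, κ ≠ κ' → rk κ = rk κ' → cls N (ν κ) = cls N (ν κ') →
      ν κ = ν κ' ∧ Disjoint (Ioo (Pos κ) (Pos κ + L κ)) (Ioo (Pos κ') (Pos κ' + L κ')))
    (hc : ∀ κ ∈ K, ∑ κ' ∈ K.filter (fun κ' => cls N (ν κ') = cls N (ν κ) ∧ rk κ < rk κ'), L κ' ≤
      ζ * L κ)
    (hd : ∀ r : ℤ, 0 ≤ r → r < N → ∑ κ ∈ K.filter (fun κ => cls N (ν κ) = r ∧ rk κ = 0), L κ = 1)
    (he : ∑ κ ∈ K, L κ / (2 * N) ≤ 1) :
    ∃ (S' : Λ → Set ℝ) (W : Y.ι → Set ℝ), (∀ i, MeasurableSet (W i)) ∧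
      (∀ i, W i ⊆ Ico 0 (1 - P.sh.mu)) ∧ (∀ i, ∀ w ∈ W i, (Y.j i : ℝ) * P.al w ∈ S' (Y.lab i)) ∧
      (∀ κ ∈ K, MeasurableSet (S' κ) ∧ S' κ ⊆ cell N (ν κ)) ∧
      (∀ κ ∈ K, ∀ κ' ∈ K, ∀ t ∈ S' κ, ∀ t' ∈ S' κ', fold t = fold t' → κ = κ' ∧ t = t') ∧
      (∀ u : Λ → ℂ, ‖∑ κ ∈ K, u κ • Y.vecL κ - (Y.cut W u).vec‖ ^ 2 ≤ 5 * ζ * ∑ κ ∈ K, ‖u κ‖ ^ 2) ∧
      (∀ A : Set ℝ, MeasurableSet A →
        (Y.cut W c).mass P A ≤ (1 + 20 * η1) * (volume (A ∩ ⋃ κ ∈ K, S' κ)).toReal) ∧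
      1 / 2 - 40 * η1 - 7 * η2 ≤ ‖(Y.cut W c).vec‖ ^ 2 := by
  obtain ⟨s1, s2, s3, s4, s5⟩ := hSO
  obtain ⟨S', t1, t2, t3, t4⟩ := exists_ranked hN K ν S rk (fun κ hκ => ⟨(s1 κ hκ).1, (s1 κ hκ).2.1⟩)
    (fun κ hκ κ' hκ' hne hr hcl => ⟨(hb κ hκ κ' hκ' hne hr hcl).1,
      s2 κ hκ κ' hκ' (hb κ hκ κ' hκ' hne hr hcl).1 (hb κ hκ κ' hκ' hne hr hcl).2⟩)
  set C := 1 + 20 * η1 with hC
  have hC1 : 1 ≤ C := by linarith
  have hC2 : C ≤ 2 := by linarith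
  have hN' : (0 : ℝ) < 2 * N := by have : (1 : ℝ) ≤ N := by exact_mod_cast hN
                                   linarith
  let W : Y.ι → Set ℝ := fun i => Om (Y.lab i) (Y.j i) ∩ {w | (Y.j i : ℝ) * P.al w ∈ S' (Y.lab i)}
  have hW : ∀ i, MeasurableSet (W i) := fun i =>
    (s3 _ _).1.inter (measurableSet_al P _ (t1 _ (hK i)).1)
  have hO1 : ∀ κ j, Om κ j ⊆ Ico 0 1 := fun κ j => (s3 κ j).2.1.trans
    (Ico_subset_Ico_right (by linarith [P.sh.mu_pos]))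
  have hfin : ∀ κ ∈ K, volume (S κ) ≠ ⊤ := fun κ hκ => volume_ne_top_of_cell hN (s1 κ hκ).2.1
  -- the loss of a label
  have hloss : ∀ κ ∈ K, (∑ i, if Y.lab i = κ then ∫ w in Ico (0 : ℝ) 1 \ W i, ‖Y.G i w‖ ^ 2 else 0) ≤
      η2 + C * (2 * N) / L κ * (volume (S κ \ S' κ)).toReal := by
    intro κ hκ
    have h5 := s5 κ hκ (S' κ)ᶜ (t1 κ hκ).1.compl
    rw [inter_comm] at h5
    refine le_trans (le_of_eq ?_) (add_le_add (s4 κ hκ) h5)
    rw [← Finset.sum_add_distrib]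
    refine Finset.sum_congr rfl fun i _ => ?_
    split_ifs with h
    · subst h
      exact integral_split (hY.1 i) (s3 _ _).1 (hO1 _ _) (measurableSet_al P _ (t1 _ (hK i)).1)
    · simp
  have hdiff : ∀ κ ∈ K, (volume (S κ \ S' κ)).toReal ≤ 2 * ζ * (L κ / (2 * N)) := by
    intro κ hκ
    refine (t3 κ hκ).trans ?_
    calc ∑ κ' ∈ K.filter (fun κ' => cls N (ν κ') = cls N (ν κ) ∧ rk κ < rk κ'), (volume (S κ')).toReal
        ≤ ∑ κ' ∈ K.filter (fun κ' => cls N (ν κ') = cls N (ν κ) ∧ rk κ < rk κ'),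
          2 / (2 * N) * L κ' := by
          refine Finset.sum_le_sum fun κ' hκ' => ?_
          have h3 := (Finset.mem_filter.mp hκ').1
          refine (s1 κ' h3).2.2.trans ?_
          rw [div_mul_eq_mul_div]
          exact div_le_div_of_nonneg_right
            (mul_le_mul_of_nonneg_right (by linarith) (ha κ' h3).1.le) hN'.le
      _ ≤ 2 / (2 * N) * (ζ * L κ) := by
          rw [← Finset.mul_sum]
          exact mul_le_mul_of_nonneg_left (hc κ hκ) (by positivity)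
      _ = _ := by ring
  have hζ0 : 0 ≤ ζ := h2.trans h2'
  refine ⟨S', W, hW, fun i => inter_subset_left.trans (s3 _ _).2.1, fun i w hw => hw.2,
    fun κ hκ => ⟨(t1 κ hκ).1, (t1 κ hκ).2.trans (s1 κ hκ).2.1⟩, t2, fun u => ?_, fun A hA => ?_, ?_⟩
  · rw [FM.norm_sq_sub_cut hY hK hW, sum_lab Y.lab hK (fun κ => ‖u κ‖ ^ 2), Finset.mul_sum]
    refine Finset.sum_le_sum fun κ hκ => ?_
    rw [mul_comm]
    refine mul_le_mul_of_nonneg_right ((hloss κ hκ).trans ?_) (by positivity)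
    have hL := (ha κ hκ).1
    calc η2 + C * (2 * N) / L κ * (volume (S κ \ S' κ)).toReal
        ≤ η2 + C * (2 * N) / L κ * (2 * ζ * (L κ / (2 * N))) := by
          gcongr; exact hdiff κ hκ
      _ = η2 + C * (2 * ζ) := by field_simp
      _ ≤ 5 * ζ := by nlinarith
  · rw [FM.mass_cut Y hW, sum_lab Y.lab hK (fun κ => ‖c κ‖ ^ 2)]
    have e : (volume (A ∩ ⋃ κ ∈ K, S' κ)).toReal = ∑ κ ∈ K, (volume (A ∩ S' κ)).toReal := by
      rw [inter_iUnion₂]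
      refine measureReal_biUnion_finset ?_ (fun κ hκ => hA.inter (t1 κ hκ).1) fun κ hκ =>
        ne_top_of_le_ne_top (hfin κ hκ) (measure_mono (inter_subset_right.trans (t1 κ hκ).2))
      intro κ hκ κ' hκ' hne
      exact Set.disjoint_left.mpr fun t ht ht' => hne (t2 κ hκ κ' hκ' t ht.2 t ht'.2 rfl).1
    rw [e, Finset.mul_sum]
    refine Finset.sum_le_sum fun κ hκ => ?_
    have h5 := s5 κ hκ (A ∩ S' κ) (hA.inter (t1 κ hκ).1)
    rw [inter_assoc, inter_eq_left.mpr (t1 κ hκ).2] at h5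
    have hL := (ha κ hκ).1
    calc _ = L κ / (2 * N) * ∑ i, if Y.lab i = κ then
          ∫ z in Om κ (Y.j i) ∩ {z | (Y.j i : ℝ) * P.al z ∈ A ∩ S' κ}, ‖Y.G i z‖ ^ 2 else 0 := by
          rw [(ha κ hκ).2]
          congr 1
          refine Finset.sum_congr rfl fun i _ => ?_
          split_ifs with h
          · subst h
            congr 2
            ext w
            simp only [W, mem_inter_iff, mem_ofPred_eq]
            exact ⟨fun h => ⟨h.2.1, h.1.2, h.2.2⟩, fun h => ⟨⟨hO1 _ _ h.1, h.2.1⟩, h.1, h.2.2⟩⟩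
          · rfl
      _ ≤ L κ / (2 * N) * (C * (2 * N) / L κ * (volume (A ∩ S' κ)).toReal) := by gcongr
      _ = _ := by field_simp
  · rw [FM.norm_sq_cut hY hW, sum_lab Y.lab hK (fun κ => ‖c κ‖ ^ 2)]
    have hS' : ∀ κ ∈ K, (volume (S κ \ S' κ)).toReal = (volume (S κ)).toReal - (volume (S' κ)).toReal :=
      fun κ hκ => measureReal_sdiff (t1 κ hκ).2 (t1 κ hκ).1 (hfin κ hκ)
    have hl1 : ∀ κ ∈ K, (volume (S' κ)).toReal - (20 * η1 + 5 * η2) * (L κ / (2 * N)) ≤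
        ‖c κ‖ ^ 2 * ∑ i, if Y.lab i = κ then ∫ w in Ico (0 : ℝ) 1 ∩ W i, ‖Y.G i w‖ ^ 2 else 0 := by
      intro κ hκ
      have h3 := hnorm κ hκ
      rw [FM.norm_sq_vecL hY] at h3
      have h4 : (∑ i, if Y.lab i = κ then ∫ w in Ico (0 : ℝ) 1, ‖Y.G i w‖ ^ 2 else 0) =
          (∑ i, if Y.lab i = κ then ∫ w in Ico (0 : ℝ) 1 ∩ W i, ‖Y.G i w‖ ^ 2 else 0) +
          ∑ i, if Y.lab i = κ then ∫ w in Ico (0 : ℝ) 1 \ W i, ‖Y.G i w‖ ^ 2 else 0 := by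
        rw [← Finset.sum_add_distrib]
        refine Finset.sum_congr rfl fun i _ => ?_
        split_ifs with h
        · exact integral_split' (hY.1 i) (hW i)
        · simp
      have h5 := hloss κ hκ
      have hL := (ha κ hκ).1
      have h6 := (s1 κ hκ).2.2
      rw [mul_div_assoc] at h6
      rw [(ha κ hκ).2]
      set ℓ := L κ / (2 * N) with hℓ
      have hℓ0 : 0 < ℓ := by positivity
      have h7 : C * (2 * N) / L κ = C / ℓ := by rw [hℓ]; field_simp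
      rw [h7, hS' κ hκ] at h5
      set m := ∑ i, if Y.lab i = κ then ∫ w in Ico (0 : ℝ) 1 ∩ W i, ‖Y.G i w‖ ^ 2 else 0
      have h8 : ℓ * (1 - 3 * η2 - C / ℓ * ((volume (S κ)).toReal - (volume (S' κ)).toReal)) ≤ ℓ * m :=
        mul_le_mul_of_nonneg_left (by linarith) hℓ0.le
      have h9 : ℓ * (1 - 3 * η2 - C / ℓ * ((volume (S κ)).toReal - (volume (S' κ)).toReal)) =
          ℓ * (1 - 3 * η2) - C * (volume (S κ)).toReal + C * (volume (S' κ)).toReal := by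
        field_simp; ring
      have h10 : (0 : ℝ) ≤ (volume (S' κ)).toReal := ENNReal.toReal_nonneg
      have h11 : C * (volume (S κ)).toReal ≤ C * ((1 + η2) * ℓ) :=
        mul_le_mul_of_nonneg_left h6 (by linarith)
      have h12 : C * η2 ≤ 2 * η2 := mul_le_mul_of_nonneg_right hC2 h2
      nlinarith
    have hl2 : ∀ κ ∈ K, (1 - 3 * η2 - 40 * η1) * (L κ / (2 * N)) ≤ (volume (S κ)).toReal := by
      intro κ hκ
      have h3 := hnorm κ hκ
      rw [FM.norm_sq_vecL hY] at h3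
      have h5 := s5 κ hκ univ MeasurableSet.univ
      have h4 : (∑ i, if Y.lab i = κ then ∫ w in Ico (0 : ℝ) 1, ‖Y.G i w‖ ^ 2 else 0) =
          (∑ i, if Y.lab i = κ then
            ∫ w in Om κ (Y.j i) ∩ {z | (Y.j i : ℝ) * P.al z ∈ univ}, ‖Y.G i w‖ ^ 2 else 0) +
          ∑ i, if Y.lab i = κ then ∫ w in Ico (0 : ℝ) 1 \ Om κ (Y.j i), ‖Y.G i w‖ ^ 2 else 0 := by
        rw [← Finset.sum_add_distrib]
        refine Finset.sum_congr rfl fun i _ => ?_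
        split_ifs with h
        · rw [integral_split' (hY.1 i) (s3 κ (Y.j i)).1, inter_eq_right.mpr (hO1 _ _)]
          simp
        · simp
      have h6 := (s1 κ hκ).2.2
      have h6' := s4 κ hκ
      have hL := (ha κ hκ).1
      rw [mul_div_assoc] at h6
      set ℓ := L κ / (2 * N) with hℓ
      have hℓ0 : 0 < ℓ := by positivity
      have h7 : C * (2 * N) / L κ = C / ℓ := by rw [hℓ]; field_simp
      rw [h7, univ_inter] at h5
      have h8 : (1 - 3 * η2) * ℓ ≤ C / ℓ * (volume (S κ)).toReal * ℓ :=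
        mul_le_mul_of_nonneg_right (by linarith) hℓ0.le
      have h9 : C / ℓ * (volume (S κ)).toReal * ℓ = C * (volume (S κ)).toReal := by field_simp
      have h10 : η1 * (volume (S κ)).toReal ≤ η1 * (2 * ℓ) :=
        mul_le_mul_of_nonneg_left (h6.trans (mul_le_mul_of_nonneg_right (by linarith) hℓ0.le)) h1
      nlinarith
    have hl3 : ∑ κ ∈ K.filter (fun κ => rk κ = 0), L κ / (2 * N) = 1 / 2 := by
      rw [← Finset.sum_div, ← Finset.sum_fiberwise_of_maps_to (t := Finset.Ico (0 : ℤ) N)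
        (g := fun κ => cls N (ν κ)) (fun κ _ => Finset.mem_Ico.mpr (cls_mem hN _))]
      rw [Finset.sum_congr rfl (g := fun _ => (1 : ℝ))]
      · simp; field_simp
      · intro r hr
        rw [← hd r (Finset.mem_Ico.mp hr).1 (Finset.mem_Ico.mp hr).2, Finset.filter_filter]
        exact Finset.sum_congr (Finset.filter_congr fun κ _ => and_comm) fun _ _ => rfl
    have hl4 := Finset.sum_le_sum hl1
    have hl5 := Finset.sum_le_sum fun κ (hκ : κ ∈ K.filter (fun κ => rk κ = 0)) =>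
      hl2 κ (Finset.mem_filter.mp hκ).1
    rw [← Finset.mul_sum, hl3] at hl5
    rw [Finset.sum_sub_distrib, ← Finset.mul_sum] at hl4
    have hl6 : (20 * η1 + 5 * η2) * ∑ κ ∈ K, L κ / (2 * N) ≤ (20 * η1 + 5 * η2) * 1 :=
      mul_le_mul_of_nonneg_left he (by positivity)
    linarith

end Crest.Agent.R081
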