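import Crest.Agent.R081.Iter
import Crest.Agent.R081.Dec

/-! The preliminary step: removing zero modes while keeping the spectral bound. -/

set_option autoImplicit false

namespace Crest.Agent.R081

open MeasureTheory Set Filter Topology Crest.AnalysisR.Torus3 Crest.Agent.R210 Crest.Agent.R075
open scoped InnerProductSpace ComplexConjugate

theorem pre_setIntegral_le {F G K : ℝ → ℂ} (hF : Bd F) (hG : Bd G) (hK : Bd K) {B : Set ℝ}
    (hB : MeasurableSet B) (hB1 : B ⊆ Ico 0 1) {a b : ℝ} (hb : 0 ≤ b)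
    (h : ∀ w ∈ B, ‖F w‖ ^ 2 ≤ a * ‖G w‖ ^ 2 + b * ‖K w‖ ^ 2) :
    ∫ w in B, ‖F w‖ ^ 2 ≤ a * (∫ w in B, ‖G w‖ ^ 2) + b * nsq K := by
  have i1 := hF.integrableOn_sq hB1
  have i2 := hG.integrableOn_sq hB1
  have i3 := hK.integrableOn_sq hB1
  have h1 : ∫ w in B, ‖F w‖ ^ 2 ≤ ∫ w in B, (a * ‖G w‖ ^ 2 + b * ‖K w‖ ^ 2) :=
    setIntegral_mono_on i1 ((i2.const_mul a).add (i3.const_mul b)) hB h
  rw [integral_add (i2.const_mul a) (i3.const_mul b), integral_const_mul, integral_const_mul] at h1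
  have h2 : ∫ w in B, ‖K w‖ ^ 2 ≤ nsq K := by
    rw [nsq_eq_setIntegral]
    exact setIntegral_mono_set (hK.integrableOn_sq subset_rfl)
      (Eventually.of_forall fun w => sq_nonneg _) hB1.eventuallyLE
  linarith [mul_le_mul_of_nonneg_left h2 hb]

theorem pre_nsq_const (c : ℂ) : nsq (fun _ => c) = ‖c‖ ^ 2 := by
  simp [nsq]

theorem pre_grid_disj {x : ℝ} (h0 : 0 < x) {m : ℕ} (hm : 0 < m) {i i' : ℕ} (h : i ≠ i') :
    Disjoint (Ico ((i : ℝ) * x / m) (((i : ℝ) + 1) * x / m))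
      (Ico ((i' : ℝ) * x / m) (((i' : ℝ) + 1) * x / m)) := by
  have hm' : (0 : ℝ) < m := by exact_mod_cast hm
  wlog hlt : i < i' generalizing i i'
  · exact (this h.symm (lt_of_le_of_ne (not_lt.1 hlt) h.symm)).symm
  rw [Set.disjoint_left]
  intro w hw hw'
  have h1 : (i : ℝ) + 1 ≤ i' := by exact_mod_cast hlt
  have h2 : ((i : ℝ) + 1) * x / m ≤ (i' : ℝ) * x / m := by gcongr
  linarith [hw.2, hw'.1]

theorem pre_grid_sub {x : ℝ} (h0 : 0 < x) {m : ℕ} (i : Fin m) :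
    0 ≤ ((i : ℕ) : ℝ) * x / m ∧ ((i : ℕ) : ℝ) * x / m < (((i : ℕ) : ℝ) + 1) * x / m ∧
      (((i : ℕ) : ℝ) + 1) * x / m ≤ x := by
  have hm : 0 < m := Fin.pos i
  have hm' : (0 : ℝ) < m := by exact_mod_cast hm
  have h1 : ((i : ℕ) : ℝ) + 1 ≤ m := by exact_mod_cast i.2
  refine ⟨by positivity, by gcongr; linarith, ?_⟩
  rw [div_le_iff₀ hm']
  nlinarith

theorem pre_grid_mem {x : ℝ} (h0 : 0 < x) {m : ℕ} (hm : 0 < m) {w : ℝ} (hw : w ∈ Ico 0 x) :
    ∃ i : Fin m, w ∈ Ico (((i : ℕ) : ℝ) * x / m) ((((i : ℕ) : ℝ) + 1) * x / m) := by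
  have hm' : (0 : ℝ) < m := by exact_mod_cast hm
  have h1 : 0 ≤ w * m / x := by have := hw.1; positivity
  have h2 : w * m / x < m := by
    rw [div_lt_iff₀ h0]
    nlinarith [hw.2]
  refine ⟨⟨⌊w * m / x⌋₊, (Nat.floor_lt h1).2 h2⟩, ?_, ?_⟩
  · have := Nat.floor_le h1
    rw [le_div_iff₀ h0] at this
    rw [div_le_iff₀ hm']
    exact this
  · have := Nat.lt_floor_add_one (w * m / x)
    rw [div_lt_iff₀ h0] at this
    rw [lt_div_iff₀ hm']
    exact this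

theorem pre_step_eq {x : ℝ} (h0 : 0 < x) {m : ℕ} {M : Type*} [AddCommMonoid M] (c : Fin m → M)
    {i : Fin m} {w : ℝ} (hw : w ∈ Ico (((i : ℕ) : ℝ) * x / m) ((((i : ℕ) : ℝ) + 1) * x / m)) :
    ∑ i' : Fin m, (Ico (((i' : ℕ) : ℝ) * x / m) ((((i' : ℕ) : ℝ) + 1) * x / m)).indicator
      (fun _ => c i') w = c i := by
  rw [Finset.sum_eq_single i, indicator_of_mem hw]
  · intro i' _ hne
    refine indicator_of_notMem ?_ _
    exact Set.disjoint_right.1 (pre_grid_disj h0 (Fin.pos i) (Fin.val_ne_of_ne hne)) hw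
  · simp

theorem pre_step_zero {x : ℝ} (h0 : 0 < x) {m : ℕ} {M : Type*} [AddCommMonoid M] (c : Fin m → M)
    {w : ℝ} (hw : w ∉ Ico 0 x) :
    ∑ i' : Fin m, (Ico (((i' : ℕ) : ℝ) * x / m) ((((i' : ℕ) : ℝ) + 1) * x / m)).indicator
      (fun _ => c i') w = 0 := by
  refine Finset.sum_eq_zero fun i _ => indicator_of_notMem (fun h => hw ?_) _
  obtain ⟨h1, -, h3⟩ := pre_grid_sub h0 i
  exact ⟨h1.trans h.1, h.2.trans_le h3⟩

theorem pre_step_bd (x : ℝ) {m : ℕ} (c : Fin m → ℂ) : Bd fun w =>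
    ∑ i' : Fin m, (Ico (((i' : ℕ) : ℝ) * x / m) ((((i' : ℕ) : ℝ) + 1) * x / m)).indicator
      (fun _ => c i') w :=
  Bd.sum _ fun i _ => (Bd.const (c i)).indicator measurableSet_Ico

theorem pre_bd_ee (j : ℝ) : Bd fun w => ee (j * w) := Bd.ee (by fun_prop)

/-- Approximation in `L²(0, x)` by step functions on a uniform grid (continuous approximation and
uniform continuity). -/
theorem exists_step_approx {G : ℝ → ℂ} (hG : Bd G) {x : ℝ} (h0 : 0 < x) (h1 : x ≤ 1)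
    (hsupp : ∀ w, w ∉ Ico 0 x → G w = 0) {η : ℝ} (hη : 0 < η) :
    ∃ (m : ℕ) (c : Fin m → ℂ), 0 < m ∧ nsq (fun w => G w - ∑ i : Fin m,
      (Ico ((i : ℕ) * x / m) (((i : ℕ) + 1) * x / m)).indicator (fun _ => c i) w) ≤ η := by
  obtain ⟨W, hW⟩ := exists_fourier_approx hG (η := η / 4) (by positivity)
  set cf : ℤ → ℂ := fun j => ∫ w in (0 : ℝ)..1, G w * ee (-(j * w)) with hcf
  set g : ℝ → ℂ := fun w => ∑ j ∈ W, cf j * ee (j * w) with hg
  have hgb : Bd g := Bd.sum _ fun j _ => (Bd.const _).mul (pre_bd_ee _)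
  have hgc : Continuous g := by
    rw [hg]
    fun_prop
  have h2 : nsq (fun w => G w - g w) ≤ η / 4 := by
    have := nsq_sub_sum hG W cf
    simp only [hcf, sub_self, norm_zero] at this
    rw [hg]
    simp only [hcf]
    rw [this]
    simpa using hW W subset_rfl
  obtain ⟨d, hd, hu⟩ := Metric.uniformContinuousOn_iff.1
    (isCompact_Icc.uniformContinuousOn_of_continuous (hgc.continuousOn (s := Icc (0 : ℝ) 1)))
    (√(η / 4)) (by positivity)
  obtain ⟨m, hm⟩ := exists_nat_gt (1 / d)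
  have hm' : (0 : ℝ) < m := lt_trans (by positivity) hm
  have hm0 : 0 < m := by exact_mod_cast hm'
  refine ⟨m, fun i => g ((i : ℕ) * x / m), hm0, ?_⟩
  rw [nsq_eq_setIntegral]
  have h3 := pre_setIntegral_le (hG.sub (pre_step_bd x fun i : Fin m => g ((i : ℕ) * x / m)))
    (hG.sub hgb) (Bd.const ((√(η / 4) : ℝ) : ℂ)) measurableSet_Ico subset_rfl (a := 2) (b := 2)
    zero_le_two ?_
  · rw [← nsq_eq_setIntegral (fun w => G w - g w), pre_nsq_const, Complex.norm_real,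
      Real.norm_eq_abs, sq_abs, Real.sq_sqrt (by positivity)] at h3
    linarith
  · intro w hw
    by_cases hx : w ∈ Ico 0 x
    · obtain ⟨i, hi⟩ := pre_grid_mem h0 hm0 hx
      rw [pre_step_eq h0 _ hi]
      obtain ⟨g1, g2, g3⟩ := pre_grid_sub h0 i
      have h4 : dist w (((i : ℕ) : ℝ) * x / m) < d := by
        rw [Real.dist_eq, abs_of_nonneg (by linarith [hi.1])]
        have e1 : (((i : ℕ) : ℝ) + 1) * x / m = ((i : ℕ) : ℝ) * x / m + x / m := by ring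
        have e2 : x / m ≤ 1 / m := by gcongr
        have e3 : 1 / (m : ℝ) < d := by
          rw [div_lt_iff₀ hm']
          rw [div_lt_iff₀ hd] at hm
          linarith
        linarith [hi.2]
      have h5 := hu w ⟨hw.1, hw.2.le⟩ _ ⟨g1, by linarith⟩ h4
      rw [dist_eq_norm] at h5
      have h6 : ‖G w - g (((i : ℕ) : ℝ) * x / m)‖ ≤ ‖G w - g w‖ + √(η / 4) :=
        (norm_sub_le_norm_sub_add_norm_sub _ (g w) _).trans (by linarith)
      rw [Complex.norm_real, Real.norm_eq_abs, sq_abs]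
      have h7 := pow_le_pow_left₀ (norm_nonneg _) h6 2
      nlinarith [sq_nonneg (‖G w - g w‖ - √(η / 4))]
    · rw [pre_step_zero h0 _ hx, hsupp w hx]
      rw [sub_self, norm_zero, zero_pow two_ne_zero]
      positivity

theorem pre_densL_unit (F : Fam Unit) (P : Prof) (t : ℝ) :
    F.densL P () t = ∑ i, (F.pc i).dens P t := by
  simp [Fam.densL]

theorem pre_vecL_unit (F : Fam Unit) : F.vecL () = ∑ i, (F.pc i).vec := by
  simp [Fam.vecL]

theorem pre_integral_densL {F : Fam Unit} {P : Prof} (hV : F.Valid P) (A : Set ℝ) :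
    ∫ t in A, F.densL P () t = ∑ i, ∫ t in A, (F.pc i).dens P t := by
  simp only [pre_densL_unit]
  exact integral_finsetSum _ fun i _ => (Pc.integrable_dens (hV i)).integrableOn

theorem pre_integrable_densL {F : Fam Unit} {P : Prof} (hV : F.Valid P) :
    Integrable (F.densL P ()) := by
  have : F.densL P () = fun t => ∑ i, (F.pc i).dens P t := funext (pre_densL_unit F P)
  rw [this]
  exact integrable_finsetSum _ fun i _ => Pc.integrable_dens (hV i)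

theorem pre_meas_pre (P : Prof) (j : ℝ) {A : Set ℝ} (hA : MeasurableSet A) :
    MeasurableSet {w | j * P.al w ∈ A} :=
  (measurable_const.mul P.al_contDiff.continuous.measurable) hA

/-- Replace a finite mode vector by a family of pieces, each with its own label.
Use `‖G'‖² ≤ (1 + θ) ‖G‖² + (1 + 1/θ) ‖G - G'‖²` pointwise and `Pc.integral_dens`. -/
theorem exists_fam_approx (P : Prof) (Y : FM Unit) (hY : Y.Ok) (hj : ∀ i, 1 ≤ Y.j i)
    (hsupp : ∀ i w, w ∉ Ico (0 : ℝ) (1 - P.sh.mu) → Y.G i w = 0) {ζ : ℝ} (hζ : 0 < ζ) :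
    ∃ F : Fam Unit, F.Valid P ∧ F.Sep ∧ ‖Y.vec - F.vecL ()‖ ≤ ζ ∧
      ∀ A : Set ℝ, MeasurableSet A → ∫ t in A, F.densL P () t ≤ (1 + ζ) * Y.mass P A + ζ := by
  set x := 1 - P.sh.mu with hx
  have h0 : 0 < x := by linarith [P.sh.mu_le]
  have h1 : x ≤ 1 := by linarith [P.sh.mu_pos]
  set N : ℝ := (Fintype.card Y.ι : ℝ) with hN
  have hN0 : 0 ≤ N := Nat.cast_nonneg _
  set η := min (ζ ^ 2) (ζ / (1 + 1 / ζ)) / (N + 1) with hη
  have hη0 : 0 < η := by positivity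
  have hη1 : N * η ≤ min (ζ ^ 2) (ζ / (1 + 1 / ζ)) := by
    have : 0 < min (ζ ^ 2) (ζ / (1 + 1 / ζ)) := by positivity
    rw [hη, ← mul_div_assoc, div_le_iff₀ (by positivity)]
    nlinarith
  choose m c hm hc using fun i => exists_step_approx (hY.1 i) h0 h1 (hsupp i) hη0
  set s : Y.ι → ℝ → ℂ := fun i w => ∑ k : Fin (m i),
    (Ico ((k : ℕ) * x / (m i)) (((k : ℕ) + 1) * x / (m i))).indicator (fun _ => c i k) w with hs
  have hsb : ∀ i, Bd (s i) := fun i => pre_step_bd x (c i)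
  have hsum : ∑ i, nsq (fun w => Y.G i w - s i w) ≤ N * η := by
    refine (Finset.sum_le_sum fun i _ => hc i).trans ?_
    simp [hN]
  let F : Fam Unit := ⟨Σ i : Y.ι, Fin (m i), inferInstance,
    fun p => ⟨Y.j p.1, Y.n p.1, 0, c p.1 p.2, (p.2 : ℕ) * x / (m p.1),
      ((p.2 : ℕ) + 1) * x / (m p.1)⟩, fun _ => ()⟩
  have hfn : ∀ (i : Y.ι) (k : Fin (m i)), (F.pc ⟨i, k⟩).fn =
      (Ico ((k : ℕ) * x / (m i)) (((k : ℕ) + 1) * x / (m i))).indicator (fun _ => c i k) := by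
    intro i k
    simp [F, Pc.fn, ee_zero]
  have hV : F.Valid P := fun p => ⟨hj _, pre_grid_sub h0 p.2⟩
  refine ⟨F, hV, ?_, ?_, ?_⟩
  · rintro ⟨i, k⟩ ⟨i', k'⟩ hne e1 e2
    obtain rfl : i = i' := hY.2 i i' e1 e2
    refine pre_grid_disj h0 (hm i) (Fin.val_ne_of_ne ?_)
    rintro rfl
    exact hne rfl
  · have e1 : F.vecL () = ∑ i, EE (Y.j i) (Y.n i) (s i) := by
      rw [pre_vecL_unit]
      change ∑ p : (Σ i : Y.ι, Fin (m i)), (F.pc p).vec = _
      rw [Fintype.sum_sigma]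
      refine Finset.sum_congr rfl fun i _ => ?_
      rw [hs]
      rw [EE_sum _ _ _ fun k _ => (Bd.const (c i k)).indicator measurableSet_Ico]
      refine Finset.sum_congr rfl fun k _ => ?_
      rw [Pc.vec, hfn]
    have e2 : Y.vec - F.vecL () = ∑ i, EE (Y.j i) (Y.n i) (fun w => Y.G i w - s i w) := by
      rw [e1, FM.vec, ← Finset.sum_sub_distrib]
      exact Finset.sum_congr rfl fun i _ => (EE_sub _ _ (hY.1 i) (hsb i)).symm
    refine le_of_sq_le_sq ?_ hζ.le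
    rw [e2, norm_sq_sum_EE _ _ _ (fun i _ => (hY.1 i).sub (hsb i))
      fun i _ i' _ => hY.2 i i']
    exact hsum.trans (hη1.trans (min_le_left _ _))
  · intro A hA
    rw [pre_integral_densL hV]
    change ∑ p : (Σ i : Y.ι, Fin (m i)), ∫ t in A, (F.pc p).dens P t ≤ _
    rw [Fintype.sum_sigma]
    have e1 : ∀ i, ∑ k : Fin (m i), ∫ t in A, (F.pc ⟨i, k⟩).dens P t ≤
        (1 + ζ) * (∫ w in Ico (0 : ℝ) 1 ∩ {w | (Y.j i : ℝ) * P.al w ∈ A}, ‖Y.G i w‖ ^ 2) +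
          (1 + 1 / ζ) * nsq (fun w => Y.G i w - s i w) := by
      intro i
      have hB : MeasurableSet (Ico (0 : ℝ) 1 ∩ {w | (Y.j i : ℝ) * P.al w ∈ A}) :=
        measurableSet_Ico.inter (pre_meas_pre P _ hA)
      have e2 : ∑ k : Fin (m i), ∫ t in A, (F.pc ⟨i, k⟩).dens P t =
          ∫ w in Ico (0 : ℝ) 1 ∩ {w | (Y.j i : ℝ) * P.al w ∈ A}, ‖s i w‖ ^ 2 := by
        simp only [← Pc.integral_dens (hV _) hA]
        change ∑ k : Fin (m i), ∫ w in Ico (0 : ℝ) 1 ∩ {w | (Y.j i : ℝ) * P.al w ∈ A},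
          ‖(F.pc ⟨i, k⟩).fn w‖ ^ 2 = _
        rw [← integral_finsetSum _ fun k _ => (Pc.bd _).integrableOn_sq inter_subset_left]
        refine setIntegral_congr_fun hB fun w _ => ?_
        have e3 : ∀ k : Fin (m i), ‖(F.pc ⟨i, k⟩).fn w‖ ^ 2 =
            (Ico ((k : ℕ) * x / (m i)) (((k : ℕ) + 1) * x / (m i))).indicator
              (fun _ => ‖c i k‖ ^ 2) w := by
          intro k
          rw [hfn]
          by_cases hw : w ∈ Ico (((k : ℕ) : ℝ) * x / (m i)) (((k : ℕ) + 1) * x / (m i))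
          · rw [indicator_of_mem hw, indicator_of_mem hw]
          · rw [indicator_of_notMem hw, indicator_of_notMem hw]
            simp
        simp only [e3, hs]
        by_cases hw : w ∈ Ico 0 x
        · obtain ⟨k, hk⟩ := pre_grid_mem h0 (hm i) hw
          rw [pre_step_eq h0 _ hk, pre_step_eq h0 _ hk]
        · rw [pre_step_zero h0 _ hw, pre_step_zero h0 _ hw]
          simp
      rw [e2]
      refine pre_setIntegral_le (hsb i) (hY.1 i) ((hY.1 i).sub (hsb i)) hB inter_subset_left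
        (by positivity) fun w _ => ?_
      have e4 : ‖s i w‖ ≤ ‖Y.G i w‖ + ‖Y.G i w - s i w‖ := by
        have := norm_sub_le (Y.G i w) (Y.G i w - s i w)
        rwa [sub_sub_cancel] at this
      have e5 := pow_le_pow_left₀ (norm_nonneg _) e4 2
      have e6 : 2 * ‖Y.G i w‖ * ‖Y.G i w - s i w‖ ≤
          ζ * ‖Y.G i w‖ ^ 2 + 1 / ζ * ‖Y.G i w - s i w‖ ^ 2 := by
        have : 0 ≤ 1 / ζ * (ζ * ‖Y.G i w‖ - ‖Y.G i w - s i w‖) ^ 2 := by positivity
        have e7 : 1 / ζ * (ζ * ‖Y.G i w‖ - ‖Y.G i w - s i w‖) ^ 2 =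
            ζ * ‖Y.G i w‖ ^ 2 + 1 / ζ * ‖Y.G i w - s i w‖ ^ 2 -
              2 * ‖Y.G i w‖ * ‖Y.G i w - s i w‖ := by
          field_simp
          ring
        linarith
      nlinarith
    refine (Finset.sum_le_sum fun i _ => e1 i).trans ?_
    rw [Finset.sum_add_distrib, ← Finset.mul_sum, ← Finset.mul_sum, FM.mass]
    have e8 : (1 + 1 / ζ) * ∑ i, nsq (fun w => Y.G i w - s i w) ≤ ζ := by
      have := hsum.trans (hη1.trans (min_le_right _ _))
      rw [le_div_iff₀ (by positivity)] at this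
      linarith
    linarith

theorem pre_dens_le {P : Prof} {p : Pc} (hp : p.Valid P) (t : ℝ) :
    p.dens P t ≤ ‖p.c‖ ^ 2 * (p.j * P.a0) / P.eps / t ^ 2 := by
  have h1 : (1 : ℝ) ≤ p.j := by exact_mod_cast hp.1
  have h2 := P.a0_pos
  have h3 := P.eps_pos
  unfold Pc.dens
  by_cases h : t ∈ Ico (P.tt p.j p.a) (P.tt p.j p.b)
  · rw [indicator_of_mem h, div_div]
  · rw [indicator_of_notMem h]
    positivity

theorem pre_tt_a {P : Prof} {p : Pc} (hp : p.Valid P) : P.a0 ≤ P.tt p.j p.a := by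
  have h1 : (1 : ℝ) ≤ p.j := by exact_mod_cast hp.1
  have h2 := P.a0_pos
  have h3 := (P.tt_ge (lam := p.j) (w := p.a) (by linarith) hp.2.1
    (by linarith [hp.2.2.1, hp.2.2.2, P.sh.mu_pos])).1
  nlinarith

theorem pre_tt_ab {P : Prof} {p : Pc} (hp : p.Valid P) : P.tt p.j p.a < P.tt p.j p.b := by
  have h1 : (1 : ℝ) ≤ p.j := by exact_mod_cast hp.1
  exact P.tt_lt_tt (by linarith) hp.2.2.1 (by linarith [hp.2.2.2, P.sh.mu_pos])

theorem pre_densL_nonpos {Λ : Type} {F : Fam Λ} {P : Prof} (hV : F.Valid P) (κ : Λ) {t : ℝ}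
    (ht : t ≤ 0) : F.densL P κ t = 0 := by
  unfold Fam.densL
  refine Finset.sum_eq_zero fun i _ => ?_
  split_ifs
  · refine indicator_of_notMem (fun h => ?_) _
    linarith [h.1, pre_tt_a (hV i), P.a0_pos]
  · rfl

/-- Relabel a family by its index set. -/
def Fam.byIdx (F : Fam Unit) : Fam F.ι := ⟨F.ι, F.fin, F.pc, id⟩

theorem pre_densL_byIdx (F : Fam Unit) (P : Prof) (i : F.ι) (t : ℝ) :
    F.byIdx.densL P i t = (F.pc i).dens P t := by
  unfold Fam.densL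
  refine (Finset.sum_eq_single (i : F.byIdx.ι) ?_ ?_).trans (if_pos rfl)
  · intro i' _ h
    exact if_neg h
  · intro h
    exact absurd (Finset.mem_univ _) h

theorem pre_child_byIdx (F : Fam Unit) (P P' : Prof) (q : ℕ) (r δ mu' t : ℝ) :
    (F.child P q r δ mu').densL P' () t = ∑ i, (F.byIdx.child P q r δ mu').densL P' i t := by
  classical
  rw [pre_densL_unit]
  unfold Fam.densL
  rw [Finset.sum_comm]
  refine Finset.sum_congr rfl fun s _ => ?_
  rw [Finset.sum_eq_single ((F.byIdx.child P q r δ mu').lab s)]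
  · exact (if_pos rfl).symm
  · intro i _ h
    exact if_neg h.symm
  · intro h
    exact absurd (Finset.mem_univ _) h

theorem pre_child_pt {F : Fam Unit} {P : Prof} (hV : F.Valid P) {ζ r δ : ℝ} (hζ : 0 < ζ)
    (hr : F.Small r) (hδ : 0 < δ) (q : ℕ) {S' : Shape} {P' : Prof}
    (hP' : P'.Is δ (2 / (ζ * P.a0)) S') (he : (1 + ζ / 2) / (1 - P'.eps) ^ 2 ≤ 1 + ζ)
    (i : F.ι) (t : ℝ) :
    (F.byIdx.child P q r δ P'.sh.mu).densL P' i t ≤ (1 + ζ) * ((F.pc i).dens P t +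
      (Ico (P.tt (F.pc i).j (F.pc i).b) (P.tt (F.pc i).j (F.pc i).b / (1 - P'.eps))).indicator
        (fun _ => ‖(F.pc i).c‖ ^ 2 * ((F.pc i).j * P.a0) / P.eps / P.a0 ^ 2) t) := by
  have hV' : F.byIdx.Valid P := hV
  have hr' : F.byIdx.Small r := hr
  have hp := hV i
  set p := F.pc i with hpd
  have h1 : (1 : ℝ) ≤ p.j := by exact_mod_cast hp.1
  have h2 := P.a0_pos
  have h3 := P.eps_pos
  have h4 := P'.eps_pos
  have h5 : 0 < 1 - P'.eps := by linarith [P'.eps_le]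
  set M := ‖p.c‖ ^ 2 * (p.j * P.a0) / P.eps with hM
  have hM0 : 0 ≤ M := by positivity
  have hrhs : 0 ≤ (1 + ζ) * (p.dens P t +
      (Ico (P.tt p.j p.b) (P.tt p.j p.b / (1 - P'.eps))).indicator (fun _ => M / P.a0 ^ 2) t) :=
    mul_nonneg (by positivity) (add_nonneg (Pc.dens_nonneg hp t)
      (indicator_nonneg (fun _ _ => by positivity) _))
  by_cases ht : t ≤ 0
  · rw [pre_densL_nonpos (child_valid hV' hr' hδ q P') i ht]
    exact hrhs
  push Not at ht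
  have key : ∀ S, 0 ≤ S → (∀ t' ∈ Icc (t * (1 - P'.eps)) t, p.dens P t' ≤ S) →
      (F.byIdx.child P q r δ P'.sh.mu).densL P' i t ≤
        S * (1 + 1 / (2 / (ζ * P.a0) * t)) := by
    intro S hS h
    have := child_dens hV' hr' q hP' (M := 1) le_rfl i 0 ht hS
      (fun t' ht' => by rw [pre_densL_byIdx]; exact h t' ht')
    rw [densL_refine_one] at this
    simpa using this
  by_cases ha : t < P.tt p.j p.a
  · have := key 0 le_rfl fun t' ht' => le_of_eq (indicator_of_notMem (fun h => by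
      linarith [h.1, ht'.2]) _)
    rw [zero_mul] at this
    exact this.trans hrhs
  by_cases hb : P.tt p.j p.b / (1 - P'.eps) ≤ t
  · rw [div_le_iff₀ h5] at hb
    have := key 0 le_rfl fun t' ht' => le_of_eq (indicator_of_notMem (fun h => by
      linarith [h.2, ht'.1]) _)
    rw [zero_mul] at this
    exact this.trans hrhs
  push Not at ha hb
  have hta : P.a0 ≤ t := (pre_tt_a hp).trans ha
  have k1 := key (M / (t * (1 - P'.eps)) ^ 2) (by positivity) fun t' ht' =>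
    (pre_dens_le hp t').trans (by
      have := ht'.1
      have h6 : 0 < t * (1 - P'.eps) := by positivity
      gcongr)
  have k2 : 1 / (2 / (ζ * P.a0) * t) ≤ ζ / 2 := by
    rw [div_le_iff₀ (by positivity)]
    have : ζ / 2 * (2 / (ζ * P.a0) * t) = t / P.a0 := by field_simp
    rw [this, le_div_iff₀ h2]
    linarith
  have k3 : M / (t * (1 - P'.eps)) ^ 2 * (1 + 1 / (2 / (ζ * P.a0) * t)) ≤ (1 + ζ) * (M / t ^ 2) := by
    calc _ ≤ M / (t * (1 - P'.eps)) ^ 2 * (1 + ζ / 2) := by gcongr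
      _ = (1 + ζ / 2) / (1 - P'.eps) ^ 2 * (M / t ^ 2) := by field_simp
      _ ≤ _ := by gcongr
  refine k1.trans (k3.trans (mul_le_mul_of_nonneg_left ?_ (by positivity)))
  by_cases hc : t < P.tt p.j p.b
  · have e1 : p.dens P t = M / t ^ 2 := by
      unfold Pc.dens
      rw [indicator_of_mem (show t ∈ Ico _ _ from ⟨ha, hc⟩), hM, div_div]
    rw [e1]
    exact le_add_of_nonneg_right (indicator_nonneg (fun _ _ => by positivity) _)
  · push Not at hc
    rw [indicator_of_mem (show t ∈ Ico _ _ from ⟨hc, hb⟩)]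
    have e2 : M / t ^ 2 ≤ M / P.a0 ^ 2 := by gcongr
    linarith [Pc.dens_nonneg hp t]

/-- Spectral masses grow little under a C-step: apply `child_dens` to each piece separately
(relabel by the index); the density of the children of `p` is at most
`(1 + small) m_p / t²` on `[tt a, tt b / (1 - eps'))`. -/
theorem child_mass_le {F : Fam Unit} {P : Prof} (hV : F.Valid P) {ζ : ℝ} (hζ : 0 < ζ) :
    ∃ κ' > (0 : ℝ), ∀ (S' : Shape) (r : ℝ), F.Small r → ∀ q : ℕ, ∀ᶠ δ in 𝓝[>] (0 : ℝ), ∀ P' : Prof,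
      P'.Is δ κ' S' → ∀ A : Set ℝ, MeasurableSet A →
        ∫ t in A, (F.child P q r δ P'.sh.mu).densL P' () t ≤
          (1 + ζ) * (∫ t in A, F.densL P () t) + ζ := by
  have h2 := P.a0_pos
  have h3 := P.eps_pos
  set κ' := 2 / (ζ * P.a0) with hκ'
  refine ⟨κ', by positivity, fun S' r hr q => ?_⟩
  set M : F.ι → ℝ := fun i => ‖(F.pc i).c‖ ^ 2 * ((F.pc i).j * P.a0) / P.eps / P.a0 ^ 2 with hM
  set tb : F.ι → ℝ := fun i => P.tt (F.pc i).j (F.pc i).b with htb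
  have c1 : ContinuousAt (fun δ : ℝ => (1 + ζ / 2) / (1 - κ' * δ) ^ 2) 0 :=
    ContinuousAt.div (by fun_prop) (by fun_prop) (by simp)
  have c2 : ContinuousAt
      (fun δ : ℝ => (1 + ζ) * ∑ i, (tb i / (1 - κ' * δ) - tb i) * M i) 0 := by
    refine ContinuousAt.mul continuousAt_const (tendsto_finsetSum _ fun i _ => ?_)
    exact ((ContinuousAt.div (f := fun _ : ℝ => tb i) (g := fun δ : ℝ => 1 - κ' * δ)
      (by fun_prop) (by fun_prop) (by simp)).sub continuousAt_const).mul continuousAt_const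
  have e1 : ∀ᶠ δ in 𝓝 (0 : ℝ), (1 + ζ / 2) / (1 - κ' * δ) ^ 2 < 1 + ζ :=
    c1.eventually_lt continuousAt_const (by simp; linarith)
  have e2 : ∀ᶠ δ in 𝓝 (0 : ℝ), (1 + ζ) * ∑ i, (tb i / (1 - κ' * δ) - tb i) * M i < ζ :=
    c2.eventually_lt continuousAt_const (by simpa using hζ)
  filter_upwards [nhdsWithin_le_nhds e1, nhdsWithin_le_nhds e2, self_mem_nhdsWithin]
    with δ g1 g2 hδ P' hP' A hA
  have hδ' : 0 < δ := hδ
  rw [← hP'.2.1] at g1 g2
  have h4 := P'.eps_pos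
  have h5 : 0 < 1 - P'.eps := by linarith [P'.eps_le]
  have hM0 : ∀ i, 0 ≤ M i := fun i => by
    have h1 : (1 : ℝ) ≤ (F.pc i).j := by exact_mod_cast (hV i).1
    simp only [hM]
    positivity
  have htb0 : ∀ i, 0 < tb i := fun i =>
    h2.trans_le ((pre_tt_a (hV i)).trans (pre_tt_ab (hV i)).le)
  have ind_int : ∀ i, Integrable ((Ico (tb i) (tb i / (1 - P'.eps))).indicator fun _ => M i) :=
    fun i => (integrable_indicator_iff measurableSet_Ico).2 (integrableOn_const (by simp))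
  have pt : ∀ t, (F.child P q r δ P'.sh.mu).densL P' () t ≤ (1 + ζ) * (F.densL P () t +
      ∑ i, (Ico (tb i) (tb i / (1 - P'.eps))).indicator (fun _ => M i) t) := by
    intro t
    rw [pre_child_byIdx, pre_densL_unit, ← Finset.sum_add_distrib, Finset.mul_sum]
    exact Finset.sum_le_sum fun i _ => pre_child_pt hV hζ hr hδ' q hP' g1.le i t
  have i1 := pre_integrable_densL (child_valid hV hr hδ' q P')
  have i2 := pre_integrable_densL hV
  have i3 : Integrable fun t =>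
      ∑ i, (Ico (tb i) (tb i / (1 - P'.eps))).indicator (fun _ => M i) t :=
    integrable_finsetSum _ fun i _ => ind_int i
  have k1 := setIntegral_mono (s := A) i1.integrableOn ((i2.add i3).const_mul (1 + ζ)).integrableOn pt
  simp only [Pi.add_apply] at k1
  rw [integral_const_mul, integral_add i2.integrableOn i3.integrableOn] at k1
  have k2 : ∫ t in A, ∑ i, (Ico (tb i) (tb i / (1 - P'.eps))).indicator (fun _ => M i) t ≤
      ∑ i, (tb i / (1 - P'.eps) - tb i) * M i := by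
    refine (setIntegral_le_integral i3 (Eventually.of_forall fun t => Finset.sum_nonneg
      fun i _ => indicator_nonneg (fun _ _ => hM0 i) _)).trans (le_of_eq ?_)
    rw [integral_finsetSum _ fun i _ => ind_int i]
    refine Finset.sum_congr rfl fun i _ => ?_
    have : tb i ≤ tb i / (1 - P'.eps) := by
      rw [le_div_iff₀ h5]
      nlinarith [htb0 i]
    rw [integral_indicator measurableSet_Ico, setIntegral_const, Real.volume_real_Ico_of_le this,
      smul_eq_mul]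
  have k3 := mul_le_mul_of_nonneg_left k2 (show 0 ≤ 1 + ζ by positivity)
  linarith

theorem pre_vec_smul (j n l : ℤ) (c : ℂ) :
    c • EE j n (fun w => ee (l * w)) = EE j n fun w => c * ee (l * w) :=
  (EE_const_mul j n c (pre_bd_ee _)).symm

/-- Cut to `[0, 1 - mu)` and split into positive and negative modes. -/
theorem pre_cut (P : Prof) (L : ℤ × ℤ → ℤ) {u : H3}
    (hu : u ∈ Submodule.span ℂ
      ((fun ξ : ℤ × ℤ => EE ξ.1 ξ.2 fun w => ee (L ξ * w)) '' {ξ | ξ.1 ≠ 0})) :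
    ∃ (Ξ : Finset (ℤ × ℤ)) (cp cn : ℤ × ℤ → ℂ) (lp ln : ℤ × ℤ → ℤ), (∀ ξ ∈ Ξ, 1 ≤ ξ.1) ∧
      (∀ ξ, ξ ∉ Ξ → cp ξ = 0 ∧ cn ξ = 0) ∧
      ‖u - (bv P Ξ cp lp + star (bv P Ξ cn ln))‖ ≤ √P.sh.mu * ‖u‖ := by
  classical
  obtain ⟨C, hC, rfl⟩ := (Finsupp.mem_span_image_iff_linearCombination ℂ).1 hu
  have hC' : ∀ ξ ∈ C.support, ξ.1 ≠ 0 := fun ξ hξ => (Finsupp.mem_supported ℂ C).1 hC hξ
  set Ξp := C.support.filter fun ξ => 0 < ξ.1 with hΞp
  set Ξn := C.support.filter fun ξ => ¬ 0 < ξ.1 with hΞn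
  set cp : ℤ × ℤ → ℂ := fun ξ => if 0 < ξ.1 then C ξ else 0 with hcp
  set cn : ℤ × ℤ → ℂ := fun ξ => if 0 < ξ.1 then conj (C (-ξ)) else 0 with hcn
  have zp : ∀ ξ, ξ ∉ Ξp → cp ξ = 0 := by
    intro ξ hξ
    simp only [hcp]
    split_ifs with h
    · by_contra h'
      exact hξ (Finset.mem_filter.2 ⟨Finsupp.mem_support_iff.2 h', h⟩)
    · rfl
  have zn : ∀ ξ, ξ ∉ Ξn.image Neg.neg → cn ξ = 0 := by
    intro ξ hξ
    simp only [hcn]
    split_ifs with h
    · by_contra h'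
      refine hξ (Finset.mem_image.2 ⟨-ξ, Finset.mem_filter.2 ⟨Finsupp.mem_support_iff.2 ?_, ?_⟩,
        neg_neg _⟩)
      · intro h''
        exact h' (by rw [h'', map_zero])
      · simp only [Prod.fst_neg]
        omega
    · rfl
  have hmu := P.sh.mu_pos
  have hmu' := P.sh.mu_le
  have bd1 : ∀ ξ : ℤ × ℤ, Bd fun w => C ξ * ee (L ξ * w) := fun ξ => (Bd.const _).mul (pre_bd_ee _)
  refine ⟨Ξp ∪ Ξn.image Neg.neg, cp, cn, L, fun ξ => -L (-ξ), ?_, ?_, ?_⟩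
  · intro ξ hξ
    rcases Finset.mem_union.1 hξ with h | h
    · exact (Finset.mem_filter.1 h).2
    · obtain ⟨ξ', h', rfl⟩ := Finset.mem_image.1 h
      have h1 := Finset.mem_filter.1 h'
      have h2 := hC' _ h1.1
      have h3 := h1.2
      simp only [Prod.fst_neg]
      omega
  · intro ξ hξ
    exact ⟨zp ξ fun h => hξ (Finset.mem_union_left _ h),
      zn ξ fun h => hξ (Finset.mem_union_right _ h)⟩
  rw [bv_subset P Finset.subset_union_left zp, bv_subset P Finset.subset_union_right zn]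
  have e1 : bv P Ξp cp L = ∑ ξ ∈ Ξp, EE ξ.1 ξ.2
      ((Ico 0 (1 - P.sh.mu)).indicator fun w => C ξ * ee (L ξ * w)) := by
    unfold bv
    refine Finset.sum_congr rfl fun ξ hξ => ?_
    simp only [Pc.vec, Pc.fn, hcp, if_pos (Finset.mem_filter.1 hξ).2]
  have e2 : star (bv P (Ξn.image Neg.neg) cn fun ξ => -L (-ξ)) = ∑ ξ ∈ Ξn, EE ξ.1 ξ.2
      ((Ico 0 (1 - P.sh.mu)).indicator fun w => C ξ * ee (L ξ * w)) := by
    unfold bv
    rw [star_sum', Finset.sum_image fun _ _ _ _ h => neg_injective h]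
    refine Finset.sum_congr rfl fun ξ hξ => ?_
    have h1 := Finset.mem_filter.1 hξ
    have h2 := hC' _ h1.1
    have h3 := h1.2
    have h4 : 0 < (-ξ).1 := by
      simp only [Prod.fst_neg]
      omega
    rw [Pc.vec, star_EE _ _ (Pc.bd _)]
    simp only [Prod.fst_neg, Prod.snd_neg, neg_neg]
    refine EE_congr _ _ fun w _ => ?_
    simp only [Pc.fn, hcn, if_pos h4, neg_neg]
    by_cases hw : w ∈ Ico 0 (1 - P.sh.mu)
    · rw [indicator_of_mem hw, indicator_of_mem hw, map_mul, Complex.conj_conj, ← ee_neg]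
      congr 2
      push_cast
      ring
    · rw [indicator_of_notMem hw, indicator_of_notMem hw, map_zero]
  have e3 : Finsupp.linearCombination ℂ (fun ξ : ℤ × ℤ => EE ξ.1 ξ.2 fun w => ee (L ξ * w)) C =
      ∑ ξ ∈ C.support, EE ξ.1 ξ.2 fun w => C ξ * ee (L ξ * w) := by
    rw [Finsupp.linearCombination_apply, Finsupp.sum]
    exact Finset.sum_congr rfl fun ξ _ => pre_vec_smul _ _ _ _
  rw [e1, e2, hΞp, hΞn, Finset.sum_filter_add_sum_filter_not, e3, ← Finset.sum_sub_distrib]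
  have e4 : ∀ ξ : ℤ × ℤ, EE ξ.1 ξ.2 (fun w => C ξ * ee (L ξ * w)) - EE ξ.1 ξ.2
      ((Ico 0 (1 - P.sh.mu)).indicator fun w => C ξ * ee (L ξ * w)) =
      EE ξ.1 ξ.2 ((Ico (1 - P.sh.mu) 1).indicator fun w => C ξ * ee (L ξ * w)) := by
    intro ξ
    rw [← EE_sub _ _ (bd1 ξ) ((bd1 ξ).indicator measurableSet_Ico)]
    refine EE_congr _ _ fun w hw => ?_
    by_cases h : w < 1 - P.sh.mu
    · rw [indicator_of_mem (show w ∈ Ico _ _ from ⟨hw.1, h⟩),
        indicator_of_notMem (fun h' => by linarith [h'.1]), sub_self]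
    · rw [indicator_of_notMem (fun h' => h h'.2),
        indicator_of_mem (show w ∈ Ico _ _ from ⟨not_lt.1 h, hw.2⟩), sub_zero]
  simp only [e4]
  refine le_of_sq_le_sq ?_ (by positivity)
  have inj : ∀ i ∈ C.support, ∀ i' ∈ C.support, i.1 = i'.1 → i.2 = i'.2 → i = i' :=
    fun i _ i' _ h h' => Prod.ext h h'
  rw [mul_pow, Real.sq_sqrt hmu.le,
    norm_sq_sum_EE _ _ _ (fun ξ _ => (bd1 ξ).indicator measurableSet_Ico) inj,
    norm_sq_sum_EE _ _ _ (fun ξ _ => bd1 ξ) inj, Finset.mul_sum]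
  refine Finset.sum_le_sum fun ξ _ => le_of_eq ?_
  rw [nsq_indicator_of_norm (C := ‖C ξ‖) (by linarith) (by linarith) le_rfl (fun w _ => by simp),
    nsq_congr (G := fun _ => C ξ) (fun w _ => by simp), pre_nsq_const]
  ring

/-- A function with small mean is close to a trigonometric polynomial without constant term. -/
theorem pre_drop {G : ℝ → ℂ} (hG : Bd G) {η : ℝ} (hη : 0 < η)
    (h0 : ‖∫ w in (0 : ℝ)..1, G w‖ ≤ η) (N l : ℤ) (L : ℤ × ℤ → ℤ) (hL : ∀ j, L (j, N) = l) :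
    ∃ u ∈ Submodule.span ℂ
      ((fun ξ : ℤ × ℤ => EE ξ.1 ξ.2 fun w => ee (L ξ * w)) '' {ξ | ξ.1 ≠ 0}),
      ‖E1 N l G - u‖ ≤ 2 * η := by
  classical
  obtain ⟨W, hW⟩ := exists_fourier_approx hG (η := η ^ 2) (by positivity)
  set cf : ℤ → ℂ := fun j => ∫ w in (0 : ℝ)..1, G w * ee (-(j * w)) with hcf
  have h1 := hW (insert 0 W) (Finset.subset_insert _ _)
  rw [← Finset.add_sum_erase _ _ (Finset.mem_insert_self 0 W)] at h1
  set W' := (insert 0 W).erase 0 with hW'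
  have bd1 : ∀ j : ℤ, Bd fun w => cf j * ee (j * w) := fun j => (Bd.const _).mul (pre_bd_ee _)
  refine ⟨E1 N l fun w => ∑ j ∈ W', cf j * ee (j * w), ?_, ?_⟩
  · rw [E1_sum _ _ _ fun j _ => bd1 j]
    refine Submodule.sum_mem _ fun j hj => ?_
    rw [E1_const_mul _ _ _ (pre_bd_ee _), E1_ee]
    refine Submodule.smul_mem _ _ (Submodule.subset_span ⟨(j, N), Finset.ne_of_mem_erase hj, ?_⟩)
    simp only [hL]
  · rw [← E1_sub _ _ hG (Bd.sum _ fun j _ => bd1 j)]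
    refine le_of_sq_le_sq ?_ (by positivity)
    rw [norm_sq_E1 _ _ (hG.sub (Bd.sum _ fun j _ => bd1 j)), nsq_sub_sum hG W' cf]
    simp only [hcf, sub_self, norm_zero, ne_eq, OfNat.ofNat_ne_zero, not_false_eq_true, zero_pow,
      Finset.sum_const_zero, add_zero]
    simp only [Int.cast_zero, zero_mul, neg_zero, ee_zero, mul_one] at h1
    have h2 := pow_le_pow_left₀ (norm_nonneg _) h0 2
    nlinarith

theorem pre_integral_ee {l : ℤ} (hl : l ≠ 0) : ∫ w in (0 : ℝ)..1, ee (l * w) = 0 := by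
  have hl' : (l : ℂ) ≠ 0 := by exact_mod_cast hl
  have h : ∀ w ∈ uIcc (0 : ℝ) 1, HasDerivAt (fun w : ℝ => ee (l * w) * (cI * l)⁻¹) (ee (l * w)) w := by
    intro w _
    have := (hasDerivAt_ee ((hasDerivAt_id w).const_mul (l : ℝ))).mul_const ((cI * l)⁻¹)
    refine this.congr_deriv ?_
    have := cI_ne
    simp only [id, mul_one, Complex.ofReal_intCast]
    field_simp
  rw [intervalIntegral.integral_eq_sub_of_hasDerivAt h
    (Continuous.intervalIntegrable (by fun_prop) _ _)]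
  simp [ee_int, ee_zero]

/-- A mean zero vector has no zero mode after a C-step: `exists_trig_approx`, group by `(j, n)`,
`kp_hm_inv_EE`; for `(j, n) ≠ 0` use `exists_fourier_approx` and drop the zero coefficient by
`nonstat`; then cut to `[0, 1 - mu')` and split into positive and negative `j` (`star_EE`). -/
theorem nozero (P : Prof) (v : H3) (hv : ⟪L3 fun _ => 1, v⟫_ℂ = 0) {ζ : ℝ} (hζ : 0 < ζ) :
    ∀ᶠ q : ℕ in atTop, ∀ᶠ δ in 𝓝[>] (0 : ℝ), ∀ P' : Prof,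
      ∃ (Ξ : Finset (ℤ × ℤ)) (cp cn : ℤ × ℤ → ℂ) (lp ln : ℤ × ℤ → ℤ), (∀ ξ ∈ Ξ, 1 ≤ ξ.1) ∧
        (∀ ξ, ξ ∉ Ξ → cp ξ = 0 ∧ cn ξ = 0) ∧
        ‖kp (hm P (cm q) 0 0 δ 0)⁻¹ v - (bv P' Ξ cp lp + star (bv P' Ξ cn ln))‖ ≤
          ζ + √P'.sh.mu * (‖v‖ + ζ) := by
  classical
  obtain ⟨s, c, hs0, hs⟩ := exists_trig_approx v hv (η := ζ / 2) (by positivity)
  set B : ℝ := ∑ k ∈ s, ‖c k‖ with hB
  have hB0 : 0 ≤ B := Finset.sum_nonneg fun _ _ => norm_nonneg _
  set η := ζ / (4 * (B + 1)) with hη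
  have hη0 : 0 < η := by positivity
  set K : ℕ := ∑ k ∈ s, k.2.1.natAbs with hK
  have hKk : ∀ k ∈ s, |k.2.1| ≤ (K : ℤ) := fun k hk => by
    have := Finset.single_le_sum (f := fun k : ℤ × ℤ × ℤ => k.2.1.natAbs)
      (fun _ _ => Nat.zero_le _) hk
    rw [← Int.natCast_natAbs]
    exact_mod_cast this
  filter_upwards [eventually_ge_atTop (2 * K)] with q hq
  have hq' : 2 * (K : ℤ) ≤ q := by exact_mod_cast hq
  set N : ℤ × ℤ × ℤ → ℤ := fun k => ((q : ℤ) + 1) * k.1 + 1 * k.2.1 with hN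
  have small : ∀ a b : ℤ, |b| ≤ 2 * K → ((q : ℤ) + 1) * a + b = 0 → a = 0 := by
    intro a b hb h
    by_contra ha
    have h1 : 1 ≤ |a| := Int.one_le_abs ha
    have h2 : |((q : ℤ) + 1) * a| = |b| := by
      rw [eq_neg_of_add_eq_zero_left h, abs_neg]
    rw [abs_mul, abs_of_nonneg (by positivity)] at h2
    nlinarith
  have inj : ∀ k ∈ s, ∀ k' ∈ s, N k = N k' → k.1 = k'.1 := by
    intro k hk k' hk' h
    rw [← sub_eq_zero]
    refine small _ (k.2.1 - k'.2.1) ?_ ?_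
    · have := abs_sub (k.2.1) (k'.2.1)
      linarith [hKk k hk, hKk k' hk']
    · simp only [hN] at h
      linarith
  set Lf : ℤ → ℤ := fun n => if h : ∃ k ∈ s, N k = n then -1 * h.choose.1 else 0 with hLf
  have hLf' : ∀ k ∈ s, Lf (N k) = -1 * k.1 + 0 * k.2.1 := by
    intro k hk
    have h : ∃ k' ∈ s, N k' = N k := ⟨k, hk, rfl⟩
    simp only [hLf, dif_pos h]
    rw [inj _ h.choose_spec.1 _ hk h.choose_spec.2, zero_mul, add_zero]
  have ev : ∀ᶠ δ in 𝓝[>] (0 : ℝ), ∀ k ∈ s,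
      ‖∫ w in (0 : ℝ)..1, ee (N k * P.Afn (q + 1) δ 0 w + k.2.2 * w)‖ ≤ η := by
    rw [eventually_all_finset]
    intro k hk
    by_cases h : N k = 0
    · have h1 : k.1 = 0 := small _ k.2.1 (by linarith [hKk k hk, abs_nonneg k.2.1])
        (by simpa [hN] using h)
      have h2 : k.2.1 = 0 := by simpa [hN, h1] using h
      have h3 : k.2.2 ≠ 0 := fun h3 => hs0 (by
        rw [show (0 : ℤ × ℤ × ℤ) = k from Prod.ext h1.symm (Prod.ext h2.symm h3.symm)]
        exact hk)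
      refine Eventually.of_forall fun δ => ?_
      simp only [h, Int.cast_zero, zero_mul, zero_add]
      rw [pre_integral_ee h3, norm_zero]
      exact hη0.le
    · exact nonstat P h (by positivity) _ hη0
  filter_upwards [ev] with δ hδ P'
  have each : ∀ k ∈ s, ∃ u ∈ Submodule.span ℂ
      ((fun ξ : ℤ × ℤ => EE ξ.1 ξ.2 fun w => ee (Lf ξ.2 * w)) '' {ξ | ξ.1 ≠ 0}),
      ‖kp (hm P (cm q) 0 0 δ 0)⁻¹ (EE k.1 k.2.1 fun w => ee (k.2.2 * w)) - u‖ ≤ 2 * η := by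
    intro k hk
    have e1 : kp (hm P (cm q) 0 0 δ 0)⁻¹ (EE k.1 k.2.1 fun w => ee (k.2.2 * w)) =
        E1 (N k) (-1 * k.1 + 0 * k.2.1) fun w => ee (N k * P.Afn (q + 1) δ 0 w + k.2.2 * w) := by
      rw [kp_hm_inv_EE _ _ _ _ _ _ _ _ (pre_bd_ee _)]
      refine E1_congr _ _ fun w _ => ?_
      rw [← ee_add, ← ee_add]
      congr 1
      simp only [hN, cm]
      push_cast
      ring
    rw [e1]
    refine pre_drop (Bd.ee ?_) hη0 (hδ k hk) _ _ (fun ξ => Lf ξ.2) fun j => hLf' k hk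
    have := (P.Afn_contDiff (q + 1) δ 0).continuous.measurable
    fun_prop
  choose! u hu hu' using each
  have hmem : ∑ k ∈ s, c k • u k ∈ Submodule.span ℂ
      ((fun ξ : ℤ × ℤ => EE ξ.1 ξ.2 fun w => ee (Lf ξ.2 * w)) '' {ξ | ξ.1 ≠ 0}) :=
    Submodule.sum_mem _ fun k hk => Submodule.smul_mem _ _ (hu k hk)
  obtain ⟨Ξ, cp, cn, lp, ln, h1, h2, h3⟩ := pre_cut P' (fun ξ => Lf ξ.2) hmem
  refine ⟨Ξ, cp, cn, lp, ln, h1, h2, ?_⟩
  have k1 : ‖kp (hm P (cm q) 0 0 δ 0)⁻¹ v - ∑ k ∈ s, c k • u k‖ ≤ ζ := by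
    have a1 : ‖kp (hm P (cm q) 0 0 δ 0)⁻¹ v - kp (hm P (cm q) 0 0 δ 0)⁻¹
        (∑ k ∈ s, c k • EE k.1 k.2.1 (fun w => ee (k.2.2 * w)))‖ ≤ ζ / 2 := by
      rw [← map_sub, LinearIsometry.norm_map]
      exact hs
    have a2 : ‖kp (hm P (cm q) 0 0 δ 0)⁻¹
        (∑ k ∈ s, c k • EE k.1 k.2.1 (fun w => ee (k.2.2 * w))) - ∑ k ∈ s, c k • u k‖ ≤
        B * (2 * η) := by
      rw [map_sum, ← Finset.sum_sub_distrib, hB, Finset.sum_mul]
      refine (norm_sum_le _ _).trans (Finset.sum_le_sum fun k hk => ?_)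
      rw [map_smul, ← smul_sub, norm_smul]
      exact mul_le_mul_of_nonneg_left (hu' k hk) (norm_nonneg _)
    have a3 : B * (2 * η) ≤ ζ / 2 := by
      have : B * (2 * η) = ζ / 2 * (B / (B + 1)) := by
        rw [hη]
        field_simp
        ring
      rw [this]
      exact mul_le_of_le_one_right (by positivity) ((div_le_one (by positivity)).2 (by linarith))
    exact (norm_sub_le_norm_sub_add_norm_sub _ _ _).trans (by linarith)
  have k2 : ‖∑ k ∈ s, c k • u k‖ ≤ ‖v‖ + ζ := by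
    have := norm_sub_norm_le (∑ k ∈ s, c k • u k) (kp (hm P (cm q) 0 0 δ 0)⁻¹ v)
    rw [norm_sub_rev, LinearIsometry.norm_map] at this
    linarith
  refine (norm_sub_le_norm_sub_add_norm_sub _ _ _).trans (add_le_add k1 (h3.trans ?_))
  exact mul_le_mul_of_nonneg_left k2 (Real.sqrt_nonneg _)

/-- A family with distinct modes and full intervals is a base vector. -/
theorem exists_bv_of_fam {F : Fam Unit} {P : Prof} (hV : F.Valid P) (hI : F.Inj)
    (hab : ∀ i, (F.pc i).a = 0 ∧ (F.pc i).b = 1 - P.sh.mu) :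
    ∃ (Ξ : Finset (ℤ × ℤ)) (c : ℤ × ℤ → ℂ) (l : ℤ × ℤ → ℤ), (∀ ξ ∈ Ξ, 1 ≤ ξ.1) ∧
      (∀ ξ, ξ ∉ Ξ → c ξ = 0) ∧ bv P Ξ c l = F.vecL () ∧ ∀ A : Set ℝ, MeasurableSet A →
        ∑ ξ ∈ Ξ, ‖c ξ‖ ^ 2 * (volume (Ico (0 : ℝ) (1 - P.sh.mu) ∩
          {w | (ξ.1 : ℝ) * P.al w ∈ A})).toReal = ∫ t in A, F.densL P () t := by
  classical
  set md : F.ι → ℤ × ℤ := fun i => ((F.pc i).j, (F.pc i).n) with hmd
  have inj : Function.Injective md := fun i i' h =>
    hI i i' (congrArg Prod.fst h) (congrArg Prod.snd h)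
  refine ⟨Finset.univ.image md, Function.extend md (fun i => (F.pc i).c) 0,
    Function.extend md (fun i => (F.pc i).l) 0, ?_, ?_, ?_, ?_⟩
  · intro ξ hξ
    obtain ⟨i, -, rfl⟩ := Finset.mem_image.1 hξ
    exact (hV i).1
  · intro ξ hξ
    rw [Function.extend_apply' _ _ _ fun ⟨i, hi⟩ =>
      hξ (Finset.mem_image.2 ⟨i, Finset.mem_univ _, hi⟩)]
    rfl
  · unfold bv
    rw [Finset.sum_image fun _ _ _ _ h => inj h, pre_vecL_unit]
    refine Finset.sum_congr rfl fun i _ => ?_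
    rw [inj.extend_apply, inj.extend_apply, ← (hab i).1, ← (hab i).2]
  · intro A hA
    rw [Finset.sum_image fun _ _ _ _ h => inj h, pre_integral_densL hV]
    refine Finset.sum_congr rfl fun i _ => ?_
    rw [inj.extend_apply, ← Pc.integral_dens (hV i) hA]
    have e1 : (fun w => ‖(F.pc i).fn w‖ ^ 2) =
        (Ico (0 : ℝ) (1 - P.sh.mu)).indicator fun _ => ‖(F.pc i).c‖ ^ 2 := by
      funext w
      rw [Pc.fn, (hab i).1, (hab i).2]
      by_cases hw : w ∈ Ico (0 : ℝ) (1 - P.sh.mu)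
      · rw [indicator_of_mem hw, indicator_of_mem hw]
        simp
      · rw [indicator_of_notMem hw, indicator_of_notMem hw]
        simp
    rw [e1, setIntegral_indicator measurableSet_Ico, setIntegral_const, smul_eq_mul, mul_comm]
    congr 1
    rw [measureReal_def]
    congr 2
    ext w
    have := P.sh.mu_pos
    simp only [mem_inter_iff, mem_Ico, mem_ofPred_eq, hmd]
    constructor
    · rintro ⟨⟨h1, h2⟩, h3⟩
      exact ⟨⟨⟨h1, by linarith⟩, h3⟩, h1, h2⟩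
    · rintro ⟨⟨-, h3⟩, h1, h2⟩
      exact ⟨⟨h1, h2⟩, h3⟩

theorem pre_sqrt_le {mu X z : ℝ} (hz : 0 ≤ z) (hX : 0 ≤ X) (B : ℝ) (hB : X ≤ B)
    (h0 : 0 ≤ mu) (h : mu ≤ z ^ 2 / (B + 1) ^ 2) : √mu * X ≤ z := by
  have h1 : 0 < B + 1 := by linarith
  have h2 : √mu ≤ z / (B + 1) := by
    rw [Real.sqrt_le_left (by positivity), div_pow]
    exact h
  calc √mu * X ≤ z / (B + 1) * (B + 1) := by
        gcongr
        linarith
    _ = z := by field_simp

/-- The preliminary step. -/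
theorem pre {H : VD} {P : Prof} {g : H3} {η0 : ℝ} (hη0 : 0 ≤ η0) (hη1 : η0 ≤ 1 / 2)
    (hI : Inv H P g η0) {ι : Type} [Fintype ι] (f : ι → H3)
    (hf : ∀ i, ⟪L3 fun _ => 1, f i⟫_ℂ = 0) (k : ℕ) {τ ζ : ℝ} (hτ : 0 < τ) (hζ : 0 < ζ) :
    ∃ (H' : VD) (P' : Prof) (Ξ : Finset (ℤ × ℤ)) (c : ℤ × ℤ → ℂ) (l : ℤ × ℤ → ℤ)
      (cp cn : ι → ℤ × ℤ → ℂ) (lp ln : ι → ℤ × ℤ → ℤ) (E : Set ℝ),
      Close2 k τ (TT H P 0) (TT H' P' 0) ∧ (∀ ξ ∈ Ξ, 1 ≤ ξ.1) ∧
      (∀ ξ, ξ ∉ Ξ → c ξ = 0 ∧ ∀ i, cp i ξ = 0 ∧ cn i ξ = 0) ∧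
      ‖g - kp H' (bv P' Ξ c l + star (bv P' Ξ c l))‖ ≤ ζ ∧
      (∀ i, ‖f i - kp H' (bv P' Ξ (cp i) (lp i) + star (bv P' Ξ (cn i) (ln i)))‖ ≤ ζ) ∧
      MeasurableSet E ∧ InjOn fold E ∧ √(1 / 2 - η0) - ζ ≤ ‖bv P' Ξ c l‖ ∧
      ∀ A : Set ℝ, MeasurableSet A →
        ∑ ξ ∈ Ξ, ‖c ξ‖ ^ 2 * (volume (Ico (0 : ℝ) (1 - P'.sh.mu) ∩
          {w | (ξ.1 : ℝ) * P'.al w ∈ A})).toReal ≤
          (1 + η0 + ζ) * (volume (A ∩ E)).toReal + ζ := by
  classical
  obtain ⟨Y, E, hY, hj, hsupp, hg, hE, hinj, hmass, hnorm⟩ := hI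
  set z := min 1 (ζ / 6) with hz
  have hz0 : 0 < z := by positivity
  have hz1 : z ≤ 1 := min_le_left _ _
  have hz2 : z ≤ ζ / 6 := min_le_right _ _
  obtain ⟨F, hV, hS, hFa, hFm⟩ := exists_fam_approx P Y hY hj hsupp hz0
  obtain ⟨κ', hκ', hcm⟩ := child_mass_le hV hz0
  have hm0 : 0 ≤ F.massL () := by
    rw [← Fam.norm_sq_vecL hV hS]
    positivity
  set B : ℝ := √(F.massL () + 1) + ∑ i, (‖f i‖ + z) with hB
  have hB1 : 0 ≤ ∑ i, (‖f i‖ + z) := Finset.sum_nonneg fun _ _ => by positivity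
  have hB0 : 0 ≤ B := by positivity
  obtain ⟨S', hS'⟩ := exists_shape (μ := min (1 / 2) (z ^ 2 / (B + 1) ^ 2)) (by positivity)
    (min_le_left _ _)
  have hmu : S'.mu ≤ z ^ 2 / (B + 1) ^ 2 := hS' ▸ min_le_right _ _
  have hmu0 := S'.mu_pos
  obtain ⟨r, hr, hq⟩ := (cstep H hV hS S' hκ' k hτ hz0).exists
  have nz : ∀ᶠ q : ℕ in atTop, ∀ i, ∀ᶠ δ in 𝓝[>] (0 : ℝ), ∀ P' : Prof,
      ∃ (Ξ : Finset (ℤ × ℤ)) (cp cn : ℤ × ℤ → ℂ) (lp ln : ℤ × ℤ → ℤ), (∀ ξ ∈ Ξ, 1 ≤ ξ.1) ∧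
        (∀ ξ, ξ ∉ Ξ → cp ξ = 0 ∧ cn ξ = 0) ∧
        ‖kp (hm P (cm q) 0 0 δ 0)⁻¹ (kp H⁻¹ (f i)) - (bv P' Ξ cp lp + star (bv P' Ξ cn ln))‖ ≤
          z + √P'.sh.mu * (‖kp H⁻¹ (f i)‖ + z) :=
    eventually_all.2 fun i => nozero P _ (by rw [inner_one_kp, hf]) hz0
  obtain ⟨q, ⟨⟨-, -, hInj⟩, hδ1⟩, hq2⟩ := (hq.and nz).exists
  obtain ⟨δ, ⟨⟨⟨⟨g1, g2⟩, g3⟩, P', hP'⟩, hδ⟩⟩ := ((((hδ1.and (eventually_all.2 hq2)).and
    (hcm S' r hr q)).and (exists_prof S' hκ')).and self_mem_nhdsWithin).exists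
  have hδ' : 0 < δ := hδ
  obtain ⟨a1, a2, a3, -⟩ := g1 P' hP'
  choose Ξi cp cn lp ln b1 b2 b3 using fun i => g2 i P'
  obtain ⟨Ξ0, c, l, c1, c2, c3, c4⟩ := exists_bv_of_fam a2 (hInj δ hδ' _) fun _ => ⟨rfl, rfl⟩
  set H' := hm P (cm q) 0 0 δ 0 * H with hH'
  have sub0 : Ξ0 ⊆ Ξ0 ∪ Finset.univ.biUnion Ξi := Finset.subset_union_left
  have subi : ∀ i, Ξi i ⊆ Ξ0 ∪ Finset.univ.biUnion Ξi := fun i =>
    (Finset.subset_biUnion_of_mem Ξi (Finset.mem_univ i)).trans Finset.subset_union_right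
  have d1 : ‖kp H Y.vec - kp H' (bv P' Ξ0 c l)‖ ≤ 3 * z := by
    have e1 : ‖kp H Y.vec - kp H (F.vecL ())‖ ≤ z := by
      rw [← map_sub, LinearIsometry.norm_map]
      exact hFa
    have e2 := a3 ()
    rw [← c3, Real.sqrt_mul hmu0.le] at e2
    have e3 := pre_sqrt_le hz0.le (Real.sqrt_nonneg (F.massL () + 1)) B (by linarith) hmu0.le hmu
    exact (norm_sub_le_norm_sub_add_norm_sub _ _ _).trans (by linarith)
  refine ⟨H', P', Ξ0 ∪ Finset.univ.biUnion Ξi, c, l, cp, cn, lp, ln, E, a1, ?_, ?_, ?_, ?_, hE,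
    hinj, ?_, ?_⟩
  · intro ξ hξ
    rcases Finset.mem_union.1 hξ with h | h
    · exact c1 ξ h
    · obtain ⟨i, -, h⟩ := Finset.mem_biUnion.1 h
      exact b1 i ξ h
  · intro ξ hξ
    exact ⟨c2 ξ fun h => hξ (sub0 h), fun i => b2 i ξ fun h => hξ (subi i h)⟩
  · rw [bv_subset P' sub0 c2, hg, map_add, map_add, kp_star, kp_star, add_sub_add_comm,
      ← star_sub']
    refine (norm_add_le _ _).trans ?_
    rw [norm_star']
    linarith
  · intro i
    rw [bv_subset P' (subi i) fun ξ h => (b2 i ξ h).1, bv_subset P' (subi i) fun ξ h => (b2 i ξ h).2]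
    conv_lhs => rw [← kp_kp_inv H (f i)]
    rw [hH', norm_kp_sub]
    have e1 := b3 i
    rw [LinearIsometry.norm_map, hP'.2.2] at e1
    have e2 : ‖f i‖ + z ≤ B := by
      have := Finset.single_le_sum (f := fun i => ‖f i‖ + z) (fun _ _ => by positivity)
        (Finset.mem_univ i)
      linarith [Real.sqrt_nonneg (F.massL () + 1)]
    have e3 := pre_sqrt_le hz0.le (by positivity) B e2 hmu0.le hmu
    linarith
  · rw [bv_subset P' sub0 c2]
    have e1 : √(1 / 2 - η0) ≤ ‖Y.vec‖ := Real.sqrt_le_iff.2 ⟨norm_nonneg _, hnorm⟩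
    have e2 := norm_sub_norm_le (kp H Y.vec) (kp H' (bv P' Ξ0 c l))
    rw [LinearIsometry.norm_map, LinearIsometry.norm_map] at e2
    linarith
  · intro A hA
    rw [← Finset.sum_subset sub0 fun ξ _ h => by rw [c2 ξ h]; simp, c4 A hA]
    have e1 := g3 P' hP' A hA
    have e2 := hFm A hA
    have e3 := hmass A hA
    have e4 : 0 ≤ (volume (A ∩ E)).toReal := ENNReal.toReal_nonneg
    set V := (volume (A ∩ E)).toReal
    have e5 : (1 + z) * (∫ t in A, F.densL P () t) ≤ (1 + z) * ((1 + z) * ((1 + η0) * V) + z) := by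
      gcongr
      refine e2.trans ?_
      gcongr
    have e6 : (1 + z) * ((1 + z) * (1 + η0)) ≤ 1 + η0 + ζ := by nlinarith
    have e7 := mul_le_mul_of_nonneg_right e6 e4
    nlinarith

end Crest.Agent.R081
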