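import Crest.Agent.R081.Spec
import Crest.Agent.R081.Des
import Crest.Agent.R081.Pre
import Crest.Agent.R081.MacC

/-! The inductive step. -/

set_option autoImplicit false

namespace Crest.Agent.R081

open MeasureTheory Set Filter Topology Crest.AnalysisR.Torus3 Crest.Agent.R210 Crest.Agent.R075
open scoped InnerProductSpace ComplexConjugate

theorem transfer {Λ : Type} (H H' : VD) (K : Finset Λ) (x y : Λ → H3) {η : ℝ}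
    (h : ∀ κ ∈ K, ‖kp H (x κ) - kp H' (y κ)‖ ≤ η) (u : Λ → ℂ) :
    ‖kp H (∑ κ ∈ K, u κ • x κ) - kp H' (∑ κ ∈ K, u κ • y κ)‖ ≤ η * ∑ κ ∈ K, ‖u κ‖ := by
  simp only [map_sum, map_smul]
  rw [← Finset.sum_sub_distrib, Finset.mul_sum]
  refine (norm_sum_le _ _).trans (Finset.sum_le_sum fun κ hκ => ?_)
  rw [← smul_sub, norm_smul, mul_comm]
  exact mul_le_mul_of_nonneg_right (h κ hκ) (norm_nonneg _)

theorem exists_filler (P : Prof) : ∃ j : ℤ, 1 ≤ j ∧ P.tt j 0 + 1 ≤ P.tt j (1 - P.sh.mu) := by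
  have hD : 0 < P.tt 1 (1 - P.sh.mu) - P.tt 1 0 :=
    sub_pos.mpr (P.tt_lt_tt one_pos (by linarith [P.sh.mu_le]) (by linarith [P.sh.mu_pos]))
  set D := P.tt 1 (1 - P.sh.mu) - P.tt 1 0 with hD'
  refine ⟨⌈1 / D⌉, Int.one_le_ceil_iff.mpr (by positivity), ?_⟩
  have h1 : 1 / D ≤ (⌈1 / D⌉ : ℤ) := Int.le_ceil _
  rw [div_le_iff₀ hD] at h1
  have h2 : ∀ (j w : ℝ), P.tt j w = j * P.tt 1 w := fun j w => by unfold Prof.tt; ring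
  rw [h2 _ 0, h2 _ (1 - P.sh.mu)]
  nlinarith

theorem filler_cls {P : Prof} {Ξ : Finset (ℤ × ℤ)} {ξ : ℤ × ℤ} (hξ : ξ ∈ Ξ)
    (h : P.tt ξ.1 0 + 1 ≤ P.tt ξ.1 (1 - P.sh.mu)) {N : ℕ} (hN : 1 ≤ N) (r : ℤ) (h0 : 0 ≤ r)
    (h1 : r < N) : ∃ κ ∈ KS P Ξ N, cls N κ.2 = r := by
  obtain ⟨ν, hν, hc⟩ := exists_cls_eq hN ⌈2 * P.tt ξ.1 0⌉ h0 h1
  have hN0 : (0 : ℤ) < N := by exact_mod_cast hN
  have hN' : (0 : ℝ) < N := by exact_mod_cast hN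
  have e1 : ⌈2 * P.tt ξ.1 0⌉ * N ≤ ν := by rw [← hν]; exact Int.ediv_mul_le _ hN0.ne'
  have e2 : ν + 1 ≤ (⌈2 * P.tt ξ.1 0⌉ + 1) * N := by
    rw [← hν]; exact Int.lt_ediv_add_one_mul_self _ hN0
  have e1' : ((⌈2 * P.tt ξ.1 0⌉ : ℤ) : ℝ) * N ≤ ν := by exact_mod_cast e1
  have e2' : (ν : ℝ) + 1 ≤ ((⌈2 * P.tt ξ.1 0⌉ : ℤ) + 1) * N := by exact_mod_cast e2
  have e3 := Int.le_ceil (2 * P.tt ξ.1 0)
  have e4 := Int.ceil_lt_add_one (2 * P.tt ξ.1 0)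
  refine ⟨(ξ, ν), (mem_KS hN).mpr ⟨hξ, ?_, ?_⟩, hc⟩
  · rw [le_div_iff₀ (by positivity)]; nlinarith
  · rw [div_le_iff₀ (by positivity)]; nlinarith

theorem KS_bound' {P : Prof} {Ξ : Finset (ℤ × ℤ)} (hΞ : ∀ ξ ∈ Ξ, 1 ≤ ξ.1) :
    ∃ B : ℕ, ∀ N : ℕ, 1 ≤ N → ∀ κ ∈ KS P Ξ N, κ.1 ∈ Ξ ∧ 0 ≤ κ.2 ∧ κ.2 / N ≤ B := by
  refine ⟨⌈4 * (∑ ξ ∈ Ξ, (ξ.1 : ℝ)) * P.a0⌉₊, fun N hN κ hκ => ?_⟩
  have hm := ((mem_KS hN).mp hκ).1
  obtain ⟨h1, h2⟩ := KS_bounds hΞ hN hκ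
  have hN0 : (0 : ℤ) < N := by exact_mod_cast hN
  have hN' : (0 : ℝ) < N := by exact_mod_cast hN
  have ha := P.a0_pos
  rw [le_div_iff₀ (by positivity)] at h1
  rw [div_le_iff₀ (by positivity)] at h2
  refine ⟨hm, ?_, ?_⟩
  · have : (0 : ℝ) ≤ κ.2 := le_trans (by positivity) h1
    exact_mod_cast this
  · refine Int.ediv_le_of_le_mul hN0 ?_
    have h3 : (κ.1.1 : ℝ) ≤ ∑ ξ ∈ Ξ, (ξ.1 : ℝ) :=
      Finset.single_le_sum (f := fun ξ : ℤ × ℤ => (ξ.1 : ℝ))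
        (fun ξ hξ => by have := hΞ ξ hξ; positivity) hm
    have h4 := Nat.le_ceil (4 * (∑ ξ ∈ Ξ, (ξ.1 : ℝ)) * P.a0)
    have h5 : (κ.2 : ℝ) ≤ (⌈4 * (∑ ξ ∈ Ξ, (ξ.1 : ℝ)) * P.a0⌉₊ : ℝ) * N := by
      have := mul_le_mul_of_nonneg_right h4 hN'.le
      have := mul_le_mul_of_nonneg_right h3 (mul_pos ha hN').le
      nlinarith
    exact_mod_cast h5

theorem le_of_sq_le {x y : ℝ} (hy : 0 ≤ y) (h : x ^ 2 ≤ y ^ 2) : x ≤ y :=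
  (abs_le_of_sq_le_sq' h hy).2

theorem macro_step {H : VD} {P : Prof} {g : H3} {η0 : ℝ} (hη0 : 0 ≤ η0) (hη1 : η0 ≤ 1 / 2)
    (hI : Inv H P g η0) (f : H3)
    (hf : ⟪L3 fun _ => 1, f⟫_ℂ = 0) (k : ℕ) {τ ζ : ℝ} (hτ : 0 < τ) (hζ : 0 < ζ) :
    ∃ M : ℝ, ∀ η > (0 : ℝ), ∃ (H' : VD) (P' : Prof) (g' : H3), Inv H' P' g' η ∧
      Close2 k τ (TT H P 0) (TT H' P' 0) ∧ ‖g' - g‖ ≤ 6 * √η0 + ζ ∧
      ∃ b : ℤ →₀ ℂ, (∀ θ, ‖tp b θ‖ ≤ M) ∧ ‖f - app b (TT H' P' 0) g'‖ ≤ ζ := by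
  classical
  -- the small parameter
  obtain ⟨ε, hε0, hε1, hε2⟩ : ∃ ε : ℝ, 0 < ε ∧ ε ≤ 1 / 4 ∧ ε * (30 + 6 * ‖f‖) ≤ ζ := by
    refine ⟨min (1 / 4) (ζ / (30 + 6 * ‖f‖)), by positivity, min_le_left _ _, ?_⟩
    rw [← le_div_iff₀ (by positivity)]; exact min_le_right _ _
  have hz0 : 0 < ε ^ 2 := by positivity
  have hz1 : ε ^ 2 ≤ 1 / 16 := by nlinarith
  have hz2 : ε ^ 2 ≤ ε := by nlinarith
  obtain ⟨H1, P1, Ξ0, c, l, cp, cn, lp, ln, E, hC1, hΞ0, hz, hg, hf1, hE, hEi, hnorm, hmass⟩ :=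
    pre hη0 hη1 hI (ι := Unit) (fun _ => f) (fun _ => hf) k (τ := τ / 2) (by positivity) hz0
  obtain ⟨j0, hj0, hj0'⟩ := exists_filler P1
  set Ξ := insert (j0, (0 : ℤ)) Ξ0 with hΞdef
  have hsub : Ξ0 ⊆ Ξ := Finset.subset_insert _ _
  have hΞ : ∀ ξ ∈ Ξ, 1 ≤ ξ.1 := by
    intro ξ hξ
    rcases Finset.mem_insert.mp hξ with rfl | h
    exacts [hj0, hΞ0 ξ h]
  rw [← bv_subset P1 hsub (fun ξ h => (hz ξ h).1)] at hg hnorm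
  have hf2 := hf1 ()
  rw [← bv_subset P1 hsub (fun ξ h => ((hz ξ h).2 ()).1),
    ← bv_subset P1 hsub (fun ξ h => ((hz ξ h).2 ()).2)] at hf2
  have hmass' : ∀ A : Set ℝ, MeasurableSet A →
      ∑ ξ ∈ Ξ, ‖c ξ‖ ^ 2 * (volume (Ico (0 : ℝ) (1 - P1.sh.mu) ∩
        {w | (ξ.1 : ℝ) * P1.al w ∈ A})).toReal ≤
        (1 + η0 + ε ^ 2) * (volume (A ∩ E)).toReal + ε ^ 2 := by
    intro A hA
    refine le_trans (le_of_eq ?_) (hmass A hA)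
    refine (Finset.sum_subset hsub fun ξ _ h => ?_).symm
    simp [(hz ξ h).1]
  obtain ⟨B, hB⟩ := KS_bound' (P := P1) hΞ
  obtain ⟨Lmin, hLm, hdes⟩ := design Ξ B hz0 (by linarith)
  set C0 : ℝ := (∑ ξ ∈ Ξ, (‖cp () ξ‖ ^ 2 + ‖cn () ξ‖ ^ 2)) / (P1.eps * P1.a0) with hC0
  have hea : 0 < P1.eps * P1.a0 := mul_pos P1.eps_pos P1.a0_pos
  refine ⟨2 * (2 * √(C0 / Lmin)) + 1, fun η hη => ?_⟩
  obtain ⟨η1, h10, h11, h12⟩ : ∃ η1 : ℝ, 0 < η1 ∧ η1 ≤ 1 / 20 ∧ 80 * η1 ≤ η :=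
    ⟨min (1 / 20) (η / 80), by positivity, min_le_left _ _, by linarith [min_le_right (1 / 20) (η / 80)]⟩
  have hEfin : volume E ≠ ⊤ := ne_top_of_le_ne_top ENNReal.ofReal_ne_top (volume_le_half hE hEi)
  obtain ⟨μ0, ⟨d1, d2, d3⟩, hμ0, hμ1⟩ := (((dec_approx (P := P1) hΞ c l hz0).and
    ((dec_approx (P := P1) hΞ (cp ()) (lp ()) hz0).and (dec_approx (P := P1) hΞ (cn ()) (ln ()) hz0))).and
      (Ioc_mem_nhdsGT h10)).exists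
  have hNa : ∀ᶠ N : ℕ in atTop, 1 / (2 * N * P1.a0) ≤ η1 := by
    filter_upwards [tendsto_natCast_atTop_atTop.eventually_ge_atTop (1 / (2 * η1 * P1.a0)),
      eventually_ge_atTop 1] with N h1 h2
    have ha := P1.a0_pos
    have : (0 : ℝ) < N := by exact_mod_cast h2
    rw [div_le_iff₀ (by positivity)] at h1 ⊢
    linarith
  obtain ⟨N, ⟨e1, e2, e3⟩, hgrid, hNa, hN⟩ := ((d1.and (d2.and d3)).and
    ((grid_density hE hEfin hz0).and (hNa.and (eventually_ge_atTop 1)))).exists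
  have hμ1' : μ0 ≤ 1 / 4 := by linarith
  set K := KS P1 Ξ N with hK
  set x : (ℤ × ℤ) × ℤ → H3 := fun κ => (upc P1 N μ0 κ).vec with hx
  set gg := uco P1 N μ0 c l with hgg
  set pp := uco P1 N μ0 (cp ()) (lp ()) with hpp
  set nn := uco P1 N μ0 (cn ()) (ln ()) with hnn
  have hon : ∀ u : (ℤ × ℤ) × ℤ → ℂ, ‖∑ κ ∈ K, u κ • x κ‖ ^ 2 = ∑ κ ∈ K, ‖u κ‖ ^ 2 :=
    norm_sq_sum_upc hΞ hN hμ0 hμ1'
  obtain ⟨rk, L, Pos, cc, da, db, dc, dd, de, df⟩ := hdes N hN K gg E (η0 + 4 * ε ^ 2) (by positivity)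
    (by linarith) (hB N hN) (filler_cls (Finset.mem_insert_self _ _) hj0' hN) hE hEi hgrid
    (fun s => by
      refine (sum_uco_sq_le hΞ hN hμ0 hμ1' c l s).trans ((hmass' _
        (Finset.measurableSet_biUnion _ fun ν _ => measurableSet_Ioo)).trans ?_)
      rw [iUnion₂_inter]
      have h1 := measureReal_biUnion_finset_le (μ := volume) s fun ν => cell N ν ∩ E
      have h2 : (0 : ℝ) ≤ volume.real (⋃ ν ∈ s, cell N ν ∩ E) := measureReal_nonneg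
      simp only [measureReal_def] at h1 h2
      have h3 : (1 + η0 + ε ^ 2) * (volume (⋃ ν ∈ s, cell N ν ∩ E)).toReal ≤
          (1 + (η0 + 4 * ε ^ 2)) * ∑ ν ∈ s, (volume (cell N ν ∩ E)).toReal :=
        mul_le_mul (by linarith) h1 h2 (by positivity)
      exact add_le_add h3 le_rfl)
    (by
      rw [← hon]
      have h1 : √(1 / 2 - η0) - 2 * ε ^ 2 ≤ ‖∑ κ ∈ K, gg κ • x κ‖ := by
        have := norm_sub_norm_le (bv P1 Ξ c l) (∑ κ ∈ K, gg κ • x κ)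
        linarith
      have h2 := Real.sq_sqrt (show 0 ≤ 1 / 2 - η0 by linarith)
      have h3 := Real.sqrt_nonneg (1 / 2 - η0)
      have h4 : √(1 / 2 - η0) ≤ 1 := Real.sqrt_le_one.mpr (by linarith)
      by_cases h5 : 0 ≤ √(1 / 2 - η0) - 2 * ε ^ 2
      · nlinarith [mul_self_le_mul_self h5 h1]
      · nlinarith [norm_nonneg (∑ κ ∈ K, gg κ • x κ)])
  set Sg : ℝ := 1 + ∑ κ ∈ K, ‖cc κ‖ + ∑ κ ∈ K, ‖pp κ‖ + ∑ κ ∈ K, ‖nn κ‖ with hSg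
  have n1 : 0 ≤ ∑ κ ∈ K, ‖cc κ‖ := Finset.sum_nonneg fun _ _ => norm_nonneg _
  have n2 : 0 ≤ ∑ κ ∈ K, ‖pp κ‖ := Finset.sum_nonneg fun _ _ => norm_nonneg _
  have n3 : 0 ≤ ∑ κ ∈ K, ‖nn κ‖ := Finset.sum_nonneg fun _ _ => norm_nonneg _
  obtain ⟨η2, h20, h21, h22⟩ : ∃ η2 : ℝ, 0 < η2 ∧ η2 * Sg ≤ ε ^ 2 ∧ 14 * η2 ≤ η := by
    refine ⟨min (ε ^ 2 / Sg) (η / 14), by positivity, ?_, by linarith [min_le_right (ε ^ 2 / Sg) (η / 14)]⟩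
    rw [← le_div_iff₀ (by positivity)]; exact min_le_left _ _
  have h23 : η2 ≤ ε ^ 2 := by nlinarith
  obtain ⟨H2, P2, Y, S, Om, hC2, hY, hYj, hYl, hY1, hSO⟩ := spec H1 P1 hΞ hN hμ0 hμ1 hNa (by linarith)
    L Pos (fun κ hκ => ⟨hLm.trans_le (da κ hκ).1, (da κ hκ).2.1, (da κ hκ).2.2.1⟩) k
    (τ := τ / 2) (by positivity) h20
  have hx1 : ∀ κ ∈ K, ‖x κ‖ = 1 := by
    intro κ hκ
    have hv := (UF_valid hΞ hN hμ0 hμ1').1 ⟨κ, hκ⟩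
    have h1 : ‖x κ‖ ^ 2 = 1 := by
      exact (norm_sq_EE _ _ (Pc.bd _)).trans ((Pc.nsq_fn hv.2.1 hv.2.2.1.le
        (hv.2.2.2.trans (by linarith [P1.sh.mu_pos]))).trans (upc_mass hΞ hN hμ0 hμ1' hκ))
    exact (pow_eq_one_iff_of_nonneg (norm_nonneg _) two_ne_zero).mp h1
  obtain ⟨S', W, w1, w2, w3, w4, w5, w6, w7, w8⟩ := post hN h10.le h11 h20.le h23 (by linarith) hSO
    hY hYl (fun κ hκ => by
      have h1 := norm_sub_norm_le (kp H1 (x κ)) (kp H2 (Y.vecL κ))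
      rw [LinearIsometry.norm_map, LinearIsometry.norm_map, hx1 κ hκ] at h1
      have h2 : 1 - η2 ≤ ‖Y.vecL κ‖ := by linarith [hY1 κ hκ]
      nlinarith [mul_self_le_mul_self (by linarith) h2])
    (rk := rk) (c := cc) (fun κ hκ => ⟨hLm.trans_le (da κ hκ).1, (da κ hκ).2.2.2⟩) db dc dd de
  -- transfer of vectors
  have htr : ∀ (u : (ℤ × ℤ) × ℤ → ℂ) (D : ℝ), 0 ≤ D → ∑ κ ∈ K, ‖u κ‖ ≤ Sg →
      ∑ κ ∈ K, ‖u κ‖ ^ 2 ≤ D ^ 2 →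
      ‖kp H1 (∑ κ ∈ K, u κ • x κ) - kp H2 (Y.cut W u).vec‖ ≤ ε ^ 2 + 3 * ε * D := by
    intro u D hD hu hu2
    have h1 := transfer H1 H2 K x Y.vecL hY1 u
    have h2 : ‖kp H2 (∑ κ ∈ K, u κ • Y.vecL κ) - kp H2 (Y.cut W u).vec‖ ≤ 3 * ε * D := by
      rw [← map_sub, LinearIsometry.norm_map]
      refine le_of_sq_le (by positivity) ((w6 u).trans ?_)
      have := mul_le_mul_of_nonneg_left hu2 (show 0 ≤ 5 * ε ^ 2 by positivity)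
      nlinarith [sq_nonneg (ε * D)]
    refine (norm_sub_le_norm_sub_add_norm_sub _ _ _).trans (add_le_add (h1.trans ?_) h2)
    exact (mul_le_mul_of_nonneg_left hu h20.le).trans h21
  have hN' : (0 : ℝ) < 2 * N := by
    have : (1 : ℝ) ≤ N := by exact_mod_cast hN
    linarith
  have hcc : ∀ κ ∈ K, cc κ ≠ 0 := fun κ hκ h => by
    have h1 := (da κ hκ).2.2.2
    have h2 := hLm.trans_le (da κ hκ).1
    rw [h, norm_zero] at h1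
    have : 0 < L κ / (2 * N) := by positivity
    linarith
  have hquot : ∀ κ ∈ K, ∀ z : ℂ, ‖z‖ ^ 2 ≤ C0 / (2 * N) → ‖z / cc κ‖ ≤ √(C0 / Lmin) := by
    intro κ hκ z hz
    refine Real.le_sqrt_of_sq_le ?_
    have h2 := hLm.trans_le (da κ hκ).1
    have hC00 : 0 ≤ C0 := by positivity
    rw [norm_div, div_pow, (da κ hκ).2.2.2]
    calc ‖z‖ ^ 2 / (L κ / (2 * N)) ≤ C0 / (2 * N) / (L κ / (2 * N)) := by gcongr
      _ = C0 / L κ := by field_simp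
      _ ≤ C0 / Lmin := div_le_div_of_nonneg_left hC00 hLm (da κ hκ).1
  have hC0le : ∀ κ ∈ K, ‖cp () κ.1‖ ^ 2 + ‖cn () κ.1‖ ^ 2 ≤
      ∑ ξ ∈ Ξ, (‖cp () ξ‖ ^ 2 + ‖cn () ξ‖ ^ 2) := fun κ hκ =>
    Finset.single_le_sum (f := fun ξ => ‖cp () ξ‖ ^ 2 + ‖cn () ξ‖ ^ 2) (fun _ _ => by positivity)
      ((mem_KS hN).mp hκ).1
  obtain ⟨a, a1, a2, a3, a4⟩ := exists_mult K S' (fun κ hκ => (w4 κ hκ).1) w5
    (fun κ hκ t ht => not_half_of_mem_cell hN ((w4 κ hκ).2 ht)) (fun κ => pp κ / cc κ)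
    (fun κ => conj (nn κ / cc κ)) (Real.sqrt_nonneg (C0 / Lmin))
    (fun κ hκ => hquot κ hκ _ ((norm_uco_sq_le hΞ hN hμ0 hμ1' _ _ hκ).trans (by
      have := hC0le κ hκ
      rw [hC0]; gcongr; nlinarith [sq_nonneg ‖cn () κ.1‖])))
    (fun κ hκ => by
      rw [RCLike.norm_conj]
      exact hquot κ hκ _ ((norm_uco_sq_le hΞ hN hμ0 hμ1' _ _ hκ).trans (by
        have := hC0le κ hκ
        rw [hC0]; gcongr; nlinarith [sq_nonneg ‖cp () κ.1‖])))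
  obtain ⟨b, b1, b2, b3⟩ := exists_poly_cut hY w1 P2 cc pp nn a1 a2 a3 (fun i w hw => by
    obtain ⟨h1, h2⟩ := a4 _ (hYl i) _ (w3 i w hw)
    rw [h1, h2, ← map_mul, div_mul_cancel₀ _ (hcc _ (hYl i)), div_mul_cancel₀ _ (hcc _ (hYl i))]
    exact ⟨rfl, rfl⟩) hε0
  have hpair : ∀ (u u' v v' : H3), ‖kp H1 (u + star u') - kp H2 (v + star v')‖ ≤
      ‖kp H1 u - kp H2 v‖ + ‖kp H1 u' - kp H2 v'‖ := by
    intro u u' v v'
    rw [map_add, map_add, kp_star, kp_star, add_sub_add_comm, ← star_sub']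
    exact (norm_add_le _ _).trans (by rw [norm_star'])
  have hkp : ∀ (u u' v : H3), ‖kp H1 u - kp H2 v‖ ≤ ‖u - u'‖ + ‖kp H1 u' - kp H2 v‖ := by
    intro u u' v
    refine (norm_sub_le_norm_sub_add_norm_sub _ (kp H1 u') _).trans ?_
    rw [← map_sub, LinearIsometry.norm_map]
  refine ⟨H2, P2, kp H2 ((Y.cut W cc).vec + star (Y.cut W cc).vec),
    ⟨Y.cut W cc, ⋃ κ ∈ K, S' κ, FM.cut_ok hY w1 cc, hYj,
      fun i w hw => indicator_of_notMem (s := W i) (fun h => hw (w2 i h))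
        (fun w => cc (Y.lab i) * Y.G i w), rfl,
      Finset.measurableSet_biUnion _ fun κ hκ => (w4 κ hκ).1, ?_, fun A hA => (w7 A hA).trans ?_,
      by linarith⟩, by simpa using hC1.trans hC2, ?_, b, b1, ?_⟩
  · intro t ht t' ht' hf
    simp only [mem_iUnion] at ht ht'
    obtain ⟨κ, hκ, ht⟩ := ht
    obtain ⟨κ', hκ', ht'⟩ := ht'
    exact (w5 κ hκ κ' hκ' t ht t' ht' hf).2
  · exact mul_le_mul_of_nonneg_right (by linarith) ENNReal.toReal_nonneg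
  · have h1 := htr cc 1 zero_le_one (by linarith) (by
      rw [Finset.sum_congr rfl fun κ hκ => (da κ hκ).2.2.2]; linarith)
    have h2 : ‖∑ κ ∈ K, gg κ • x κ - ∑ κ ∈ K, cc κ • x κ‖ ≤ 2 * √η0 + 6 * ε := by
      rw [norm_sub_rev, ← Finset.sum_sub_distrib]
      simp only [← sub_smul]
      refine le_of_sq_le (by positivity) ?_
      rw [hon]
      have := Real.sq_sqrt hη0
      nlinarith [Real.sqrt_nonneg η0]
    have h3 := hkp (bv P1 Ξ c l) (∑ κ ∈ K, gg κ • x κ) (Y.cut W cc).vec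
    have h4 := hkp (∑ κ ∈ K, gg κ • x κ) (∑ κ ∈ K, cc κ • x κ) (Y.cut W cc).vec
    have h5 := hpair (bv P1 Ξ c l) (bv P1 Ξ c l) (Y.cut W cc).vec (Y.cut W cc).vec
    rw [norm_sub_rev]
    refine (norm_sub_le_norm_sub_add_norm_sub _ _ _).trans ((add_le_add hg h5).trans ?_)
    nlinarith [norm_nonneg f, Real.sqrt_nonneg η0]
  · obtain ⟨q1, q2⟩ := norm_bv_le P1 hΞ (cp ()) (cn ()) (lp ()) (ln ())
    have q3 : ‖bv P1 Ξ (cp ()) (lp ()) + star (bv P1 Ξ (cn ()) (ln ()))‖ ≤ ‖f‖ + 1 / 2 := by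
      have := norm_sub_norm_le (kp H1 (bv P1 Ξ (cp ()) (lp ()) + star (bv P1 Ξ (cn ()) (ln ())))) f
      rw [LinearIsometry.norm_map, norm_sub_rev] at this
      linarith
    have hD : ∀ (u : (ℤ × ℤ) × ℤ → ℂ) (v : H3), ‖v‖ ≤ ‖f‖ + 1 / 2 →
        ‖v - ∑ κ ∈ K, u κ • x κ‖ ≤ ε ^ 2 → ∑ κ ∈ K, ‖u κ‖ ^ 2 ≤ (‖f‖ + 1) ^ 2 := by
      intro u v h1 h2
      rw [← hon]
      have := norm_sub_norm_le (∑ κ ∈ K, u κ • x κ) v
      rw [norm_sub_rev] at this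
      exact pow_le_pow_left₀ (norm_nonneg _) (by linarith) 2
    have h1 := htr pp (‖f‖ + 1) (by positivity) (by linarith) (hD pp _ (q1.trans q3) e2)
    have h2 := htr nn (‖f‖ + 1) (by positivity) (by linarith) (hD nn _ (q2.trans q3) e3)
    have h3 := hkp (bv P1 Ξ (cp ()) (lp ())) (∑ κ ∈ K, pp κ • x κ) (Y.cut W pp).vec
    have h4 := hkp (bv P1 Ξ (cn ()) (ln ())) (∑ κ ∈ K, nn κ • x κ) (Y.cut W nn).vec
    have h5 := hpair (bv P1 Ξ (cp ()) (lp ())) (bv P1 Ξ (cn ()) (ln ())) (Y.cut W pp).vec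
      (Y.cut W nn).vec
    have h6 : ‖kp H2 ((Y.cut W pp).vec + star (Y.cut W nn).vec) -
        app b (TT H2 P2 0) (kp H2 ((Y.cut W cc).vec + star (Y.cut W cc).vec))‖ ≤ ε + ε := by
      unfold TT
      rw [app_conj, ← map_sub, LinearIsometry.norm_map, app_add_vec, norm_sub_rev, add_sub_add_comm]
      exact (norm_add_le _ _).trans (add_le_add b2 b3)
    refine (norm_sub_le_norm_sub_add_norm_sub _ _ _).trans ((add_le_add hf2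
      ((norm_sub_le_norm_sub_add_norm_sub _ _ _).trans (add_le_add h5 h6))).trans ?_)
    nlinarith [norm_nonneg f]

end Crest.Agent.R081
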