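import Crest.Agent.R081.Maps
import Crest.Agent.R081.Fold

/-! Approximation of bounded multipliers by trigonometric polynomials; flatness. -/

set_option autoImplicit false

namespace Crest.Agent.R081

open MeasureTheory Set Filter Topology Crest.AnalysisR.Torus3 Crest.Agent.R210 Crest.Agent.R075
open scoped InnerProductSpace

/-- The spectral measure of a finite family of modes. -/
noncomputable def mul_nu (P : Prof) {ι : Type} [Fintype ι] (j : ι → ℤ) (G : ι → ℝ → ℂ) :
    Measure ℝ :=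
  ∑ i, ((volume.restrict (Ico (0 : ℝ) 1)).withDensity fun w => ENNReal.ofReal (‖G i w‖ ^ 2)).map
    fun w => j i * P.al w

theorem mul_nu_finite (P : Prof) {ι : Type} [Fintype ι] (j : ι → ℤ) {G : ι → ℝ → ℂ}
    (hG : ∀ i, Bd (G i)) : IsFiniteMeasure (mul_nu P j G) := by
  have := fun i => isFiniteMeasure_withDensity_ofReal ((hG i).integrableOn_sq subset_rfl).2
  unfold mul_nu
  infer_instance

theorem mul_nu_integral (P : Prof) {ι : Type} [Fintype ι] (j : ι → ℤ) {G : ι → ℝ → ℂ}
    (hG : ∀ i, Bd (G i)) {φ : ℝ → ℝ} (hφ : Measurable φ) {B : ℝ} (hB : ∀ t, ‖φ t‖ ≤ B) :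
    ∫ t, φ t ∂mul_nu P j G = ∑ i, ∫ w in Ico (0 : ℝ) 1, φ (j i * P.al w) * ‖G i w‖ ^ 2 := by
  have := fun i => isFiniteMeasure_withDensity_ofReal ((hG i).integrableOn_sq subset_rfl).2
  rw [mul_nu, integral_finsetSum_measure fun i _ =>
    Integrable.of_bound hφ.aestronglyMeasurable B (Eventually.of_forall hB)]
  refine Finset.sum_congr rfl fun i _ => ?_
  rw [integral_map (P.al_contDiff.continuous.measurable.const_mul _).aemeasurable
      hφ.aestronglyMeasurable,
    integral_withDensity_eq_integral_toReal_smul ((hG i).1.norm.pow_const 2).ennreal_ofReal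
      (Eventually.of_forall fun _ => ENNReal.ofReal_lt_top)]
  refine integral_congr_ae (Eventually.of_forall fun w => ?_)
  simp only [ENNReal.toReal_ofReal (sq_nonneg ‖G i w‖), smul_eq_mul, mul_comm]

theorem mul_exists_tp (h : C(UnitAddCircle, ℂ)) {ε : ℝ} (hε : 0 < ε) :
    ∃ b : ℤ →₀ ℂ, ∀ θ : ℝ, ‖tp b θ - h θ‖ ≤ ε := by
  have h1 : h ∈ (Submodule.span ℂ (range <| @fourier 1)).topologicalClosure := by
    rw [span_fourier_closure_eq_top]; trivial
  obtain ⟨p, hp, hd⟩ := Metric.mem_closure_iff.1 h1 ε hε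
  obtain ⟨b, rfl⟩ := Finsupp.mem_span_range_iff_exists_finsupp.1 hp
  refine ⟨b, fun θ => ?_⟩
  have e : tp b θ = (b.sum fun l c => c • fourier (T := 1) l) (θ : UnitAddCircle) := by
    simp only [tp, Finsupp.sum, ContinuousMap.sum_apply, ContinuousMap.smul_apply, smul_eq_mul,
      fourier_coe]
  rw [e, ← dist_eq_norm, dist_comm]
  exact (ContinuousMap.dist_apply_le_dist _).trans hd.le

theorem mul_clip {M x y : ℝ} (hy : |y| ≤ M) :
    |max (-M) (min M x)| ≤ M ∧ |max (-M) (min M x) - y| ≤ |x - y| := by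
  obtain ⟨h1, h2⟩ := abs_le.1 hy
  constructor
  · exact abs_le.2 ⟨le_max_left _ _, max_le (by linarith) (min_le_left _ _)⟩
  · have e : y = max (-M) (min M y) := by rw [min_eq_right h2, max_eq_right h1]
    conv_lhs => rw [e]
    refine (abs_max_sub_max_le_max _ _ _ _).trans (max_le (by simp) ?_)
    exact (abs_min_sub_min_le_max _ _ _ _).trans (max_le (by simp) le_rfl)

/-- Push the finite measures `‖G i w‖² dw` to the circle by `w ↦ j_i α(w)`, approximate `a` in `L²`
of their sum by a continuous function, clip real and imaginary parts to `[-M, M]`, approximate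
uniformly by a trigonometric polynomial (`span_fourier_closure_eq_top`). -/
theorem exists_trig_mul (P : Prof) {ι : Type} [Fintype ι] (j : ι → ℤ) (G : ι → ℝ → ℂ)
    (hG : ∀ i, Bd (G i)) {a : ℝ → ℂ} (ha : Measurable a) (hper : Function.Periodic a 1) {M : ℝ}
    (hM : ∀ t, ‖a t‖ ≤ M) {ζ : ℝ} (hζ : 0 < ζ) :
    ∃ b : ℤ →₀ ℂ, (∀ θ, ‖tp b θ‖ ≤ 2 * M + 1) ∧
      ∑ i, nsq (fun w => (tp b (j i * P.al w) - a (j i * P.al w)) * G i w) ≤ ζ := by
  have hfin := mul_nu_finite P j hG
  have hM0 : 0 ≤ M := (norm_nonneg _).trans (hM 0)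
  set ν := mul_nu P j G with hν
  have hc : Measurable fun t : ℝ => (t : UnitAddCircle) := AddCircle.measurable_mk'
  have hrep : ∀ t : ℝ, a (rep (t : UnitAddCircle)) = a t := fun t => by
    rw [rep_coe, Int.fract, ← mul_one (⌊t⌋ : ℝ)]
    exact hper.sub_int_mul_eq _
  have ha' : Measurable fun x : UnitAddCircle => a (rep x) := ha.comp measurable_rep
  have hi : Integrable (fun x : UnitAddCircle => a (rep x)) (ν.map fun t : ℝ => (t : UnitAddCircle)) :=
    Integrable.of_bound ha'.aestronglyMeasurable M (Eventually.of_forall fun _ => hM _)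
  set K := 3 * M + 1 with hK
  have hK0 : 0 < K := by positivity
  set V := ν.real univ with hV
  have hV0 : 0 ≤ V := measureReal_nonneg
  obtain ⟨g, hg, hgi⟩ := hi.exists_boundedContinuous_integral_sub_le (ε := ζ / (4 * K))
    (by positivity)
  have hgc := g.continuous
  replace hg := (integral_map hc.aemeasurable (f := fun x : UnitAddCircle => ‖a (rep x) - g x‖)
    (ha'.sub hgc.measurable).norm.aestronglyMeasurable).symm.trans_le hg
  have hgi' : Integrable (fun t : ℝ => ‖a (rep (t : UnitAddCircle)) - g t‖) ν :=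
    (hi.sub hgi).norm.comp_measurable hc
  simp only [hrep] at hg hgi'
  let h : C(UnitAddCircle, ℂ) := ⟨fun x => ((max (-M) (min M (g x).re) : ℝ) : ℂ) +
    ((max (-M) (min M (g x).im) : ℝ) : ℂ) * Complex.I, by fun_prop⟩
  have hre : ∀ x, (h x).re = max (-M) (min M (g x).re) := fun x => by simp [h]
  have him : ∀ x, (h x).im = max (-M) (min M (g x).im) := fun x => by simp [h]
  have h1 : ∀ t : ℝ, ‖h t‖ ≤ 2 * M ∧ ‖h t - a t‖ ≤ 2 * ‖a t - g t‖ := by
    intro t
    have b1 := mul_clip (x := (g t).re) ((Complex.abs_re_le_norm _).trans (hM t))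
    have b2 := mul_clip (x := (g t).im) ((Complex.abs_im_le_norm _).trans (hM t))
    have b3 := Complex.abs_re_le_norm (g t - a t)
    have b4 := Complex.abs_im_le_norm (g t - a t)
    have b5 := Complex.norm_le_abs_re_add_abs_im (h t)
    have b6 := Complex.norm_le_abs_re_add_abs_im (h t - a t)
    rw [Complex.sub_re] at b3 b6
    rw [Complex.sub_im] at b4 b6
    rw [hre, him] at b5 b6
    rw [norm_sub_rev (a t)]
    constructor <;> linarith [b1.1, b1.2, b2.1, b2.2]
  set ε := min 1 (ζ / (2 * K * (V + 1))) with hε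
  have hε0 : 0 < ε := by positivity
  obtain ⟨b, hb⟩ := mul_exists_tp h hε0
  have h2 : ∀ θ, ‖tp b θ‖ ≤ 2 * M + 1 := fun θ => by
    have := norm_le_norm_add_norm_sub' (tp b θ) (h θ)
    linarith [hb θ, (h1 θ).1, min_le_left 1 (ζ / (2 * K * (V + 1)))]
  refine ⟨b, h2, ?_⟩
  have h3 : ∀ t, ‖tp b t - a t‖ ≤ K := fun t => by
    linarith [norm_sub_le (tp b t) (a t), h2 t, hM t]
  have hm : Measurable fun t => ‖tp b t - a t‖ ^ 2 :=
    ((continuous_tp b).measurable.sub ha).norm.pow_const 2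
  have h4 := mul_nu_integral P j hG hm (B := K ^ 2) fun t => by
    rw [norm_pow, norm_norm]
    exact pow_le_pow_left₀ (norm_nonneg _) (h3 t) 2
  simp only [nsq_eq_setIntegral, norm_mul, mul_pow]
  rw [← h4]
  have h5 : ∫ t, ‖tp b t - a t‖ ^ 2 ∂ν ≤ ∫ t, K * (ε + 2 * ‖a t - g t‖) ∂ν := by
    refine integral_mono_of_nonneg (Eventually.of_forall fun _ => sq_nonneg _)
      (((integrable_const _).add (hgi'.const_mul _)).const_mul _) (Eventually.of_forall fun t => ?_)
    dsimp only
    rw [sq]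
    refine mul_le_mul (h3 t) ?_ (norm_nonneg _) hK0.le
    linarith [norm_sub_le_norm_sub_add_norm_sub (tp b t) (h t) (a t), hb t, (h1 t).2]
  refine h5.trans ?_
  rw [integral_const_mul, integral_add (integrable_const _) (hgi'.const_mul _), integral_const,
    integral_const_mul, smul_eq_mul, ← hV]
  have h6 : K * ((V + 1) * ε) ≤ ζ / 2 := by
    have := min_le_right 1 (ζ / (2 * K * (V + 1)))
    rw [← hε, le_div_iff₀ (by positivity)] at this
    linarith
  rw [le_div_iff₀ (by positivity)] at hg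
  nlinarith [mul_pos hK0 hε0]

/-- From sets to functions (layer cake). -/
theorem FM.mass_fun_le {Λ : Type} (Y : FM Λ) (hY : Y.Ok) (P : Prof) {E : Set ℝ}
    (hE : MeasurableSet E) (hfin : volume E ≠ ⊤) {C : ℝ} (hC : 0 ≤ C)
    (h : ∀ A : Set ℝ, MeasurableSet A → Y.mass P A ≤ C * (volume (A ∩ E)).toReal)
    {φ : ℝ → ℝ} (hφ : Measurable φ) (h0 : ∀ t, 0 ≤ φ t) (h1 : ∀ t, φ t ≤ 1) :
    ∑ i, ∫ w in Ico (0 : ℝ) 1, φ (Y.j i * P.al w) * ‖Y.G i w‖ ^ 2 ≤ C * ∫ t in E, φ t := by
  have hfin' := mul_nu_finite P Y.j hY.1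
  have _ := hE
  have hB : ∀ t, ‖φ t‖ ≤ 1 := fun t => by rw [Real.norm_of_nonneg (h0 t)]; exact h1 t
  have hE' : IsFiniteMeasure (volume.restrict E) := isFiniteMeasure_restrict.2 hfin
  have hle : mul_nu P Y.j Y.G ≤ ENNReal.ofReal C • volume.restrict E := by
    refine Measure.le_iff.2 fun A hA => ?_
    have e : (mul_nu P Y.j Y.G).real A = Y.mass P A := by
      rw [← integral_indicator_one hA, mul_nu_integral P Y.j hY.1 (measurable_one.indicator hA)
        (B := 1) fun t => by by_cases ht : t ∈ A <;> simp [ht]]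
      refine Finset.sum_congr rfl fun i _ => ?_
      have hm : MeasurableSet {w | (Y.j i : ℝ) * P.al w ∈ A} :=
        (P.al_contDiff.continuous.measurable.const_mul _) hA
      rw [← setIntegral_indicator hm]
      refine integral_congr_ae (Eventually.of_forall fun w => ?_)
      by_cases hw : (Y.j i : ℝ) * P.al w ∈ A <;> simp [hw]
    rw [← ofReal_measureReal (measure_ne_top _ _), e, Measure.smul_apply, Measure.restrict_apply hA,
      smul_eq_mul, ← ENNReal.ofReal_toReal (ne_top_of_le_ne_top hfin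
        (measure_mono (inter_subset_right : A ∩ E ⊆ E))), ← ENNReal.ofReal_mul hC]
    exact ENNReal.ofReal_le_ofReal (h A hA)
  rw [← mul_nu_integral P Y.j hY.1 hφ hB]
  refine (integral_mono_measure hle (Eventually.of_forall h0)
    ((Integrable.of_bound hφ.aestronglyMeasurable 1 (Eventually.of_forall hB)).smul_measure
      ENNReal.ofReal_ne_top)).trans_eq ?_
  rw [integral_smul_measure, ENNReal.toReal_ofReal hC, smul_eq_mul]

theorem mul_inner_sum {ι : Type} [Fintype ι] {j n : ι → ℤ} {F G : ι → ℝ → ℂ} (hF : ∀ i, Bd (F i))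
    (hG : ∀ i, Bd (G i)) (h : ∀ i i', j i = j i' → n i = n i' → i = i') :
    ⟪∑ i, EE (j i) (n i) (F i), ∑ i, EE (j i) (n i) (G i)⟫_ℂ =
      ∑ i, ∫ w in (0 : ℝ)..1, (starRingEnd ℂ) (F i w) * G i w := by
  rw [sum_inner]
  refine Finset.sum_congr rfl fun i _ => ?_
  rw [inner_sum, Finset.sum_eq_single i, inner_EE _ _ _ _ (hF i) (hG i), if_pos ⟨rfl, rfl⟩]
  · intro i' _ hi
    rw [inner_EE _ _ _ _ (hF i) (hG i'), if_neg fun h' => hi (h i i' h'.1 h'.2).symm]
  · simp

theorem mul_inner_zero {ι : Type} [Fintype ι] {j n j' n' : ι → ℤ} {F G : ι → ℝ → ℂ}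
    (hF : ∀ i, Bd (F i)) (hG : ∀ i, Bd (G i)) (h : ∀ i i', j i ≠ j' i') :
    ⟪∑ i, EE (j i) (n i) (F i), ∑ i, EE (j' i) (n' i) (G i)⟫_ℂ = 0 := by
  rw [sum_inner]
  refine Finset.sum_eq_zero fun i _ => ?_
  rw [inner_sum]
  exact Finset.sum_eq_zero fun i' _ => by
    rw [inner_EE _ _ _ _ (hF i) (hG i'), if_neg fun h' => h i i' h'.1]

theorem mul_inner_eq (Y : FM Unit) (hY : Y.Ok) (hj : ∀ i, 1 ≤ Y.j i) (P : Prof) (i : ℤ) :
    ⟪Y.vec + star Y.vec, kp (RR P 0 ^ i) (Y.vec + star Y.vec)⟫_ℂ =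
      ((2 * ∑ k, ∫ w in Ico (0 : ℝ) 1,
        Real.cos (2 * Real.pi * (i * (Y.j k * P.al w))) * ‖Y.G k w‖ ^ 2 : ℝ) : ℂ) := by
  have hal := P.al_contDiff.continuous.measurable
  have he : ∀ c : ℤ, Bd fun w => ee (i * (c * P.al w)) := fun c => Bd.ee (by fun_prop)
  have hG := hY.1
  have hG' := fun k => (hG k).conj
  simp only [FM.vec, star_sum', star_EE _ _ (hG _), map_add, map_sum, kp_RR_zpow_EE _ _ _ _ (hG _),
    kp_RR_zpow_EE _ _ _ _ (hG' _)]
  rw [inner_add_left, inner_add_right, inner_add_right,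
    mul_inner_sum hG (fun k => (he _).mul (hG k)) hY.2,
    mul_inner_sum hG' (fun k => (he _).mul (hG' k))
      fun k k' h1 h2 => hY.2 k k' (neg_inj.1 h1) (neg_inj.1 h2),
    mul_inner_zero hG (fun k => (he _).mul (hG' k)) fun k k' => by
      have := hj k; have := hj k'; omega,
    mul_inner_zero hG' (fun k => (he _).mul (hG k)) fun k k' => by
      have := hj k; have := hj k'; omega,
    add_zero, zero_add, ← Finset.sum_add_distrib, Finset.mul_sum, Complex.ofReal_sum]
  refine Finset.sum_congr rfl fun k _ => ?_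
  rw [← intervalIntegral.integral_add (((hG' k).mul ((he _).mul (hG k))).intervalIntegrable _ _)
      (((hG' k).conj.mul ((he _).mul (hG' k))).intervalIntegrable _ _), ← integral_const_mul,
    ← integral_complex_ofReal, intervalIntegral.integral_of_le zero_le_one, integral_Ico_eq_integral_Ioc]
  refine integral_congr_ae (Eventually.of_forall fun w => ?_)
  have e1 : ee (i * (((-Y.j k : ℤ) : ℝ) * P.al w)) = (starRingEnd ℂ) (ee (i * (Y.j k * P.al w))) := by
    rw [← ee_neg]; push_cast; ring_nf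
  have e2 := Complex.add_conj (ee (i * (Y.j k * P.al w)))
  have e3 := Complex.conj_mul' (Y.G k w)
  rw [ee_re] at e2
  dsimp only
  rw [e1, Complex.conj_conj, ← mul_assoc (2 : ℝ), Complex.ofReal_mul, ← e2, Complex.ofReal_pow,
    ← e3]
  ring

/-- `⟪g, U^i g⟫ = ∑ ∫ 2 cos (2π i j α) ‖G‖²`; apply `FM.mass_fun_le` and `integral_unfold_le` to
`φ = (1 ± cos (2π i t)) / 2`. -/
theorem Inv.flat {H : VD} {P : Prof} {g : H3} {η : ℝ} (h0 : 0 ≤ η) (hI : Inv H P g η) (i : ℤ) :
    ‖⟪g, kp (TT H P 0 ^ i) g⟫_ℂ - if i = 0 then 1 else 0‖ ≤ 4 * η := by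
  obtain ⟨Y, E, hY, hj, -, rfl, hE, hinj, hA, hm⟩ := hI
  rw [TT, kp_conj_zpow, LinearIsometry.inner_map_map, mul_inner_eq Y hY hj]
  have hfin : volume E ≠ ⊤ := ne_top_of_le_ne_top ENNReal.ofReal_ne_top (volume_le_half hE hinj)
  have hal := P.al_contDiff.continuous
  rw [FM.vec, norm_sq_sum_EE _ _ _ (fun k _ => hY.1 k) fun k _ k' _ => hY.2 k k'] at hm
  simp only [nsq_eq_setIntegral] at hm
  set S := ∑ k, ∫ w in Ico (0 : ℝ) 1,
    Real.cos (2 * Real.pi * (i * (Y.j k * P.al w))) * ‖Y.G k w‖ ^ 2 with hS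
  set m := ∑ k, ∫ w in Ico (0 : ℝ) 1, ‖Y.G k w‖ ^ 2 with hm'
  set I := ∫ t in (0 : ℝ)..1, Real.cos (2 * Real.pi * (i * t)) with hI
  have key : ∀ σ : ℝ, |σ| ≤ 1 → m + σ * S ≤ (1 + η) * (1 + σ * I) / 2 := by
    intro σ hσ
    have hb : ∀ x, |σ * Real.cos x| ≤ 1 := fun x => by
      rw [abs_mul]; exact mul_le_one₀ hσ (abs_nonneg _) (Real.abs_cos_le_one x)
    set φ : ℝ → ℝ := fun t => (1 + σ * Real.cos (2 * Real.pi * (i * t))) / 2 with hφ
    have hφm : Measurable φ := by fun_prop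
    have p0 : ∀ t, 0 ≤ φ t := fun t => by
      linarith [(abs_le.1 (hb (2 * Real.pi * (i * t)))).1, congrFun hφ t]
    have p1 : ∀ t, φ t ≤ 1 := fun t => by
      linarith [(abs_le.1 (hb (2 * Real.pi * (i * t)))).2, congrFun hφ t]
    have a1 := FM.mass_fun_le Y hY P hE hfin (by positivity) hA hφm p0 p1
    have a2 := integral_unfold_le hE hinj hφm (fun t => by
      simp only [hφ]
      rw [show 2 * Real.pi * (i * (t + 1)) = 2 * Real.pi * (i * t) + i * (2 * Real.pi) by ring,
        Real.cos_add_int_mul_two_pi]) p0 p1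
    have a3 : ∀ t, φ (-t) = φ t := fun t => by simp only [hφ, mul_neg, Real.cos_neg]
    have a4 : ∫ t in (0 : ℝ)..1, φ t = (1 + σ * I) / 2 := by
      rw [intervalIntegral.integral_div, intervalIntegral.integral_add (by simp)
        (Continuous.intervalIntegrable (by fun_prop) _ _), intervalIntegral.integral_const_mul]
      simp [hI]
    have a5 : ∑ k, ∫ w in Ico (0 : ℝ) 1, φ (Y.j k * P.al w) * ‖Y.G k w‖ ^ 2 = (m + σ * S) / 2 := by
      rw [hm', hS, Finset.mul_sum, ← Finset.sum_add_distrib, Finset.sum_div]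
      refine Finset.sum_congr rfl fun k _ => ?_
      have i1 := (hY.1 k).integrableOn_sq subset_rfl
      have i2 : IntegrableOn (fun w => Real.cos (2 * Real.pi * (i * (Y.j k * P.al w))) *
          ‖Y.G k w‖ ^ 2) (Ico 0 1) :=
        i1.bdd_mul (c := 1) (Continuous.aestronglyMeasurable (by fun_prop))
          (Eventually.of_forall fun w => Real.abs_cos_le_one _)
      rw [← integral_const_mul, ← integral_add i1 (i2.const_mul σ), ← integral_div]
      exact integral_congr_ae (Eventually.of_forall fun w => by simp only [hφ]; ring)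
    simp only [a3] at a2
    rw [a4] at a2
    rw [a5] at a1
    nlinarith [mul_le_mul_of_nonneg_left a2 (by positivity : 0 ≤ 1 + η)]
  by_cases hi : i = 0
  · have e : S = m := by simp [hS, hm', hi]
    have := key 0 (by simp)
    rw [if_pos hi, e, ← Complex.ofReal_one, ← Complex.ofReal_sub, Complex.norm_real,
      Real.norm_eq_abs, abs_le]
    constructor <;> linarith
  · have e : I = 0 := by
      have hc : (2 * Real.pi * i : ℝ) ≠ 0 := by
        have : (i : ℝ) ≠ 0 := by exact_mod_cast hi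
        positivity
      simp only [hI, ← mul_assoc]
      rw [intervalIntegral.integral_comp_mul_left Real.cos hc, integral_cos, mul_one, mul_zero,
        show 2 * Real.pi * i = ((2 * i : ℤ) : ℝ) * Real.pi by push_cast; ring,
        Real.sin_int_mul_pi, Real.sin_zero, sub_zero, smul_zero]
    have k1 := key 1 (by simp)
    have k2 := key (-1) (by simp)
    rw [e] at k1 k2
    rw [if_neg hi, sub_zero, Complex.norm_real, Real.norm_eq_abs, abs_le]
    constructor <;> linarith

theorem Inv.star_eq {H : VD} {P : Prof} {g : H3} {η : ℝ} (hI : Inv H P g η) : star g = g := by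
  obtain ⟨Y, E, -, -, -, rfl, -⟩ := hI
  rw [← kp_star, star_add', star_star, add_comm]

theorem Inv.mean_zero {H : VD} {P : Prof} {g : H3} {η : ℝ} (hI : Inv H P g η) :
    ⟪L3 fun _ => 1, g⟫_ℂ = 0 := by
  obtain ⟨Y, E, hY, hj, -, rfl, -⟩ := hI
  rw [inner_one_kp, inner_add_right, FM.vec, star_sum', inner_sum, inner_sum,
    Finset.sum_eq_zero, Finset.sum_eq_zero, add_zero]
  · intro k _
    rw [star_EE _ _ (hY.1 k)]
    exact inner_one_EE (by have := hj k; omega) _ (hY.1 k).conj
  · intro k _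
    exact inner_one_EE (by have := hj k; omega) _ (hY.1 k)

theorem inv_zero (P : Prof) : Inv 1 P 0 (1 / 2) := by
  refine ⟨⟨Empty, inferInstance, Empty.elim, Empty.elim, Empty.elim, Empty.elim⟩, ∅,
    ⟨fun i => i.elim, fun i => i.elim⟩, fun i => i.elim, fun i => i.elim, ?_, MeasurableSet.empty,
    injOn_empty _, fun A _ => ?_, ?_⟩
  · rw [FM.vec, star_sum']
    simp
  · simp [FM.mass]
  · simp

end Crest.Agent.R081
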