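/-!
# Row 81 (S0108): outline of the proof

`T` is the `C^∞` limit of `T_n = H_n⁻¹ R_n H_n`, `R (x,c,w) = (x + α w, c, w)`,
`α w = a0 / (1 - eps w)` on `[0, 1 - mu]`.  The vector `e(j x + n c) F(w)` has spectral parameter
`t = j α(w) ∈ ℝ`; the spectrum of `T` is the reduction mod 1.

* Step map `hm`: let `w` drift with speed `δ` and `c` rotate with slope `p / q`; new coordinates
  `x' = w`, `c' = b x - a c - A w`, `w' = q c - p x + σ w - β`, `A' ≈ α / (q δ)`.  A mode `(j, n)`
  becomes `∑ γ j' e(j' x' + (q j + p n) c' + l w')`, `γ` by stationary phase (`Core`): modulus
  `√(δ dens (j' δ))`, phase `- X λ log λ + X λ log (j' δ / a0) + …`, `X = a0 / (δ eps)`,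
  `λ = j + n p / q`.  The logarithmic profile separates `λ` from `j'`.
* Free phases (`Kron`): the numbers `λ log λ` are independent for pairwise non proportional
  modes `(j, n)`, so `X` gives arbitrary phases to these modes.  Each C-step halves the mass of
  modes having a smaller proportional partner (`Iter`).
* Triple step (`DS`): the phases are made linear in `j` with slope depending on the parent; the
  B-step merges consecutive `j` into Dirichlet kernels in the new invariant variable `z`, so each
  label is spread uniformly over a prescribed arc of length `L / K`, `K = κ'' t`.  The final profile
  `eps = κ'' a0` maps these arcs onto a set `S` of relative measure `L` in the cell (`FS`, `Spec`).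
* Inductive step (`Macro`): `g` has spectral measure close to Lebesgue measure on a set `E` on which
  `t ↦ dist (t, ℤ)` is injective.  All base pieces (of `g` and of finitely many test vectors) get
  essentially disjoint spectral sets (`Des`): pieces on the branch of `g` tile the cell in proportion
  to the mass of `g`, the others get tiny sets of rapidly decreasing size.  Then every test vector is
  `b (U) g'` with `sup ‖b‖ ≤ M`, and `g'` is close to `g`.
* The limit (`Limit`, `S0108`): `g_n → g`, orthonormal orbit by flatness, completeness by von
  Neumann's inequality.
-/
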