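import Crest.Agent.R081.Defs

/-! Elementary facts on representatives, shapes and profiles. -/

set_option autoImplicit false

namespace Crest.Agent.R081

open MeasureTheory Set Filter Topology Crest.AnalysisR.Torus3 Crest.Agent.R210 Crest.Agent.R075

theorem rep_mem (x : UnitAddCircle) : rep x ∈ Ico (0 : ℝ) 1 := by
  have := (AddCircle.equivIco 1 0 x).2
  simpa [rep] using this

@[simp] theorem coe_rep (x : UnitAddCircle) : ((rep x : ℝ) : UnitAddCircle) = x := AddCircle.coe_equivIco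

theorem rep_coe (x : ℝ) : rep (x : UnitAddCircle) = Int.fract x := by
  simp [rep]

theorem measurable_rep : Measurable rep :=
  measurable_subtype_coe.comp (AddCircle.measurableEquivIco 1 0).measurable

/-- `rep` pushes the Haar probability measure to Lebesgue measure on `[0,1)`. -/
theorem measurePreserving_rep :
    MeasurePreserving rep (volume : Measure UnitAddCircle) (volume.restrict (Ico (0 : ℝ) 1)) := by
  refine ⟨measurable_rep, ?_⟩
  have h := UnitAddCircle.measurePreserving_mk 0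
  rw [zero_add, ← Measure.restrict_congr_set Ico_ae_eq_Ioc] at h
  rw [← h.map_eq, Measure.map_map measurable_rep h.measurable]
  have : (rep ∘ fun x : ℝ => (x : UnitAddCircle)) =ᵐ[volume.restrict (Ico (0 : ℝ) 1)] id := by
    filter_upwards [ae_restrict_mem measurableSet_Ico] with x hx
    simp only [Function.comp, id, rep_coe]
    exact Int.fract_eq_self.2 hx
  rw [Measure.map_congr this, Measure.map_id]

theorem integral_rep (F : ℝ → ℂ) (hF : Measurable F) :
    ∫ x : UnitAddCircle, F (rep x) = ∫ w in (0 : ℝ)..1, F w := by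
  rw [intervalIntegral.integral_of_le zero_le_one, ← integral_Ico_eq_integral_Ioc,
    ← measurePreserving_rep.map_eq, integral_map measurable_rep.aemeasurable
      hF.aestronglyMeasurable]

theorem fourier_rep (j : ℤ) (x : UnitAddCircle) : fourier j x = ee (j * rep x) := by
  conv_lhs => rw [← coe_rep x]
  rw [fourier_coe_apply, ee]
  congr 1
  push_cast
  ring

theorem fourier_coe (j : ℤ) (x : ℝ) : fourier j (x : UnitAddCircle) = ee (j * x) := by
  rw [fourier_coe_apply, ee]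
  congr 1
  push_cast
  ring

/-- A function of integer degree descends to the circle. -/
theorem coe_rep_deg {f : ℝ → ℝ} {N : ℤ} (hf : ∀ w, f (w + 1) = f w + N) (x : ℝ) :
    ((f (rep (x : UnitAddCircle)) : ℝ) : UnitAddCircle) = ((f x : ℝ) : UnitAddCircle) := by
  have hp : Function.Periodic (fun w => f w - N * w) 1 := fun w => by
    simp only [hf]
    ring
  have h1 := hp.sub_int_mul_eq (x := x) ⌊x⌋
  simp only [mul_one] at h1
  have h2 : f (Int.fract x) = f x + ((-(N * ⌊x⌋) : ℤ) : ℝ) := by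
    rw [Int.fract]
    push_cast
    linarith
  rw [rep_coe, h2, AddCircle.coe_add]
  have h3 : ((((-(N * ⌊x⌋) : ℤ) : ℝ)) : UnitAddCircle) = 0 :=
    (AddCircle.coe_eq_zero_iff _).2 ⟨-(N * ⌊x⌋), by simp⟩
  rw [h3, add_zero]

/-- Use `B w = ⌊w⌋ + smoothTransition ((fract w - (1 - μ)) / μ)`; near any point it agrees with
`k - 1 + smoothTransition ((w - k + μ) / μ)` for a suitable integer `k`. -/
theorem exists_shape {μ : ℝ} (h0 : 0 < μ) (h1 : μ ≤ 1 / 2) : ∃ S : Shape, S.mu = μ := by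
  refine ⟨⟨μ, fun w => ⌊w⌋ + Real.smoothTransition ((Int.fract w - (1 - μ)) / μ), h0, h1,
    ?_, ?_, ?_, ?_⟩, rfl⟩
  · refine contDiff_iff_contDiffAt.2 fun w₀ => ?_
    have hsm : ContDiff ℝ (⊤ : ℕ∞) fun w : ℝ =>
        ((⌈w₀⌉ : ℝ) - 1) + Real.smoothTransition ((w - ⌈w₀⌉ + μ) / μ) :=
      contDiff_const.add ((Real.smoothTransition.contDiff (n := ⊤)).comp
        (f := fun w : ℝ => (w - ⌈w₀⌉ + μ) / μ) (by fun_prop))
    refine hsm.contDiffAt.congr_of_eventuallyEq ?_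
    have hm : Ioo ((⌈w₀⌉ : ℝ) - 1) (⌈w₀⌉ + 1 / 2) ∈ 𝓝 w₀ :=
      Ioo_mem_nhds (by linarith [Int.ceil_lt_add_one w₀]) (by linarith [Int.le_ceil w₀])
    filter_upwards [hm] with w hw
    rcases lt_or_ge w ⌈w₀⌉ with h | h
    · have hf : ⌊w⌋ = ⌈w₀⌉ - 1 := Int.floor_eq_iff.2 ⟨by push_cast; exact hw.1.le,
        by push_cast; linarith⟩
      rw [Int.fract, hf]
      push_cast
      congr 3
      ring
    · have hf : ⌊w⌋ = ⌈w₀⌉ := Int.floor_eq_iff.2 ⟨h, by linarith [hw.2]⟩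
      rw [Int.fract, hf, Real.smoothTransition.zero_of_nonpos,
        Real.smoothTransition.one_of_one_le]
      · ring
      · rw [le_div_iff₀ h0]
        linarith
      · exact div_nonpos_of_nonpos_of_nonneg (by linarith [hw.2]) h0.le
  · intro w
    simp only [Int.floor_add_one, Int.fract_add_one]
    push_cast
    ring
  · intro w hw
    have hf : ⌊w⌋ = 0 := Int.floor_eq_iff.2 ⟨by simpa using hw.1, by
      have := hw.2
      push_cast
      linarith⟩
    simp only [Int.fract, hf]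
    rw [Real.smoothTransition.zero_of_nonpos]
    · simp
    · exact div_nonpos_of_nonpos_of_nonneg (by push_cast; linarith [hw.2]) h0.le
  · intro w hw
    rcases hw.2.lt_or_eq with h | h
    · have hf : ⌊w⌋ = 0 := Int.floor_eq_iff.2 ⟨by simpa using hw.1, by simpa using h⟩
      simp only [hf, Int.cast_zero, zero_add]
      exact ⟨Real.smoothTransition.nonneg _, Real.smoothTransition.le_one _⟩
    · subst h
      simp only [Int.floor_one, Int.fract_one, Int.cast_one]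
      rw [Real.smoothTransition.zero_of_nonpos]
      · simp
      · exact div_nonpos_of_nonpos_of_nonneg (by linarith) h0.le

theorem exists_prof (S : Shape) {κ : ℝ} (hκ : 0 < κ) :
    ∀ᶠ δ in 𝓝[>] (0 : ℝ), ∃ P : Prof, P.Is δ κ S := by
  filter_upwards [Ioo_mem_nhdsGT (show (0 : ℝ) < 1 / (2 * κ) by positivity)] with δ hδ
  refine ⟨⟨δ, κ * δ, S, hδ.1, mul_pos hκ hδ.1, ?_⟩, rfl, rfl, rfl⟩
  have := hδ.2
  rw [lt_div_iff₀ (by positivity)] at this
  linarith

theorem Shape.abs_le (S : Shape) (w : ℝ) : |w - S.B w| ≤ 1 := by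
  have hp : Function.Periodic (fun w => w - S.B w) 1 := fun w => by
    simp only [S.per]
    ring
  obtain ⟨y, hy, h⟩ := hp.exists_mem_Ico₀ one_pos w
  have hb := S.bd y (Ico_subset_Icc_self hy)
  rw [h, _root_.abs_le]
  constructor <;> linarith [hy.1, hy.2, hb.1, hb.2]

theorem Prof.den_mem (P : Prof) (w : ℝ) :
    1 / 2 ≤ 1 - P.eps * (w - P.sh.B w) ∧ 1 - P.eps * (w - P.sh.B w) ≤ 3 / 2 := by
  have h := abs_le.1 (P.sh.abs_le w)
  have h1 := P.eps_pos
  have h2 := P.eps_le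
  constructor <;> nlinarith [h.1, h.2]

theorem Prof.al_contDiff (P : Prof) : ContDiff ℝ (⊤ : ℕ∞) P.al := by
  have h := P.sh.smooth
  exact contDiff_const.div (contDiff_const.sub (contDiff_const.mul (contDiff_id.sub h)))
    fun w => by have := (P.den_mem w).1; linarith

theorem Prof.al_periodic (P : Prof) : Function.Periodic P.al 1 := fun w => by
  simp only [Prof.al, P.sh.per]
  congr 3
  ring

theorem Prof.al_bounds (P : Prof) (w : ℝ) : P.a0 / 2 ≤ P.al w ∧ P.al w ≤ 2 * P.a0 := by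
  have h := P.den_mem w
  have h0 := P.a0_pos
  have h1 : 0 < 1 - P.eps * (w - P.sh.B w) := by linarith [h.1]
  unfold Prof.al
  rw [le_div_iff₀ h1, div_le_iff₀ h1]
  constructor <;> nlinarith [h.1, h.2]

theorem Prof.mul_al_eq (P : Prof) (lam : ℝ) {w : ℝ} (hw : w ∈ Icc (0 : ℝ) (1 - P.sh.mu)) :
    lam * P.al w = P.tt lam w := by
  rw [Prof.al, Prof.tt, P.sh.zero w hw, sub_zero, mul_div_assoc]

theorem Prof.AA_hasDerivAt (P : Prof) (w : ℝ) : HasDerivAt P.AA (P.al w) w :=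
  (P.al_contDiff.continuous.integral_hasStrictDerivAt 0 w).hasDerivAt

theorem Prof.AA_contDiff (P : Prof) : ContDiff ℝ (⊤ : ℕ∞) P.AA := by
  have h : deriv P.AA = P.al := funext fun w => (P.AA_hasDerivAt w).deriv
  refine contDiff_infty_iff_deriv.2 ⟨fun w => (P.AA_hasDerivAt w).differentiableAt, ?_⟩
  rw [h]
  exact P.al_contDiff

theorem Prof.AA_add_one (P : Prof) (w : ℝ) : P.AA (w + 1) = P.AA w + P.AA 1 := by
  have hi : ∀ a b, IntervalIntegrable P.al volume a b :=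
    fun a b => P.al_contDiff.continuous.intervalIntegrable a b
  have h := P.al_periodic.intervalIntegral_add_eq w 0
  rw [zero_add] at h
  unfold Prof.AA
  rw [← h, intervalIntegral.integral_add_adjacent_intervals (hi _ _) (hi _ _)]

theorem Prof.AA_eq (P : Prof) {w : ℝ} (hw : w ∈ Icc (0 : ℝ) (1 - P.sh.mu)) :
    P.AA w = -(P.a0 / P.eps) * Real.log (1 - P.eps * w) := by
  have he := P.eps_pos
  have hd : ∀ u ∈ uIcc 0 w,
      HasDerivAt (fun u => -(P.a0 / P.eps) * Real.log (1 - P.eps * u)) (P.al u) u := by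
    intro u hu
    rw [uIcc_of_le hw.1] at hu
    have hu' : u ∈ Icc (0 : ℝ) (1 - P.sh.mu) := ⟨hu.1, hu.2.trans hw.2⟩
    have h1 := (P.den_mem u).1
    rw [P.sh.zero u hu', sub_zero] at h1
    have h2 : 1 - P.eps * u ≠ 0 := by linarith
    have h3 : HasDerivAt (fun u => 1 - P.eps * u) (-P.eps) u := by
      simpa using ((hasDerivAt_id u).const_mul P.eps).const_sub 1
    refine ((h3.log h2).const_mul (-(P.a0 / P.eps))).congr_deriv ?_
    rw [Prof.al, P.sh.zero u hu', sub_zero]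
    field_simp
  rw [Prof.AA, intervalIntegral.integral_eq_sub_of_hasDerivAt hd
    (P.al_contDiff.continuous.intervalIntegrable _ _)]
  simp

theorem Prof.Afn_contDiff (P : Prof) (q : ℤ) (δ e1 : ℝ) : ContDiff ℝ (⊤ : ℕ∞) (P.Afn q δ e1) :=
  ((P.AA_contDiff.div_const _).add (contDiff_const.mul contDiff_id)).add
    (contDiff_const.mul P.sh.smooth)

theorem Prof.Afn_deg (P : Prof) (q : ℤ) (δ e1 : ℝ) :
    ∃ N : ℤ, ∀ w, P.Afn q δ e1 (w + 1) = P.Afn q δ e1 w + N := by
  refine ⟨-⌊-(P.AA 1 / (q * δ) + e1)⌋, fun w => ?_⟩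
  simp only [Prof.Afn, P.AA_add_one, P.sh.per, Int.fract]
  push_cast
  ring

theorem Prof.Afn_eq (P : Prof) (q : ℤ) (δ e1 : ℝ) {w : ℝ} (hw : w ∈ Icc (0 : ℝ) (1 - P.sh.mu)) :
    P.Afn q δ e1 w = P.AA w / (q * δ) + e1 * w := by
  rw [Prof.Afn, P.sh.zero w hw, mul_zero, add_zero]

theorem Prof.prof_den (P : Prof) {w : ℝ} (hw : w ≤ 1) : 0 < 1 - P.eps * w := by
  nlinarith [P.eps_pos, P.eps_le]

theorem Prof.tt_pos (P : Prof) {lam w : ℝ} (hl : 0 < lam) (hw : w ≤ 1) : 0 < P.tt lam w :=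
  div_pos (mul_pos hl P.a0_pos) (P.prof_den hw)

theorem Prof.tt_ge (P : Prof) {lam w : ℝ} (hl : 0 < lam) (h0 : 0 ≤ w) (hw : w ≤ 1) :
    lam * P.a0 ≤ P.tt lam w ∧ P.tt lam w ≤ lam * P.a0 / (1 - P.eps) := by
  have h1 := P.prof_den hw
  have h2 := mul_pos hl P.a0_pos
  have h3 := P.eps_pos
  have h4 := P.eps_le
  unfold Prof.tt
  constructor
  · rw [le_div_iff₀ h1]
    nlinarith [mul_nonneg h3.le h0]
  · exact div_le_div_of_nonneg_left h2.le (by linarith) (by nlinarith)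

theorem Prof.tt_lt_tt (P : Prof) {lam w w' : ℝ} (hl : 0 < lam) (h : w < w') (hw : w' ≤ 1) :
    P.tt lam w < P.tt lam w' :=
  div_lt_div_of_pos_left (mul_pos hl P.a0_pos) (P.prof_den hw) (by nlinarith [P.eps_pos])

theorem Prof.tt_le_tt (P : Prof) {lam w w' : ℝ} (hl : 0 < lam) (h : w ≤ w') (hw : w' ≤ 1) :
    P.tt lam w ≤ P.tt lam w' :=
  div_le_div_of_nonneg_left (mul_pos hl P.a0_pos).le (P.prof_den hw) (by nlinarith [P.eps_pos])

theorem Prof.ws_tt (P : Prof) {lam w : ℝ} (hl : 0 < lam) (hw : w ≤ 1) :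
    P.ws lam (P.tt lam w) = w := by
  have h1 := (P.prof_den hw).ne'
  have h2 := P.a0_pos.ne'
  have h3 := P.eps_pos.ne'
  unfold Prof.ws Prof.tt
  field_simp
  ring

theorem Prof.tt_ws (P : Prof) {lam t : ℝ} (hl : 0 < lam) (ht : 0 < t) :
    P.tt lam (P.ws lam t) = t := by
  have h2 := P.a0_pos.ne'
  have h3 := P.eps_pos.ne'
  have h4 : 1 - P.eps * P.ws lam t = lam * P.a0 / t := by
    unfold Prof.ws
    field_simp
    ring
  rw [Prof.tt, h4]
  field_simp

theorem Prof.tt_le_iff (P : Prof) {lam w t : ℝ} (hl : 0 < lam) (hw : w ≤ 1) (ht : 0 < t) :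
    P.tt lam w ≤ t ↔ w ≤ P.ws lam t := by
  rw [Prof.tt, Prof.ws, div_le_iff₀ (P.prof_den hw), le_div_iff₀ P.eps_pos, le_sub_comm,
    div_le_iff₀ ht]
  constructor <;> intro h <;> linarith

theorem Prof.lt_tt_iff (P : Prof) {lam w t : ℝ} (hl : 0 < lam) (hw : w ≤ 1) (ht : 0 < t) :
    t < P.tt lam w ↔ P.ws lam t < w := by
  rw [← not_le, ← not_le, P.tt_le_iff hl hw ht]

theorem mem_Wi {x y δ : ℝ} (hδ : 0 < δ) {j : ℤ} : j ∈ Wi x y δ ↔ x ≤ j * δ ∧ j * δ < y := by
  rw [Wi, Finset.mem_Ico, Int.ceil_le, Int.lt_ceil, div_le_iff₀ hδ, lt_div_iff₀ hδ]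

theorem card_Wi_le {x y δ : ℝ} (hδ : 0 < δ) (hxy : x ≤ y) :
    ((Wi x y δ).card : ℝ) ≤ (y - x) / δ + 1 := by
  have h1 : ⌈x / δ⌉ ≤ ⌈y / δ⌉ := Int.ceil_le_ceil (div_le_div_of_nonneg_right hxy hδ.le)
  have h2 : (((Wi x y δ).card : ℤ) : ℝ) = ((⌈y / δ⌉ - ⌈x / δ⌉ : ℤ) : ℝ) := by
    rw [Wi, Int.card_Ico_of_le _ _ h1]
  push_cast at h2
  rw [h2, sub_div]
  linarith [Int.le_ceil (x / δ), Int.ceil_lt_add_one (y / δ)]

theorem norm_fres : ‖fres‖ = 1 := (Classical.choose_spec fresnel).1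

/-- Change of variables `t = tt lam w`, `dw = lam a0 / (eps t²) dt`
(`integral_image_eq_integral_abs_deriv_smul` or its `lintegral` form). -/
theorem Prof.volume_preimage (P : Prof) {lam a b : ℝ} (hl : 0 < lam) (hab : a ≤ b) (hb : b ≤ 1)
    {A : Set ℝ} (hA : MeasurableSet A) :
    (volume (Ico a b ∩ {w | P.tt lam w ∈ A})).toReal =
      ∫ t in A ∩ Ico (P.tt lam a) (P.tt lam b), lam * P.a0 / (P.eps * t ^ 2) := by
  have ha : a ≤ 1 := hab.trans hb
  have hpos : ∀ t ∈ A ∩ Ico (P.tt lam a) (P.tt lam b), 0 < t := fun t ht =>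
    (P.tt_pos hl ha).trans_le ht.2.1
  have hla := mul_pos hl P.a0_pos
  have he := P.eps_pos
  have hd : ∀ t ∈ A ∩ Ico (P.tt lam a) (P.tt lam b), HasDerivWithinAt (P.ws lam)
      (lam * P.a0 / (P.eps * t ^ 2)) (A ∩ Ico (P.tt lam a) (P.tt lam b)) t := by
    intro t ht
    have h0 := (hpos t ht).ne'
    have h1 := (((hasDerivAt_const t (lam * P.a0)).div (hasDerivAt_id t) h0).const_sub
      1).div_const P.eps
    refine (h1.congr_deriv ?_).hasDerivWithinAt
    simp only [id]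
    field_simp
    ring
  have hinj : InjOn (P.ws lam) (A ∩ Ico (P.tt lam a) (P.tt lam b)) := fun t ht t' ht' h => by
    rw [← P.tt_ws hl (hpos t ht), h, P.tt_ws hl (hpos t' ht')]
  have himg : P.ws lam '' (A ∩ Ico (P.tt lam a) (P.tt lam b))
      = Ico a b ∩ {w | P.tt lam w ∈ A} := by
    ext w
    constructor
    · rintro ⟨t, ht, rfl⟩
      refine ⟨⟨(P.tt_le_iff hl ha (hpos t ht)).1 ht.2.1, (P.lt_tt_iff hl hb (hpos t ht)).1 ht.2.2⟩,
        ?_⟩
      show P.tt lam (P.ws lam t) ∈ A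
      rw [P.tt_ws hl (hpos t ht)]
      exact ht.1
    · rintro ⟨hw, hA'⟩
      have hw1 : w ≤ 1 := hw.2.le.trans hb
      exact ⟨P.tt lam w, ⟨hA', P.tt_le_tt hl hw.1 hw1, P.tt_lt_tt hl hw.2 hb⟩, P.ws_tt hl hw1⟩
  have h := integral_image_eq_integral_abs_deriv_smul (hA.inter measurableSet_Ico) hd hinj
    fun _ => (1 : ℝ)
  rw [himg, setIntegral_const, smul_eq_mul, mul_one] at h
  refine h.trans (setIntegral_congr_fun (hA.inter measurableSet_Ico) fun t ht => ?_)
  have := hpos t ht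
  simp only [smul_eq_mul, mul_one]
  exact abs_of_pos (by positivity)

/-- The spectral mass of a piece is the integral of its density. -/
theorem Pc.integral_dens {P : Prof} {p : Pc} (hp : p.Valid P) {A : Set ℝ} (hA : MeasurableSet A) :
    ∫ w in Ico (0 : ℝ) 1 ∩ {w | (p.j : ℝ) * P.al w ∈ A}, ‖p.fn w‖ ^ 2 = ∫ t in A, p.dens P t := by
  obtain ⟨hj, ha, hab, hb⟩ := hp
  have hj' : (0 : ℝ) < p.j := by exact_mod_cast (show (0 : ℤ) < p.j by omega)
  have hmu := P.sh.mu_pos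
  have h1 : (fun w => ‖p.fn w‖ ^ 2) = (Ico p.a p.b).indicator fun _ => ‖p.c‖ ^ 2 := by
    ext w
    by_cases hw : w ∈ Ico p.a p.b
    · rw [Pc.fn, indicator_of_mem hw, indicator_of_mem hw, norm_mul, ee,
        Complex.norm_exp_ofReal_mul_I, mul_one]
    · rw [Pc.fn, indicator_of_notMem hw, indicator_of_notMem hw]
      simp
  have h2 : Ico (0 : ℝ) 1 ∩ {w | (p.j : ℝ) * P.al w ∈ A} ∩ Ico p.a p.b
      = Ico p.a p.b ∩ {w | P.tt p.j w ∈ A} := by
    ext w
    constructor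
    · rintro ⟨⟨-, h⟩, hw⟩
      refine ⟨hw, ?_⟩
      show P.tt p.j w ∈ A
      rw [← P.mul_al_eq _ ⟨ha.trans hw.1, hw.2.le.trans hb⟩]
      exact h
    · rintro ⟨hw, h⟩
      refine ⟨⟨⟨ha.trans hw.1, by linarith [hw.2]⟩, ?_⟩, hw⟩
      show (p.j : ℝ) * P.al w ∈ A
      rw [P.mul_al_eq _ ⟨ha.trans hw.1, hw.2.le.trans hb⟩]
      exact h
  rw [h1, setIntegral_indicator measurableSet_Ico, h2, setIntegral_const, Pc.dens,
    setIntegral_indicator measurableSet_Ico, Measure.real,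
    P.volume_preimage hj' hab.le (by linarith) hA, smul_eq_mul, ← integral_mul_const]
  congr 1
  ext t
  ring

theorem Pc.integrable_dens {P : Prof} {p : Pc} (hp : p.Valid P) : Integrable (p.dens P) := by
  obtain ⟨hj, ha, hab, hb⟩ := hp
  have hj' : (0 : ℝ) < p.j := by exact_mod_cast (show (0 : ℤ) < p.j by omega)
  have hmu := P.sh.mu_pos
  have he := P.eps_pos
  rw [Pc.dens, integrable_indicator_iff measurableSet_Ico]
  refine IntegrableOn.mono_set (ContinuousOn.integrableOn_Icc ?_) Ico_subset_Icc_self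
  refine continuousOn_const.div (by fun_prop) fun t ht => ?_
  have : 0 < t := (P.tt_pos hj' (by linarith)).trans_le ht.1
  positivity

theorem Pc.dens_nonneg {P : Prof} {p : Pc} (hp : p.Valid P) (t : ℝ) : 0 ≤ p.dens P t := by
  obtain ⟨hj, -, -, -⟩ := hp
  have hj' : (0 : ℝ) < p.j := by exact_mod_cast (show (0 : ℤ) < p.j by omega)
  have he := P.eps_pos
  have h0 := P.a0_pos
  exact indicator_nonneg (fun t _ => by positivity) t

end Crest.Agent.R081
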