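import Crest.Agent.R081.FS
import Crest.Agent.R081.Dec

/-! Prescribing the spectral sets of the base pieces. -/

set_option autoImplicit false

namespace Crest.Agent.R081

open MeasureTheory Set Filter Topology Crest.AnalysisR.Torus3 Crest.Agent.R210 Crest.Agent.R075

theorem spec_mono {Λ : Type} {P : Prof} {Y : FM Λ} {s : Finset Λ} {N : ℕ} {ν : Λ → ℤ} {L Pos : Λ → ℝ}
    {S : Λ → Set ℝ} {Om : Λ → ℤ → Set ℝ} {C C' η : ℝ} (h : SOut P Y s N ν L Pos S Om C η)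
    (hC : C ≤ C') (hL : ∀ κ ∈ s, 0 < L κ) : SOut P Y s N ν L Pos S Om C' η := by
  obtain ⟨h1, h2, h3, h4, h5⟩ := h
  refine ⟨h1, h2, h3, h4, fun κ hκ A hA => (h5 κ hκ A hA).trans ?_⟩
  have := hL κ hκ
  gcongr

theorem spec_const {a b : ℝ} (h0 : 0 < b) (h1 : b ≤ 1 / 4) (ha : a ≤ 3 * b) :
    (1 + b) ^ 2 * (1 + 4 * b) * (1 + a) ≤ 1 + 20 * b := by
  have h2 : (1 + b) ^ 2 * (1 + 4 * b) * (1 + a) ≤ (1 + b) ^ 2 * (1 + 4 * b) * (1 + 3 * b) := by gcongr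
  refine h2.trans ?_
  have h3 : b ^ 2 ≤ b / 4 := by nlinarith
  have h4 : b ^ 3 ≤ b / 16 := by nlinarith
  have h5 : b ^ 4 ≤ b / 64 := by nlinarith
  nlinarith

theorem spec_Dm {b d S S0 n K L e : ℝ} (h0 : 0 < b) (h1 : b ≤ 1 / 4) (hd0 : 0 ≤ d) (hd : d ≤ b / 8)
    (hS : S = (1 + b / 8) * S0) (hS0 : 0 ≤ S0) (hS1 : S0 ≤ (1 + b) * (1 + 4 * b) * n) (hK : 0 < K)
    (hL : 0 < L) (he : 2 * e ≤ L / K * (b / 4)) :
    (1 + d) * S / (L / K - 2 * e) ≤ (1 + b) ^ 2 * (1 + 4 * b) * n * K / L := by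
  have hx : 0 < L / K := by positivity
  have h2 : L / K * (1 - b / 4) ≤ L / K - 2 * e := by linarith
  have h3 : 0 < 1 - b / 4 := by linarith
  have h4 : (1 + d) * (1 + b / 8) ≤ (1 + b) * (1 - b / 4) := by nlinarith
  have h5 : (1 + d) * S ≤ (1 + b) * (1 - b / 4) * ((1 + b) * (1 + 4 * b) * n) := by
    rw [hS, ← mul_assoc]
    exact mul_le_mul h4 hS1 hS0 (by positivity)
  refine (div_le_div₀ (le_trans (by rw [hS]; positivity) h5) h5 (by positivity) h2).trans (le_of_eq ?_)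
  generalize 1 - b / 4 = y at h3
  field_simp

set_option maxHeartbeats 1000000 in
/-- `iter`, `dstep`, `fstage` applied to the base family. -/
theorem spec (H : VD) (P : Prof) {Ξ : Finset (ℤ × ℤ)} (hΞ : ∀ ξ ∈ Ξ, 1 ≤ ξ.1) {N : ℕ} (hN : 1 ≤ N)
    {μ0 η1 : ℝ} (h0 : 0 < μ0) (h1 : μ0 ≤ η1) (h2 : 1 / (2 * N * P.a0) ≤ η1) (h3 : η1 ≤ 1 / 4)
    (L Pos : (ℤ × ℤ) × ℤ → ℝ) (hL : ∀ κ ∈ KS P Ξ N, 0 < L κ ∧ 0 ≤ Pos κ ∧ Pos κ + L κ ≤ 1)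
    (k : ℕ) {τ η : ℝ} (hτ : 0 < τ) (hη : 0 < η) :
    ∃ (H' : VD) (P' : Prof) (Y : FM ((ℤ × ℤ) × ℤ)) (S : (ℤ × ℤ) × ℤ → Set ℝ)
      (Om : (ℤ × ℤ) × ℤ → ℤ → Set ℝ), Close2 k τ (TT H P 0) (TT H' P' 0) ∧ Y.Ok ∧
      (∀ i, 1 ≤ Y.j i) ∧ (∀ i, Y.lab i ∈ KS P Ξ N) ∧
      (∀ κ ∈ KS P Ξ N, ‖kp H (upc P N μ0 κ).vec - kp H' (Y.vecL κ)‖ ≤ η) ∧
      SOut P' Y (KS P Ξ N) N (fun κ => κ.2) L Pos S Om (1 + 20 * η1) η := by
  classical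
  have hη1 : 0 < η1 := h0.trans_le h1
  have hμ4 : μ0 ≤ 1 / 4 := h1.trans h3
  have ht0 := P.a0_pos
  have hN' : (1 : ℝ) ≤ N := by exact_mod_cast hN
  have hN0 : (0 : ℝ) < 2 * N := by linarith
  have hsm : ∀ c : ℝ, 0 < c → ∀ᶠ x in 𝓝[>] (0 : ℝ), x ≤ c := fun c hc =>
    Filter.mem_of_superset (Ioc_mem_nhdsGT hc) fun x hx => hx.2
  obtain ⟨T, hT1, hT2⟩ : ∃ T : ℝ, P.a0 + 1 ≤ T ∧ ∀ κ ∈ KS P Ξ N, (κ.2 + 1 : ℝ) / (2 * N) ≤ T :=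
    ((eventually_ge_atTop _).and ((eventually_all_finset _).2 fun κ _ => eventually_ge_atTop _)).exists
  obtain ⟨Lm, ⟨hLm1, hLm2⟩, hLm0⟩ : ∃ Lm : ℝ, (Lm ≤ 1 ∧ ∀ κ ∈ KS P Ξ N, Lm ≤ L κ) ∧ Lm ∈ Ioi (0 : ℝ) :=
    (((hsm 1 one_pos).and ((eventually_all_finset _).2 fun κ hκ => hsm _ (hL κ hκ).1)).and
      self_mem_nhdsWithin).exists
  have hLm0 : 0 < Lm := hLm0
  have hT0 : 0 < T := by linarith
  obtain ⟨C, hC⟩ : ∃ C : ℝ, C = (1 + η1) ^ 2 * (1 + 4 * η1) := ⟨_, rfl⟩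
  have hC0 : 0 < C := by rw [hC]; positivity
  obtain ⟨θ, hθ0, hθ⟩ : ∃ θ : ℝ, 0 < θ ∧ (T + 3) * θ * (C * (2 * N)) ≤ η / 8 :=
    ⟨η / 8 / ((T + 3) * (C * (2 * N))), by positivity, le_of_eq (by field_simp)⟩
  obtain ⟨S'', hS''⟩ := exists_shape (μ := min (θ / 2) (1 / 2)) (by positivity) (min_le_right _ _)
  obtain ⟨κ'', hκ0, hκ1, hκ2⟩ : ∃ κ'' : ℝ, 0 < κ'' ∧ 1 ≤ κ'' * P.a0 ∧ 1 / (κ'' * P.a0) ≤ θ / 2 := by
    have e : (2 / θ + 1) / P.a0 * P.a0 = 2 / θ + 1 := by field_simp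
    have h4 : 0 < 2 / θ := by positivity
    refine ⟨(2 / θ + 1) / P.a0, by positivity, by rw [e]; linarith, ?_⟩
    rw [e, ← one_div_div 2 θ]
    exact one_div_le_one_div_of_le h4 (by linarith)
  let lo : (ℤ × ℤ) × ℤ → ℝ := fun κ => if κ ∈ KS P Ξ N then (κ.2 + μ0) / (2 * N) else P.a0
  let hi : (ℤ × ℤ) × ℤ → ℝ := fun κ => if κ ∈ KS P Ξ N then (κ.2 + 1 - μ0) / (2 * N) else P.a0
  let K : (ℤ × ℤ) × ℤ → ℝ := fun κ => κ'' * (κ.2 + 3) / (2 * N)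
  have hK : ∀ κ ∈ KS P Ξ N, 1 ≤ K κ ∧ K κ ≤ κ'' * (T + 1) := by
    intro κ hκ
    have h4 := (KS_bounds hΞ hN hκ).1
    have h5 := hT2 κ hκ
    simp only [K, mul_div_assoc]
    refine ⟨hκ1.trans (mul_le_mul_of_nonneg_left (h4.trans ?_) hκ0.le),
      mul_le_mul_of_nonneg_left ?_ hκ0.le⟩
    · exact div_le_div_of_nonneg_right (by linarith) hN0.le
    · rw [div_le_iff₀ hN0] at h5 ⊢
      linarith
  obtain ⟨l0, hl0, hl1, hl2⟩ : ∃ l0 : ℝ, 0 < l0 ∧ l0 ≤ 1 ∧ ∀ κ ∈ KS P Ξ N, l0 ≤ L κ / K κ := by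
    have h4 : 1 ≤ κ'' * (T + 1) := hκ1.trans (mul_le_mul_of_nonneg_left (by linarith) hκ0.le)
    refine ⟨Lm / (κ'' * (T + 1)), by positivity, (div_le_self hLm0.le h4).trans hLm1, fun κ hκ => ?_⟩
    exact div_le_div₀ (hL κ hκ).1.le (hLm2 κ hκ) (by linarith [(hK κ hκ).1]) (hK κ hκ).2
  obtain ⟨S0, hS0⟩ : ∃ S0 : ℝ, S0 = (1 + 1 / (2 * N * P.a0)) * (1 + 4 * μ0) * (2 * N) := ⟨_, rfl⟩
  have hS00 : 0 ≤ S0 := by rw [hS0]; positivity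
  have hS01 : S0 ≤ (1 + η1) * (1 + 4 * η1) * (2 * N) := by rw [hS0]; gcongr
  obtain ⟨d, hd0, hd1, hd2, hd3⟩ : ∃ d : ℝ, 0 < d ∧ d ≤ η / 2 ∧ d ≤ η1 / 8 ∧ d ≤ μ0 / 4 / (2 * N) :=
    ⟨min (η / 2) (min (η1 / 8) (μ0 / 4 / (2 * N))), by positivity, min_le_left _ _,
      (min_le_right _ _).trans (min_le_left _ _), (min_le_right _ _).trans (min_le_right _ _)⟩
  obtain ⟨M, hM, φ0, hφ0, hD⟩ := dstep (Λ := (ℤ × ℤ) × ℤ) (t0 := P.a0) (T := T) (S := (1 + η1 / 8) * S0)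
    (Lmin := l0 / 2) (e := l0 * η1 / 8) (η := d) ht0 (by linarith) (by positivity) (by positivity)
    (by positivity) hd0
  obtain ⟨d', hd'0, hd'1, hd'2⟩ : ∃ d' : ℝ, 0 < d' ∧ d' ≤ d ∧ d' ≤ φ0 :=
    ⟨min d φ0, by positivity, min_le_left _ _, min_le_right _ _⟩
  have hlo : ∀ κ, P.a0 ≤ lo κ := by
    intro κ
    simp only [lo]
    split_ifs with hκ
    · exact (KS_bounds hΞ hN hκ).1.trans (div_le_div_of_nonneg_right (by linarith) hN0.le)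
    · exact le_rfl
  have hhi1 : ∀ κ ∈ KS P Ξ N, hi κ + d' + d < (κ.2 + 1 : ℝ) / (2 * N) := by
    intro κ hκ
    simp only [hi, if_pos hκ]
    have h4 : (κ.2 + 1 : ℝ) / (2 * N) = (κ.2 + 1 - μ0) / (2 * N) + 4 * (μ0 / 4 / (2 * N)) := by ring
    linarith
  have hhi : ∀ κ, hi κ + d' ≤ T := by
    intro κ
    by_cases hκ : κ ∈ KS P Ξ N
    · linarith [hhi1 κ hκ, hT2 κ hκ]
    · simp only [hi, if_neg hκ]
      linarith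
  obtain ⟨η', hη', hF⟩ := fstage hN (KS P Ξ N) (fun κ => κ.2) L Pos lo (fun κ => hi κ + d' + d)
    (t0 := P.a0) (T := T) (κ'' := κ'') (Lmin := Lm) (C := C) (η := η) (mu := S''.mu) (θ := θ) ht0 hκ0 hLm0
    hC0.le hη (fun κ hκ => ⟨(KS_bounds hΞ hN hκ).1, hT2 κ hκ⟩) (fun κ hκ => ⟨hLm2 κ hκ, (hL κ hκ).2⟩)
    (fun κ hκ => ⟨by
      simp only [lo, if_pos hκ]
      exact div_lt_div_of_pos_right (by linarith) hN0, hhi1 κ hκ⟩)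
    (by rw [hS'']; linarith [min_le_left (θ / 2) (1 / 2)]) hθ
  have hτ2 : 0 < τ / 2 := by positivity
  obtain ⟨H1, P1, F1, c1, v1, i1, n1, p1, m1, l1, d1⟩ := iter H (UF_valid hΞ hN h0 hμ4).1
    (UF_valid hΞ hN h0 hμ4).2 lo hi (T := T) (S := S0) ht0 hlo (fun κ => by linarith [hhi κ]) hS00
    (UF_massL hΞ hN h0 hμ4) (fun κ t => by
      by_cases hκ : κ ∈ KS P Ξ N
      · simp only [lo, hi, if_pos hκ, hS0]
        exact UF_densL hΞ hN h0 hμ4 κ t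
      · refine le_trans (le_of_eq ?_) (indicator_nonneg (fun _ _ => hS00) t)
        refine Finset.sum_eq_zero fun i _ => if_neg fun h => hκ ?_
        rw [← h]
        exact i.2) hM k hτ2 hd'0
  let Pp : (ℤ × ℤ) × ℤ → ℝ := fun κ => Pos κ / K κ + l0 * η1 / 8
  let Lp : (ℤ × ℤ) × ℤ → ℝ := fun κ => if κ ∈ KS P Ξ N then L κ / K κ - 2 * (l0 * η1 / 8) else 1
  have he : ∀ κ ∈ KS P Ξ N, 2 * (l0 * η1 / 8) ≤ L κ / K κ * (η1 / 4) := fun κ hκ =>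
    le_of_eq_of_le (by ring) (mul_le_mul_of_nonneg_right (hl2 κ hκ) (show 0 ≤ η1 / 4 by positivity))
  obtain ⟨H2, P2, Y, δ, ω, hP2, c2, n2, l2, hδ1, hδ2, hO⟩ := hD H1 P1 F1 lo (fun κ => hi κ + d') Pp Lp v1 i1
    (p1.trans hd'2) m1 hlo hhi (fun κ => by
      simp only [Lp]
      split_ifs with hκ
      · have h4 := hl2 κ hκ
        have h5 : L κ / K κ ≤ 1 :=
          (div_le_self (hL κ hκ).1.le (hK κ hκ).1).trans (by linarith [(hL κ hκ).2.1, (hL κ hκ).2.2])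
        have h6 := mul_le_mul_of_nonneg_left h3 hl0.le
        have h7 : 0 < l0 * η1 := by positivity
        constructor <;> linarith
      · constructor <;> linarith)
    (fun κ i t => (d1 κ i t).trans (indicator_le_indicator (by
      have : 1 + d' ≤ 1 + η1 / 8 := by linarith
      gcongr))) S'' κ'' hκ0 k (τ / 2) θ η' hτ2 hθ0.le hη'
  have hlab : ∀ i, Y.lab i ∈ KS P Ξ N := by
    intro i
    obtain ⟨i', h4⟩ := l2 i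
    obtain ⟨i'', h5⟩ := l1 i'
    rw [h4, h5]
    exact i''.2
  obtain ⟨S, Om, hS⟩ := hF P2 Y δ ω _ _ _ d hP2.2.1 (by rw [hP2.2.2]) hδ1 hδ2 hd1 hlab (fun κ hκ => by
    refine ⟨?_, ?_, ?_⟩
    · simp only [Pp, K]
      ring
    · simp only [Pp, Lp, K, if_pos hκ]
      ring
    · simp only [Lp, if_pos hκ, hC]
      exact spec_Dm hη1 h3 hd0.le hd2 rfl hS00 hS01 (by linarith [(hK κ hκ).1]) (hL κ hκ).1 (he κ hκ)) hO
  refine ⟨H2, P2, Y, S, Om, (c1.trans c2).mono le_rfl (le_of_eq (by ring)), hO.2.2.2.1, hO.2.2.2.2.1, hlab,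
    fun κ hκ => ?_, spec_mono hS ?_ fun κ hκ => (hL κ hκ).1⟩
  · rw [← UF_vecL hκ]
    have h4 := norm_sub_le_norm_sub_add_norm_sub (kp H ((UF P Ξ N μ0).vecL κ)) (kp H1 (F1.vecL κ))
      (kp H2 (Y.vecL κ))
    linarith [n1 κ, n2 κ]
  · rw [hC]
    refine spec_const hη1 h3 ?_
    rw [div_eq_mul_one_div]
    linarith

end Crest.Agent.R081
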